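import Vale.Agent.P074.Upper

/-! Admissibility of the exponents up to one third, and uniqueness of optimal maps. -/

open MeasureTheory Filter Set
open scoped ENNReal NNReal RealInnerProductSpace Topology

namespace Vale.Agent.P074

variable {d : ℕ} {K Y : Set (Spc d)} {R r : ℝ} {c₀ : Spc d}

lemma sq_dist_three {a b c e : Spc d} :
    ‖a - e‖ ^ 2 ≤ 3 * (‖a - b‖ ^ 2 + ‖b - c‖ ^ 2 + ‖c - e‖ ^ 2) := by
  have h : ‖a - e‖ ≤ ‖a - b‖ + ‖b - c‖ + ‖c - e‖ := by
    have e' : a - e = (a - b) + (b - c) + (c - e) := by abel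
    rw [e']; exact norm_add₃_le
  have h2 := pow_le_pow_left₀ (norm_nonneg _) h 2
  nlinarith [sq_nonneg (‖a - b‖ - ‖b - c‖), sq_nonneg (‖b - c‖ - ‖c - e‖),
    sq_nonneg (‖a - b‖ - ‖c - e‖)]

/-- The squared `L²` distance of two optimal maps is bounded by the cube root of any coupling
cost. -/
theorem integral_sq_le_cost (hD : Data K Y R c₀ r) {π : Measure (Spc d × Spc d)}
    [IsProbabilityMeasure π] {μ ν : Measure (Spc d)} [IsProbabilityMeasure μ]
    [IsProbabilityMeasure ν] (h1 : π.map Prod.fst = μ) (h2 : π.map Prod.snd = ν)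
    (hμY : μ Yᶜ = 0) (hνY : ν Yᶜ = 0) {T S : Spc d → Spc d}
    (hT : IsOptimalMap (uniformOn K) μ T) (hS : IsOptimalMap (uniformOn K) ν S) :
    ∫ x, ‖T x - S x‖ ^ 2 ∂uniformOn K
      ≤ 3 * interpC K R r * (linA R * ∫ p, ‖p.2 - p.1‖ ^ 2 ∂π) ^ (1 / 3 : ℝ) := by
  have := hD.body.isProb
  have hR := hD.body.nonneg
  have hπ : ∀ᵐ p ∂π, p.1 ∈ Y ∧ p.2 ∈ Y := by
    refine ((ae_map_iff measurable_fst.aemeasurable hD.target.measurableSet).1 ?_).and
      ((ae_map_iff measurable_snd.aemeasurable hD.target.measurableSet).1 ?_)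
    · rw [h1]; exact mem_ae_iff.2 hμY
    · rw [h2]; exact mem_ae_iff.2 hνY
  set ρ := uniformOn K
  set cost := ∫ p, ‖p.2 - p.1‖ ^ 2 ∂π
  have hTb : ∀ᵐ x ∂ρ, ‖T x‖ ≤ R :=
    (ae_mem_of_map hD hμY hT.1 hT.2.1).mono fun x hx => norm_le_of_mem hD hx
  have hSb : ∀ᵐ x ∂ρ, ‖S x‖ ≤ R :=
    (ae_mem_of_map hD hνY hS.1 hS.2.1).mono fun x hx => norm_le_of_mem hD hx
  set F : ℝ → ℝ := fun η => 3 * (2 * (2 * R * (gapC K R * Real.sqrt (16 * R * η))))
    + 3 * interpC K R r * (linA R * (cost + 20 * R * η) + η) ^ (1 / 3 : ℝ) with hF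
  have key : ∀ η, 0 < η → η ≤ 1 → ∫ x, ‖T x - S x‖ ^ 2 ∂ρ ≤ F η := by
    intro η hη hη1
    obtain ⟨T', S', hA, hB, hmain⟩ := exists_approx_pair hD.dim hD.body hD.radius hD.ball
      hD.target hD.target_le π hπ hη hη1
    rw [h1] at hA
    rw [h2] at hB
    have bnd : ∀ {U V : Spc d → Spc d}, (∀ᵐ x ∂ρ, ‖U x‖ ≤ R) → (∀ᵐ x ∂ρ, ‖V x‖ ≤ R) →
        ∀ᵐ x ∂ρ, ‖U x - V x‖ ≤ 2 * R := fun hU hV => by
      filter_upwards [hU, hV] with x hx hx'
      exact (norm_sub_le _ _).trans (by linarith)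
    have int2 : ∀ {U V : Spc d → Spc d}, Measurable U → Measurable V →
        (∀ᵐ x ∂ρ, ‖U x - V x‖ ≤ 2 * R) → Integrable (fun x => ‖U x - V x‖ ^ 2) ρ :=
      fun hU hV h => Integrable.of_bound ((hU.sub hV).norm.pow_const 2).aestronglyMeasurable
        ((2 * R) ^ 2) (h.mono fun x hx => by
          rw [norm_pow, norm_norm]; exact pow_le_pow_left₀ (norm_nonneg _) hx 2)
    have bT : ∀ᵐ x ∂ρ, ‖T' x‖ ≤ R := Eventually.of_forall hA.2.1
    have bS : ∀ᵐ x ∂ρ, ‖S' x‖ ≤ R := Eventually.of_forall hB.2.1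
    have b1 := bnd hTb bT
    have b2 := bnd bT bS
    have b3 := bnd bS hSb
    have i1 := int2 hT.1 hA.1 b1
    have i2 := int2 hA.1 hB.1 b2
    have i3 := int2 hB.1 hS.1 b3
    have e1 : ∫ x, ‖T x - T' x‖ ^ 2 ∂ρ ≤ 2 * R * (gapC K R * Real.sqrt (16 * R * η)) :=
      (integral_sq_le hD.body (hT.1.sub hA.1) b1).trans
        (mul_le_mul_of_nonneg_left (optimal_close hD hμY hT hη hA) (by positivity))
    have e3 : ∫ x, ‖S' x - S x‖ ^ 2 ∂ρ ≤ 2 * R * (gapC K R * Real.sqrt (16 * R * η)) := by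
      simp only [norm_sub_rev (S' _)]
      exact (integral_sq_le hD.body (hS.1.sub hB.1) (by simpa [norm_sub_rev] using b3)).trans
        (mul_le_mul_of_nonneg_left (optimal_close hD hνY hS hη hB) (by positivity))
    have e2 : ∫ x, ‖T' x - S' x‖ ^ 2 ∂ρ
        ≤ interpC K R r * (linA R * (cost + 20 * R * η) + η) ^ (1 / 3 : ℝ) := by
      simp only [norm_sub_rev (T' _)]; exact hmain
    calc ∫ x, ‖T x - S x‖ ^ 2 ∂ρ
        ≤ ∫ x, 3 * (‖T x - T' x‖ ^ 2 + ‖T' x - S' x‖ ^ 2 + ‖S' x - S x‖ ^ 2) ∂ρ :=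
          integral_mono (int2 hT.1 hS.1 (bnd hTb hSb)) (((i1.fun_add i2).fun_add i3).const_mul 3)
            fun x => sq_dist_three
      _ = 3 * ((∫ x, ‖T x - T' x‖ ^ 2 ∂ρ) + (∫ x, ‖T' x - S' x‖ ^ 2 ∂ρ)
            + ∫ x, ‖S' x - S x‖ ^ 2 ∂ρ) := by
          rw [integral_const_mul, integral_add (i1.fun_add i2) i3, integral_add i1 i2]
      _ ≤ F η := by rw [hF]; linarith
  have hlim : Tendsto F (𝓝[>] 0) (𝓝 (F 0)) := by
    have hc : Continuous F := by
      rw [hF]
      refine Continuous.add (by fun_prop) (continuous_const.mul ?_)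
      exact (by fun_prop : Continuous fun η : ℝ => linA R * (cost + 20 * R * η) + η).rpow_const
        fun _ => Or.inr (by norm_num)
    exact (hc.tendsto 0).mono_left nhdsWithin_le_nhds
  have h := ge_of_tendsto hlim (by
    filter_upwards [Ioo_mem_nhdsGT (show (0 : ℝ) < 1 by norm_num)] with η hη
    exact key η hη.1 hη.2.le)
  simpa [hF] using h

/-- Every exponent in `(0, 1/3]` is admissible. -/
theorem admissible {d : ℕ} (hd : 0 < d) {α : ℝ} (hα0 : 0 < α) (hα : α ≤ 1 / 3) :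
    Admissible d α := by
  intro K hK hKc hKi Y hY _
  obtain ⟨R, c₀, r, hD⟩ := exists_data hd hK hKc hKi hY
  have := hD.body.isProb
  have hR := hD.body.nonneg
  set C := 3 * |interpC K R r| * linA R ^ (1 / 3 : ℝ) + 1 with hC
  have hC1 : 1 ≤ C := by
    have : 0 ≤ 3 * |interpC K R r| * linA R ^ (1 / 3 : ℝ) := by
      have : 0 ≤ linA R := by rw [linA]; positivity
      positivity
    rw [hC]; linarith
  set B := (4 * R ^ 2) ^ 3
  refine ⟨(Real.sqrt C * B ^ (1 / 6 - α / 2)).toNNReal, fun μ ν _ _ hμY hνY T S hT hS => ?_⟩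
  set D := ∫ x, ‖T x - S x‖ ^ 2 ∂uniformOn K
  have hD0 : 0 ≤ D := integral_nonneg fun x => sq_nonneg _
  have hb : ∀ᵐ x ∂uniformOn K, ‖T x - S x‖ ≤ 2 * R := by
    filter_upwards [ae_mem_of_map hD hμY hT.1 hT.2.1, ae_mem_of_map hD hνY hS.1 hS.2.1]
      with x hx hx'
    exact (norm_sub_le _ _).trans (by linarith [norm_le_of_mem hD hx, norm_le_of_mem hD hx'])
  have hDR : D ≤ 4 * R ^ 2 := by
    calc D ≤ ∫ _, (2 * R) ^ 2 ∂uniformOn K := integral_mono_ae
          (Integrable.of_bound ((hT.1.sub hS.1).norm.pow_const 2).aestronglyMeasurable ((2 * R) ^ 2)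
            (hb.mono fun x hx => by
              rw [norm_pow, norm_norm]; exact pow_le_pow_left₀ (norm_nonneg _) hx 2))
          (integrable_const _) (hb.mono fun x hx => pow_le_pow_left₀ (norm_nonneg _) hx 2)
      _ = 4 * R ^ 2 := by simp; ring
  set c := (D / C) ^ 3 with hc
  have hc0 : 0 ≤ c := by positivity
  have hcB : c ≤ B :=
    pow_le_pow_left₀ (by positivity) ((div_le_self hD0 hC1).trans hDR) 3
  -- the infimum over couplings dominates `c`
  have hinf : ENNReal.ofReal c ≤ ⨅ (π : Measure (Spc d × Spc d)) (_ : π.map Prod.fst = μ)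
      (_ : π.map Prod.snd = ν), ∫⁻ p, edist p.1 p.2 ^ 2 ∂π := by
    refine le_iInf fun π => le_iInf fun h1 => le_iInf fun h2 => ?_
    have : IsProbabilityMeasure π := ⟨by
      rw [← Set.preimage_univ (f := Prod.fst), ← Measure.map_apply measurable_fst MeasurableSet.univ,
        h1]
      exact measure_univ⟩
    have hπ : ∀ᵐ p ∂π, ‖p.2 - p.1‖ ≤ 2 * R := by
      have a1 : ∀ᵐ p ∂π, p.1 ∈ Y := (ae_map_iff measurable_fst.aemeasurable
        hD.target.measurableSet).1 (by rw [h1]; exact mem_ae_iff.2 hμY)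
      have a2 : ∀ᵐ p ∂π, p.2 ∈ Y := (ae_map_iff measurable_snd.aemeasurable
        hD.target.measurableSet).1 (by rw [h2]; exact mem_ae_iff.2 hνY)
      filter_upwards [a1, a2] with p hp hp'
      exact (norm_sub_le _ _).trans (by linarith [norm_le_of_mem hD hp, norm_le_of_mem hD hp'])
    have hi : Integrable (fun p => ‖p.2 - p.1‖ ^ 2) π :=
      Integrable.of_bound (by fun_prop : Measurable fun p : Spc d × Spc d =>
        ‖p.2 - p.1‖ ^ 2).aestronglyMeasurable ((2 * R) ^ 2) (hπ.mono fun p hp => by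
          rw [norm_pow, norm_norm]; exact pow_le_pow_left₀ (norm_nonneg _) hp 2)
    have e : ∫⁻ p, edist p.1 p.2 ^ 2 ∂π = ENNReal.ofReal (∫ p, ‖p.2 - p.1‖ ^ 2 ∂π) := by
      rw [ofReal_integral_eq_lintegral_ofReal hi (Eventually.of_forall fun p => sq_nonneg _)]
      refine lintegral_congr fun p => ?_
      rw [edist_dist, dist_comm, dist_eq_norm, ← ENNReal.ofReal_pow (norm_nonneg _)]
    rw [e]
    refine ENNReal.ofReal_le_ofReal ?_
    set cost := ∫ p, ‖p.2 - p.1‖ ^ 2 ∂π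
    have hcost : 0 ≤ cost := integral_nonneg fun p => sq_nonneg _
    have hl : 0 ≤ linA R := by rw [linA]; positivity
    have h := integral_sq_le_cost hD h1 h2 hμY hνY hT hS
    rw [Real.mul_rpow hl hcost] at h
    have hu : 0 ≤ cost ^ (1 / 3 : ℝ) := by positivity
    have hle : D / C ≤ cost ^ (1 / 3 : ℝ) := by
      rw [div_le_iff₀ (by linarith), hC]
      refine h.trans ?_
      have h3 : interpC K R r * (linA R ^ (1 / 3 : ℝ) * cost ^ (1 / 3 : ℝ))
          ≤ |interpC K R r| * (linA R ^ (1 / 3 : ℝ) * cost ^ (1 / 3 : ℝ)) :=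
        mul_le_mul_of_nonneg_right (le_abs_self _) (by positivity)
      linarith
    refine (pow_le_pow_left₀ (by positivity) hle 3).trans (le_of_eq ?_)
    rw [← Real.rpow_natCast, ← Real.rpow_mul hcost]; norm_num
  -- conclusion
  have hnorm : eLpNorm (fun x => T x - S x) 2 (uniformOn K) = ENNReal.ofReal (Real.sqrt D) := by
    have hm : MemLp (fun x => T x - S x) 2 (uniformOn K) :=
      MemLp.of_bound (hT.1.sub hS.1).aestronglyMeasurable (2 * R) hb
    rw [hm.eLpNorm_eq_integral_rpow_norm two_ne_zero ENNReal.ofNat_ne_top]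
    congr 1
    rw [Real.sqrt_eq_rpow]
    norm_num [D]
  have hDc : Real.sqrt D ≤ Real.sqrt C * B ^ (1 / 6 - α / 2) * c ^ (α / 2) := by
    have e : D = C * c ^ (1 / 3 : ℝ) := by
      rw [hc, ← Real.rpow_natCast (D / C), ← Real.rpow_mul (by positivity)]
      norm_num
      field_simp
    rw [e, Real.sqrt_mul (by linarith), mul_assoc]
    refine mul_le_mul_of_nonneg_left ?_ (Real.sqrt_nonneg _)
    rw [Real.sqrt_eq_rpow, ← Real.rpow_mul hc0,
      show (1 / 3 : ℝ) * (1 / 2) = (1 / 6 - α / 2) + α / 2 by ring,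
      Real.rpow_add_of_nonneg hc0 (by linarith) (by linarith)]
    exact mul_le_mul_of_nonneg_right (Real.rpow_le_rpow hc0 hcB (by linarith)) (by positivity)
  rw [hnorm, W2, ← ENNReal.rpow_mul, one_div_mul_eq_div]
  refine (ENNReal.ofReal_le_ofReal hDc).trans ?_
  rw [ENNReal.ofReal_mul (by positivity), ← ENNReal.ofReal_rpow_of_nonneg hc0 (by linarith)]
  exact mul_le_mul_right (ENNReal.rpow_le_rpow hinf (by linarith)) _

/-- Optimal maps exist and are unique up to null sets. -/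
theorem optimal_exists_unique {d : ℕ} (hd : 0 < d) (K : Set (Spc d)) (hK : IsCompact K)
    (hKc : Convex ℝ K) (hKi : (interior K).Nonempty) (Y : Set (Spc d)) (hY : IsCompact Y)
    (μ : Measure (Spc d)) [IsProbabilityMeasure μ] (hμY : μ Yᶜ = 0) :
    (∃ T, IsOptimalMap (uniformOn K) μ T) ∧
      ∀ T S, IsOptimalMap (uniformOn K) μ T → IsOptimalMap (uniformOn K) μ S →
        T =ᵐ[uniformOn K] S := by
  obtain ⟨R, c₀, r, hD⟩ := exists_data hd hK hKc hKi hY
  obtain ⟨F, hF, -⟩ := exists_optimal hD hμY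
  refine ⟨⟨F, hF⟩, fun T S hT hS => ?_⟩
  have := hD.body.isProb
  have hm : Measurable fun y : Spc d => (y, y) := measurable_id.prodMk measurable_id
  have := Measure.isProbabilityMeasure_map (μ := μ) hm.aemeasurable
  have h := integral_sq_le_cost hD (π := μ.map fun y => (y, y)) (μ := μ) (ν := μ)
    (by rw [Measure.map_map measurable_fst hm]; exact Measure.map_id)
    (by rw [Measure.map_map measurable_snd hm]; exact Measure.map_id) hμY hμY hT hS
  rw [integral_map hm.aemeasurable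
    (by fun_prop : Measurable fun p : Spc d × Spc d => ‖p.2 - p.1‖ ^ 2).aestronglyMeasurable] at h
  simp at h
  have hb : ∀ᵐ x ∂uniformOn K, ‖T x - S x‖ ≤ 2 * R := by
    filter_upwards [ae_mem_of_map hD hμY hT.1 hT.2.1, ae_mem_of_map hD hμY hS.1 hS.2.1]
      with x hx hx'
    exact (norm_sub_le _ _).trans (by linarith [norm_le_of_mem hD hx, norm_le_of_mem hD hx'])
  have hi : Integrable (fun x => ‖T x - S x‖ ^ 2) (uniformOn K) :=
    Integrable.of_bound ((hT.1.sub hS.1).norm.pow_const 2).aestronglyMeasurable ((2 * R) ^ 2)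
      (hb.mono fun x hx => by
        rw [norm_pow, norm_norm]; exact pow_le_pow_left₀ (norm_nonneg _) hx 2)
  have h0 := (integral_eq_zero_iff_of_nonneg (fun x => sq_nonneg _) hi).1
    (le_antisymm h (integral_nonneg fun x => sq_nonneg _))
  filter_upwards [h0] with x hx
  simpa [sub_eq_zero] using hx

end Vale.Agent.P074
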