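import Mathlib.MeasureTheory.Integral.Layercake
import Mathlib.MeasureTheory.Measure.Lebesgue.EqHaar
import Mathlib.MeasureTheory.Integral.Lebesgue.Add
import Mathlib.MeasureTheory.Constructions.Pi
import Mathlib.MeasureTheory.Measure.Haar.InnerProductSpace
import Mathlib.MeasureTheory.Measure.Prod

/-! The midpoint Prékopa–Leindler inequality. -/

open MeasureTheory Set Filter
open scoped ENNReal NNReal Pointwise Topology

namespace Vale.Agent.P074

lemma bm_compact {F G H : Set ℝ} (hF : IsCompact F) (hG : IsCompact G) (hFn : F.Nonempty)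
    (hGn : G.Nonempty) (hH : ∀ x ∈ F, ∀ y ∈ G, (2⁻¹ : ℝ) * (x + y) ∈ H) :
    volume F + volume G ≤ 2 * volume H := by
  set a := sSup F
  set b := sInf G
  have ha : a ∈ F := hF.sSup_mem hFn
  have hb : b ∈ G := hG.sInf_mem hGn
  let F' := (fun x => x + (-b)) ⁻¹' F
  let G' := (fun x => x + (-a)) ⁻¹' G
  have hvol : volume ((2 : ℝ) • H) = 2 * volume H := by
    rw [Measure.addHaar_smul]; simp
  have hsub : F' ∪ G' ⊆ (2 : ℝ) • H := by
    rintro z (hz | hz)
    · exact ⟨_, hH _ hz b hb, by simp only [smul_eq_mul]; ring⟩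
    · exact ⟨_, hH a ha _ hz, by simp only [smul_eq_mul]; ring⟩
  have hint : volume (F' ∩ G') = 0 := by
    refine measure_mono_null (t := {a + b}) ?_ (measure_singleton _)
    rintro z ⟨h1, h2⟩
    have := le_csSup hF.bddAbove h1
    have := csInf_le hG.bddBelow h2
    simp only [mem_singleton_iff]; linarith
  have h1 : volume F' = volume F := measure_preimage_add_right _ _ _
  have h2 : volume G' = volume G := measure_preimage_add_right _ _ _
  have hG' : MeasurableSet G' := hG.measurableSet.preimage (measurable_add_const _)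
  rw [← hvol, ← h1, ← h2, ← measure_union_add_inter F' hG', hint, add_zero]
  exact measure_mono hsub

lemma bm_one {F G H : Set ℝ} (hF : MeasurableSet F) (hG : MeasurableSet G) (hFn : F.Nonempty)
    (hGn : G.Nonempty) (hH : ∀ x ∈ F, ∀ y ∈ G, (2⁻¹ : ℝ) * (x + y) ∈ H) :
    volume F + volume G ≤ 2 * volume H := by
  obtain ⟨x0, hx0⟩ := hFn
  obtain ⟨y0, hy0⟩ := hGn
  rw [hF.measure_eq_iSup_isCompact, hG.measure_eq_iSup_isCompact]
  simp only [iSup_and']
  refine ENNReal.biSup_add_biSup_le' (p := fun A : Set ℝ => A ⊆ F ∧ IsCompact A)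
    (q := fun A : Set ℝ => A ⊆ G ∧ IsCompact A) ⟨∅, empty_subset _, isCompact_empty⟩
    ⟨∅, empty_subset _, isCompact_empty⟩ fun A hA B hB => ?_
  refine le_trans (add_le_add (measure_mono (subset_insert x0 A))
    (measure_mono (subset_insert y0 B))) ?_
  refine bm_compact (hA.2.insert x0) (hB.2.insert y0) (insert_nonempty _ _)
    (insert_nonempty _ _) fun x hx y hy => hH x ?_ y ?_
  · rcases hx with rfl | hx
    exacts [hx0, hA.1 hx]
  · rcases hy with rfl | hy
    exacts [hy0, hB.1 hy]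

lemma pl_one_real (f g : ℝ → ℝ) (h : ℝ → ℝ≥0∞) (hf : Measurable f) (hg : Measurable g)
    (hh : Measurable h) (hf0 : ∀ x, 0 ≤ f x) (hg0 : ∀ x, 0 ≤ g x)
    (hfb : BddAbove (range f)) (hgb : BddAbove (range g))
    (H : ∀ x y, ENNReal.ofReal (f x * g y) ≤ h ((2⁻¹ : ℝ) * (x + y)) ^ 2) :
    (∫⁻ x, ENNReal.ofReal (f x)) * (∫⁻ x, ENNReal.ofReal (g x)) ≤ (∫⁻ x, h x) ^ 2 := by
  set a := ⨆ x, f x with hadef
  set b := ⨆ x, g x with hbdef
  have hfa : ∀ x, f x ≤ a := fun x => le_ciSup hfb x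
  have hgb' : ∀ x, g x ≤ b := fun x => le_ciSup hgb x
  rcases eq_or_lt_of_le ((hf0 0).trans (hfa 0)) with ha | ha
  · have : ∀ x, f x = 0 := fun x => le_antisymm (ha ▸ hfa x) (hf0 x)
    simp [this]
  rcases eq_or_lt_of_le ((hg0 0).trans (hgb' 0)) with hb | hb
  · have : ∀ x, g x = 0 := fun x => le_antisymm (hb ▸ hgb' x) (hg0 x)
    simp [this]
  set c := Real.sqrt (a * b) with hcdef
  have hc : 0 < c := Real.sqrt_pos.2 (mul_pos ha hb)
  have hcc : c * c = a * b := Real.mul_self_sqrt (mul_pos ha hb).le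
  set hr : ℝ → ℝ := fun z => (min (h z) (ENNReal.ofReal c)).toReal / c with hrdef
  have hrm : Measurable hr := ((hh.min measurable_const).ennreal_toReal).div_const c
  have hr0 : ∀ z, 0 ≤ hr z := fun z => div_nonneg ENNReal.toReal_nonneg hc.le
  have key : ∀ t ∈ Ioi (0 : ℝ), volume {x | t < f x / a} + volume {x | t < g x / b}
      ≤ 2 * volume {z | t < hr z} := by
    intro t ht
    by_cases ht1 : t < 1
    · have e : ∀ z, (t < hr z ↔ ENNReal.ofReal (t * c) < h z) := by
        intro z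
        rw [hrdef, lt_div_iff₀ hc, ← ENNReal.ofReal_lt_iff_lt_toReal
          (mul_pos ht hc).le (ne_top_of_le_ne_top ENNReal.ofReal_ne_top (min_le_right _ _)),
          lt_min_iff]
        refine ⟨fun h' => h'.1, fun h' => ⟨h', ?_⟩⟩
        rw [ENNReal.ofReal_lt_ofReal_iff hc]
        nlinarith
      refine bm_one (measurableSet_lt measurable_const (hf.div_const a))
        (measurableSet_lt measurable_const (hg.div_const b)) ?_ ?_ ?_
      · obtain ⟨x, hx⟩ := exists_lt_of_lt_ciSup (show t * a < ⨆ x, f x by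
          rw [← hadef]; nlinarith)
        exact ⟨x, (lt_div_iff₀ ha).2 hx⟩
      · obtain ⟨x, hx⟩ := exists_lt_of_lt_ciSup (show t * b < ⨆ x, g x by
          rw [← hbdef]; nlinarith)
        exact ⟨x, (lt_div_iff₀ hb).2 hx⟩
      · intro x hx y hy
        simp only [Set.mem_ofPred_eq, lt_div_iff₀ ha] at hx
        simp only [Set.mem_ofPred_eq, lt_div_iff₀ hb] at hy
        show t < hr _
        rw [e]
        by_contra hcon
        rw [not_lt] at hcon
        have h2 := (H x y).trans (pow_le_pow_left₀ zero_le hcon 2)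
        rw [← ENNReal.ofReal_pow (mul_pos ht hc).le,
          ENNReal.ofReal_le_ofReal_iff (by positivity)] at h2
        have := mul_lt_mul'' hx hy (mul_pos ht ha).le (mul_pos ht hb).le
        have : (t * c) ^ 2 = t * a * (t * b) := by rw [mul_pow, pow_two c, hcc]; ring
        linarith
    · have h1 : {x | t < f x / a} = ∅ := by
        ext x; simp only [Set.mem_ofPred_eq, mem_empty_iff_false, iff_false, not_lt]
        exact ((div_le_one ha).2 (hfa x)).trans (not_lt.1 ht1)
      have h2 : {x | t < g x / b} = ∅ := by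
        ext x; simp only [Set.mem_ofPred_eq, mem_empty_iff_false, iff_false, not_lt]
        exact ((div_le_one hb).2 (hgb' x)).trans (not_lt.1 ht1)
      simp [h1, h2]
  have lay : ∀ F : ℝ → ℝ, Measurable F → (∀ x, 0 ≤ F x) →
      ∫⁻ x, ENNReal.ofReal (F x) = ∫⁻ t in Ioi (0 : ℝ), volume {x | t < F x} :=
    fun F hF hF0 => lintegral_eq_lintegral_meas_lt volume (Eventually.of_forall hF0) hF.aemeasurable
  set A := ∫⁻ x, ENNReal.ofReal (f x / a)
  set B := ∫⁻ x, ENNReal.ofReal (g x / b)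
  set C := ∫⁻ x, ENNReal.ofReal (hr x)
  have hsum : A + B ≤ 2 * C := by
    simp only [A, B, C, lay _ (hf.div_const a) (fun x => div_nonneg (hf0 x) ha.le),
      lay _ (hg.div_const b) (fun x => div_nonneg (hg0 x) hb.le), lay _ hrm hr0]
    have hm : Measurable fun t : ℝ => volume {x | t < f x / a} :=
      Antitone.measurable fun t t' htt => measure_mono fun x hx => lt_of_le_of_lt htt hx
    rw [← lintegral_add_left hm, ← lintegral_const_mul' _ _ ENNReal.ofNat_ne_top]
    exact setLIntegral_mono' measurableSet_Ioi key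
  have hsq : A * B ≤ C ^ 2 := by
    by_cases hC : C = ⊤
    · simp [hC]
    have hA : A ≠ ⊤ := ne_top_of_le_ne_top (ENNReal.mul_ne_top ENNReal.ofNat_ne_top hC)
      (le_self_add.trans hsum)
    have hB : B ≠ ⊤ := ne_top_of_le_ne_top (ENNReal.mul_ne_top ENNReal.ofNat_ne_top hC)
      (le_add_self.trans hsum)
    rw [← ENNReal.toReal_le_toReal (ENNReal.mul_ne_top hA hB) (ENNReal.pow_ne_top hC),
      ENNReal.toReal_mul, ENNReal.toReal_pow]
    have := ENNReal.toReal_mono (ENNReal.mul_ne_top ENNReal.ofNat_ne_top hC) hsum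
    rw [ENNReal.toReal_add hA hB, ENNReal.toReal_mul, ENNReal.toReal_ofNat] at this
    nlinarith [A.toReal_nonneg, B.toReal_nonneg, C.toReal_nonneg,
      sq_nonneg (A.toReal - B.toReal)]
  have hCle : ENNReal.ofReal c * C ≤ ∫⁻ x, h x := by
    rw [← lintegral_const_mul' _ _ ENNReal.ofReal_ne_top]
    refine lintegral_mono fun z => ?_
    rw [← ENNReal.ofReal_mul hc.le, hrdef, mul_div_cancel₀ _ hc.ne']
    exact ENNReal.ofReal_toReal_le.trans (min_le_left _ _)
  have scale : ∀ (F : ℝ → ℝ) (r : ℝ), 0 < r → ∫⁻ x, ENNReal.ofReal (F x)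
      = ENNReal.ofReal r * ∫⁻ x, ENNReal.ofReal (F x / r) := by
    intro F r hr'
    rw [← lintegral_const_mul' _ _ ENNReal.ofReal_ne_top]
    simp_rw [← ENNReal.ofReal_mul hr'.le, mul_div_cancel₀ _ hr'.ne']
  rw [scale f a ha, scale g b hb]
  calc _ = ENNReal.ofReal c ^ 2 * (A * B) := by
        rw [← ENNReal.ofReal_pow hc.le, pow_two, hcc, ENNReal.ofReal_mul ha.le]; ring
    _ ≤ ENNReal.ofReal c ^ 2 * C ^ 2 := mul_le_mul_right hsq _
    _ ≤ _ := by rw [← mul_pow]; exact pow_le_pow_left₀ zero_le hCle 2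

lemma pl_one (f g h : ℝ → ℝ≥0∞) (hf : Measurable f) (hg : Measurable g) (hh : Measurable h)
    (H : ∀ x y, f x * g y ≤ h ((2⁻¹ : ℝ) * (x + y)) ^ 2) :
    (∫⁻ x, f x) * (∫⁻ x, g x) ≤ (∫⁻ x, h x) ^ 2 := by
  have trunc : ∀ F : ℝ → ℝ≥0∞, Measurable F →
      ∫⁻ x, F x = ⨆ n : ℕ, ∫⁻ x, min (F x) n := by
    intro F hF
    rw [← lintegral_iSup (fun n => hF.min measurable_const)
      (fun n m hnm x => min_le_min_left _ (by exact_mod_cast hnm))]
    refine lintegral_congr fun x => ?_
    rw [← inf_iSup_eq, ENNReal.iSup_natCast, inf_top_eq]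
  rw [trunc f hf, trunc g hg]
  simp only [ENNReal.iSup_mul, ENNReal.mul_iSup]
  refine iSup_le fun n => iSup_le fun m => ?_
  have key := pl_one_real (fun x => (min (f x) m).toReal) (fun x => (min (g x) n).toReal) h
    (hf.min measurable_const).ennreal_toReal (hg.min measurable_const).ennreal_toReal hh
    (fun _ => ENNReal.toReal_nonneg) (fun _ => ENNReal.toReal_nonneg)
    ⟨m, forall_mem_range.2 fun x =>
      ENNReal.toReal_le_of_le_ofReal (Nat.cast_nonneg m) (by simp)⟩
    ⟨n, forall_mem_range.2 fun x =>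
      ENNReal.toReal_le_of_le_ofReal (Nat.cast_nonneg n) (by simp)⟩
    (fun x y => by
      rw [ENNReal.ofReal_mul ENNReal.toReal_nonneg]
      exact (mul_le_mul' (ENNReal.ofReal_toReal_le.trans (min_le_left _ _))
        (ENNReal.ofReal_toReal_le.trans (min_le_left _ _))).trans (H x y))
  refine le_trans (le_of_eq ?_) key
  congr 1 <;> refine lintegral_congr fun x => (ENNReal.ofReal_toReal ?_).symm <;>
    exact ne_top_of_le_ne_top (ENNReal.natCast_ne_top _) (min_le_right _ _)

/-- Midpoint Prékopa–Leindler inequality on `Fin n → ℝ`. -/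
theorem pl_pi : ∀ (n : ℕ) (f g h : (Fin n → ℝ) → ℝ≥0∞), Measurable f → Measurable g →
    Measurable h → (∀ x y, f x * g y ≤ h ((2⁻¹ : ℝ) • (x + y)) ^ 2) →
    (∫⁻ x, f x) * (∫⁻ x, g x) ≤ (∫⁻ x, h x) ^ 2 := by
  intro n
  induction n with
  | zero =>
    intro f g h hf hg hh H
    simp only [lintegral_unique, volume_pi, Measure.pi_empty_univ, mul_one]
    exact (H _ _).trans (le_of_eq (by congr 2; exact Subsingleton.elim _ _))
  | succ n ih =>
    intro f g h hf hg hh H
    let e := MeasurableEquiv.piFinSuccAbove (fun _ : Fin (n + 1) => ℝ) 0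
    have he := (volume_preserving_piFinSuccAbove (fun _ : Fin (n + 1) => ℝ) 0).symm
    have conv : ∀ F : (Fin (n + 1) → ℝ) → ℝ≥0∞, Measurable F →
        ∫⁻ x, F x = ∫⁻ a : ℝ, ∫⁻ v : Fin n → ℝ, F (e.symm (a, v)) := by
      intro F hF
      rw [← he.lintegral_comp hF, Measure.volume_eq_prod, lintegral_prod]
      exact (hF.comp e.symm.measurable).aemeasurable
    rw [conv f hf, conv g hg, conv h hh]
    have m1 : ∀ F : (Fin (n + 1) → ℝ) → ℝ≥0∞, Measurable F →
        Measurable fun a : ℝ => ∫⁻ v : Fin n → ℝ, F (e.symm (a, v)) :=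
      fun F hF => (hF.comp e.symm.measurable).lintegral_prod_right'
    refine pl_one _ _ _ (m1 f hf) (m1 g hg) (m1 h hh) fun a b => ?_
    refine ih _ _ _ (hf.comp (e.symm.measurable.comp measurable_prodMk_left))
      (hg.comp (e.symm.measurable.comp measurable_prodMk_left))
      (hh.comp (e.symm.measurable.comp measurable_prodMk_left)) fun v w => ?_
    refine (H _ _).trans (le_of_eq ?_)
    congr 2
    funext i
    refine Fin.cases ?_ (fun j => ?_) i <;>
      simp [e, MeasurableEquiv.piFinSuccAbove_symm_apply, Fin.insertNth_zero', mul_add]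

/-- Midpoint Prékopa–Leindler inequality on Euclidean space. -/
theorem pl_euclidean {d : ℕ} (f g h : EuclideanSpace ℝ (Fin d) → ℝ≥0∞) (hf : Measurable f)
    (hg : Measurable g) (hh : Measurable h)
    (H : ∀ x y, f x * g y ≤ h ((2⁻¹ : ℝ) • (x + y)) ^ 2) :
    (∫⁻ x, f x) * (∫⁻ x, g x) ≤ (∫⁻ x, h x) ^ 2 := by
  have hp := PiLp.volume_preserving_toLp (Fin d)
  rw [← hp.lintegral_comp hf, ← hp.lintegral_comp hg, ← hp.lintegral_comp hh]
  refine pl_pi d _ _ _ (hf.comp hp.measurable) (hg.comp hp.measurable) (hh.comp hp.measurable)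
    fun x y => (H _ _).trans (le_of_eq ?_)
  congr 2

end Vale.Agent.P074
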