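import Vale.Agent.P074.Geometry
import Vale.Agent.P074.PL
import Mathlib.Analysis.Complex.Exponential
import Mathlib.MeasureTheory.Integral.Bochner.Basic

/-! The key estimate: barycentres of power cells move linearly in the perturbation of the
source density, proved with the midpoint Prékopa–Leindler inequality cell by cell. -/

open MeasureTheory Filter Set
open scoped ENNReal NNReal RealInnerProductSpace Topology

namespace Vale.Agent.P074

variable {d : ℕ} {K : Set (Spc d)} {R : ℝ}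

/-- Prékopa–Leindler for continuous functions on pieces of the body. -/
lemma pl_on_body (hB : Body K R) {A B S : Set (Spc d)} (hA : MeasurableSet A)
    (hBm : MeasurableSet B) (hS : MeasurableSet S) {F G H : Spc d → ℝ} (hF : Continuous F)
    (hG : Continuous G) (hH : Continuous H) (hF0 : ∀ x, 0 ≤ F x) (hG0 : ∀ x, 0 ≤ G x)
    (hH0 : ∀ x, 0 ≤ H x)
    (hmid : ∀ x ∈ A, x ∈ K → ∀ y ∈ B, y ∈ K → (2⁻¹ : ℝ) • (x + y) ∈ S ∧
      F x * G y ≤ H ((2⁻¹ : ℝ) • (x + y)) ^ 2) :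
    (∫ x in A, F x ∂uniformOn K) * (∫ x in B, G x ∂uniformOn K)
      ≤ (∫ x in S, H x ∂uniformOn K) ^ 2 := by
  have key : ∀ (U : Set (Spc d)), MeasurableSet U → ∀ (P : Spc d → ℝ), Continuous P →
      (∀ x, 0 ≤ P x) →
      ∫ x in U, P x ∂uniformOn K
        = (volume.real K)⁻¹ * (∫⁻ x, (K ∩ U).indicator (fun x => ENNReal.ofReal (P x)) x).toReal := by
    intro U hU P hP hP0
    rw [← integral_indicator hU, hB.integral_eq, indicator_indicator,
      integral_eq_lintegral_of_nonneg_ae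
        (Eventually.of_forall fun x => Set.indicator_nonneg (fun x _ => hP0 x) x)
        (hP.measurable.indicator (hB.compact.measurableSet.inter hU)).aestronglyMeasurable]
    congr 2
    refine lintegral_congr fun x => ?_
    by_cases hx : x ∈ K ∩ U <;> simp [hx]
  have fin : ∀ (U : Set (Spc d)), MeasurableSet U → ∀ (P : Spc d → ℝ), Continuous P →
      (∫⁻ x, (K ∩ U).indicator (fun x => ENNReal.ofReal (P x)) x) ≠ ⊤ := by
    intro U hU P hP
    obtain ⟨C, hC⟩ := hB.compact.exists_bound_of_continuousOn hP.continuousOn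
    rw [lintegral_indicator (hB.compact.measurableSet.inter hU)]
    refine ne_top_of_le_ne_top (b := ENNReal.ofReal C * volume K)
      (ENNReal.mul_ne_top ENNReal.ofReal_ne_top hB.compact.measure_ne_top) ?_
    refine le_trans ?_ (mul_le_mul_right (measure_mono (Set.inter_subset_left (t := U))) _)
    rw [← setLIntegral_const]
    refine setLIntegral_mono measurable_const fun x hx => ENNReal.ofReal_le_ofReal ?_
    exact (le_abs_self _).trans (hC x hx.1)
  rw [key A hA F hF hF0, key B hBm G hG hG0, key S hS H hH hH0, mul_pow, mul_mul_mul_comm,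
    ← pow_two]
  refine mul_le_mul_of_nonneg_left ?_ (sq_nonneg _)
  rw [← ENNReal.toReal_mul, ← ENNReal.toReal_pow]
  refine ENNReal.toReal_mono (ENNReal.pow_ne_top (fin S hS H hH)) ?_
  have hm : ∀ (U : Set (Spc d)), MeasurableSet U → ∀ (P : Spc d → ℝ), Continuous P →
      Measurable ((K ∩ U).indicator fun x => ENNReal.ofReal (P x)) := fun U hU P hP =>
    hP.measurable.ennreal_ofReal.indicator (hB.compact.measurableSet.inter hU)
  refine pl_euclidean _ _ _ (hm A hA F hF) (hm B hBm G hG) (hm S hS H hH) fun x y => ?_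
  by_cases hx : x ∈ K ∩ A
  · by_cases hy : y ∈ K ∩ B
    · obtain ⟨h1, h2⟩ := hmid x hx.2 hx.1 y hy.2 hy.1
      have h3 : (2⁻¹ : ℝ) • (x + y) ∈ K := by
        rw [smul_add]; exact hB.convex hx.1 hy.1 (by norm_num) (by norm_num) (by norm_num)
      rw [Set.indicator_of_mem hx, Set.indicator_of_mem hy,
        Set.indicator_of_mem (show _ ∈ K ∩ S from ⟨h3, h1⟩), ← ENNReal.ofReal_mul (hF0 x),
        ← ENNReal.ofReal_pow (hH0 _)]
      exact ENNReal.ofReal_le_ofReal h2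
    · simp [Set.indicator_of_notMem hy]
  · simp [Set.indicator_of_notMem hx]

lemma mul_exp_le_setIntegral {ρ : Measure (Spc d)} {S : Set (Spc d)} (hS : MeasurableSet S)
    {p u : Spc d → ℝ} {M a : ℝ} (hp : ∀ᵐ x ∂ρ, x ∈ S → 0 ≤ p x)
    (hpi : IntegrableOn p S ρ) (hpu : IntegrableOn (fun x => p x * u x) S ρ)
    (hpe : IntegrableOn (fun x => p x * Real.exp (u x)) S ρ)
    (hM : ∫ x in S, p x ∂ρ = M) (ha : ∫ x in S, p x * u x ∂ρ = M * a) :
    M * Real.exp a ≤ ∫ x in S, p x * Real.exp (u x) ∂ρ := by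
  have hi : IntegrableOn (fun x => Real.exp a * ((1 - a) * p x + p x * u x)) S ρ :=
    ((hpi.const_mul (1 - a)).fun_add hpu).const_mul _
  refine le_trans (le_of_eq ?_) (setIntegral_mono_on_ae hi hpe hS ?_)
  · rw [integral_const_mul, integral_add (hpi.const_mul _) hpu, integral_const_mul, hM, ha]
    ring
  · filter_upwards [hp] with x hx hxS
    have h1 : Real.exp a * (1 + (u x - a)) ≤ Real.exp (u x) := by
      have := Real.add_one_le_exp (u x - a)
      calc Real.exp a * (1 + (u x - a)) ≤ Real.exp a * Real.exp (u x - a) :=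
            mul_le_mul_of_nonneg_left (by linarith) (Real.exp_nonneg _)
        _ = _ := by rw [← Real.exp_add]; ring_nf
    have := mul_le_mul_of_nonneg_left h1 (hx hxS)
    linarith

/-- The Gaussian exponent. -/
noncomputable def potV (R : ℝ) (x : Spc d) : ℝ := (64 * R ^ 2)⁻¹ / 2 * ‖x‖ ^ 2

/-- The Gaussian weight. -/
noncomputable def wgt (R : ℝ) (x : Spc d) : ℝ := Real.exp (-potV R x)

@[fun_prop]
lemma continuous_potV : Continuous (potV (d := d) R) := by unfold potV; fun_prop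

@[fun_prop]
lemma continuous_wgt : Continuous (wgt (d := d) R) := by unfold wgt; fun_prop

lemma potV_nonneg (x : Spc d) : 0 ≤ potV R x := by unfold potV; positivity

lemma potV_le (hR : 1 ≤ R) {x : Spc d} (hx : ‖x‖ ≤ R) : potV R x ≤ 1 / 128 := by
  unfold potV
  have h1 : ‖x‖ ^ 2 ≤ R ^ 2 := pow_le_pow_left₀ (norm_nonneg x) hx 2
  calc (64 * R ^ 2)⁻¹ / 2 * ‖x‖ ^ 2 ≤ (64 * R ^ 2)⁻¹ / 2 * R ^ 2 :=
        mul_le_mul_of_nonneg_left h1 (by positivity)
    _ = 1 / 128 := by field_simp; norm_num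

lemma wgt_pos (x : Spc d) : 0 < wgt R x := Real.exp_pos _

lemma wgt_le_one (x : Spc d) : wgt R x ≤ 1 :=
  Real.exp_le_one_iff.2 (neg_nonpos.2 (potV_nonneg x))

lemma le_wgt (hR : 1 ≤ R) {x : Spc d} (hx : ‖x‖ ≤ R) : 127 / 128 ≤ wgt R x := by
  have := Real.add_one_le_exp (-potV R x)
  have := potV_le hR hx
  rw [wgt]; linarith

lemma abs_potV_sub_le (hR : 1 ≤ R) {x y : Spc d} (hx : ‖x‖ ≤ R) (hy : ‖y‖ ≤ R) :
    |potV R x - potV R y| ≤ (64 * R)⁻¹ * ‖x - y‖ := by
  have h0 : 0 < R := by linarith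
  have h1 := abs_norm_sub_norm_le x y
  rw [potV, potV, ← mul_sub, abs_mul, abs_of_pos (show 0 < (64 * R ^ 2)⁻¹ / 2 by positivity),
    sq_sub_sq, abs_mul, abs_of_nonneg (add_nonneg (norm_nonneg x) (norm_nonneg y))]
  calc (64 * R ^ 2)⁻¹ / 2 * ((‖x‖ + ‖y‖) * |‖x‖ - ‖y‖|)
      ≤ (64 * R ^ 2)⁻¹ / 2 * (2 * R * ‖x - y‖) := by
        refine mul_le_mul_of_nonneg_left ?_ (by positivity)
        exact mul_le_mul (by linarith) h1 (abs_nonneg _) (by positivity)
    _ = _ := by field_simp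

lemma abs_wgt_sub_le (hR : 1 ≤ R) {x y : Spc d} (hx : ‖x‖ ≤ R) (hy : ‖y‖ ≤ R) :
    |wgt R x - wgt R y| ≤ (64 * R)⁻¹ * ‖x - y‖ := by
  refine le_trans ?_ (abs_potV_sub_le hR hx hy)
  have aux : ∀ a b : ℝ, 0 ≤ a → a ≤ b → |Real.exp (-a) - Real.exp (-b)| ≤ |a - b| := by
    intro a b ha hab
    have h1 : Real.exp (-b) ≤ Real.exp (-a) := Real.exp_le_exp.2 (by linarith)
    rw [abs_of_nonneg (by linarith), abs_of_nonpos (by linarith)]
    have h2 : Real.exp (-b) = Real.exp (-a) * Real.exp (-(b - a)) := by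
      rw [← Real.exp_add]; ring_nf
    have h3 := Real.add_one_le_exp (-(b - a))
    have h4 : Real.exp (-a) ≤ 1 := Real.exp_le_one_iff.2 (by linarith)
    rw [h2]
    nlinarith [Real.exp_pos (-a)]
  rcases le_total (potV R x) (potV R y) with h | h
  · exact aux _ _ (potV_nonneg x) h
  · rw [abs_sub_comm, abs_sub_comm (potV R x)]
    exact aux _ _ (potV_nonneg y) h

variable {I : Type*} [Fintype I] [Nonempty I]

/-- The first moment of a cell for the density `p`. -/
noncomputable def moment (K : Set (Spc d)) (p : Spc d → ℝ) (z : I → Spc d) (g : I → ℝ) (i : I) :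
    Spc d :=
  ∫ x in cell z g i, p x • x ∂uniformOn K

/-- Barycentre bound. -/
lemma norm_sub_bary_le (hB : Body K R) {S : Set (Spc d)} (hS : MeasurableSet S) {p : Spc d → ℝ}
    (hp : Continuous p) (hp0 : ∀ x ∈ K, 0 ≤ p x) {M : ℝ} (hM : 0 < M)
    (hpM : ∫ x in S, p x ∂uniformOn K = M) {W : ℝ}
    (hW : ∀ x ∈ S, x ∈ K → ∀ y ∈ S, y ∈ K → ‖x - y‖ ≤ W) {y : Spc d} (hy : y ∈ S) (hyK : y ∈ K) :
    ‖y - M⁻¹ • ∫ x in S, p x • x ∂uniformOn K‖ ≤ W := by
  have := hB.isProb
  set ρ := uniformOn K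
  obtain ⟨C, hC⟩ := hB.compact.exists_bound_of_continuousOn
    (show ContinuousOn (fun x => p x • x) K from (hp.smul continuous_id).continuousOn)
  have hi : Integrable (fun x => p x • x) ρ := hB.integrable (by fun_prop) hC
  obtain ⟨C', hC'⟩ := hB.compact.exists_bound_of_continuousOn hp.continuousOn
  have hpi : Integrable p ρ := hB.integrable (by fun_prop) hC'
  have e : y - M⁻¹ • ∫ x in S, p x • x ∂ρ = M⁻¹ • ∫ x in S, p x • (y - x) ∂ρ := by
    simp_rw [smul_sub]
    rw [integral_sub (hpi.smul_const y).integrableOn hi.integrableOn, integral_smul_const, hpM,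
      smul_sub, inv_smul_smul₀ hM.ne']
  rw [e, norm_smul, Real.norm_eq_abs, abs_of_pos (inv_pos.2 hM), inv_mul_le_iff₀ hM, ← hpM,
    ← integral_mul_const]
  refine norm_integral_le_of_norm_le ((hpi.mul_const W).integrableOn) ?_
  rw [ae_restrict_iff' hS]
  filter_upwards [hB.ae_mem] with x hx hxS
  rw [norm_smul, Real.norm_eq_abs, abs_of_nonneg (hp0 x hx)]
  exact mul_le_mul_of_nonneg_left (hW y hy hyK x hxS hx) (hp0 x hx)

lemma norm_bary_le (hB : Body K R) {S : Set (Spc d)} (hS : MeasurableSet S) {p : Spc d → ℝ}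
    (hp : Continuous p) (hp0 : ∀ x ∈ K, 0 ≤ p x) {M : ℝ} (hM : 0 < M)
    (hpM : ∫ x in S, p x ∂uniformOn K = M) :
    ‖M⁻¹ • ∫ x in S, p x • x ∂uniformOn K‖ ≤ R := by
  have := hB.isProb
  obtain ⟨C', hC'⟩ := hB.compact.exists_bound_of_continuousOn hp.continuousOn
  have hpi : Integrable p (uniformOn K) := hB.integrable (by fun_prop) hC'
  rw [norm_smul, Real.norm_eq_abs, abs_of_pos (inv_pos.2 hM), inv_mul_le_iff₀ hM, ← hpM,
    ← integral_mul_const]
  refine norm_integral_le_of_norm_le ((hpi.mul_const R).integrableOn) ?_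
  rw [ae_restrict_iff' hS]
  filter_upwards [hB.ae_mem] with x hx _
  rw [norm_smul, Real.norm_eq_abs, abs_of_nonneg (hp0 x hx)]
  exact mul_le_mul_of_nonneg_left (hB.norm_le hx) (hp0 x hx)

lemma abs_setIntegral_sub_le (hB : Body K R) {S : Set (Spc d)} (hS : MeasurableSet S)
    {p F : Spc d → ℝ} (hp : Continuous p) (hp0 : ∀ x ∈ K, 0 ≤ p x) (hF : Continuous F)
    (a b : ℝ) (hb : ∀ x ∈ S, x ∈ K → |F x - a| ≤ b) :
    |(∫ x in S, p x * F x ∂uniformOn K) - a * ∫ x in S, p x ∂uniformOn K|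
      ≤ b * ∫ x in S, p x ∂uniformOn K := by
  have := hB.isProb
  obtain ⟨C, hC⟩ := hB.compact.exists_bound_of_continuousOn (hp.mul hF).continuousOn
  obtain ⟨C', hC'⟩ := hB.compact.exists_bound_of_continuousOn hp.continuousOn
  have h1 : Integrable (fun x => p x * F x) (uniformOn K) := hB.integrable (by fun_prop) hC
  have h2 : Integrable p (uniformOn K) := hB.integrable (by fun_prop) hC'
  rw [← integral_const_mul, ← integral_const_mul, ← integral_sub h1.integrableOn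
    (h2.const_mul a).integrableOn]
  rw [← Real.norm_eq_abs]
  refine norm_integral_le_of_norm_le (h2.const_mul b).integrableOn ?_
  rw [ae_restrict_iff' hS]
  filter_upwards [hB.ae_mem] with x hx hxS
  rw [Real.norm_eq_abs, show p x * F x - a * p x = p x * (F x - a) by ring, abs_mul,
    abs_of_nonneg (hp0 x hx), mul_comm b]
  exact mul_le_mul_of_nonneg_left (hb x hxS hx) (hp0 x hx)

lemma cell_algebra {m w₀ w₁ dV V v2 κ L s H1 H2 P W₀ W₁ a b γ : ℝ} (hm : 0 < m)
    (hκ : 0 ≤ κ) (hL : 0 ≤ L) (hW₀ : 0 ≤ W₀) (hW₁ : 0 ≤ W₁) (hH2 : 0 ≤ H2) (hv2 : v2 = V ^ 2)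
    (hw₀ : 127 / 128 ≤ w₀) (hw₀' : w₀ ≤ 1) (hL2 : L ^ 2 = κ / 64)
    (hexp : w₁ = w₀ * Real.exp (-dV)) (hdV : |dV| ≤ L * V) (hdV1 : |dV| ≤ 1)
    (hdw : |w₁ - w₀| ≤ L * V) (hH12 : H1 ^ 2 ≤ 2 * m * H2) (hP : P = m - s * H1)
    (hP2 : P ≤ 2 * m) (ha : a ≤ w₀ * m + L * W₀ * m) (hb : b ≤ w₁ * P + L * W₁ * P)
    (hkey : m * w₀ * (1 + (κ / 8 * v2 - (dV + (s * H1 + s ^ 2 * H2) / m) / 2
      - L * (W₀ + W₁) / 2)) ≤ γ) :
    κ * (1 / 10) * (m * v2)
      ≤ γ - a / 2 - b / 2 + s ^ 2 * H2 + 4 * L * (m * (W₀ + W₁)) := by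
  subst hv2
  have hd2 : dV ^ 2 ≤ κ / 64 * V ^ 2 := by
    rw [← hL2, ← mul_pow, ← sq_abs]; exact pow_le_pow_left₀ (abs_nonneg _) hdV 2
  have hw2 : (w₀ - w₁) ^ 2 ≤ κ / 64 * V ^ 2 := by
    rw [← hL2, ← mul_pow, ← sq_abs, abs_sub_comm]; exact pow_le_pow_left₀ (abs_nonneg _) hdw 2
  have hlog : w₀ * dV + w₁ - w₀ ≤ κ / 64 * V ^ 2 := by
    have h1 := (abs_le.1 (Real.abs_exp_sub_one_sub_id_le (by rwa [abs_neg] : |(-dV)| ≤ 1))).2
    rw [neg_sq] at h1
    have h2 : w₀ * (Real.exp (-dV) - 1 - -dV) ≤ w₀ * (κ / 64 * V ^ 2) :=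
      mul_le_mul_of_nonneg_left (h1.trans hd2) (by linarith)
    have h3 : w₀ * (κ / 64 * V ^ 2) ≤ κ / 64 * V ^ 2 := mul_le_of_le_one_left (by positivity) hw₀'
    rw [hexp]
    linarith
  have hcross : (w₀ - w₁) * (s * H1) ≤ κ / 128 * (m * V ^ 2) + s ^ 2 * H2 := by
    refine le_of_mul_le_mul_left ?_ (show 0 < 2 * m by linarith)
    have h1 := sq_nonneg (m * (w₀ - w₁) - s * H1)
    have h2 := mul_le_mul_of_nonneg_left hH12 (sq_nonneg s)
    have h3 := mul_le_mul_of_nonneg_left hw2 (sq_nonneg m)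
    ring_nf at h1 h2 h3 ⊢
    linarith
  have hkey' : m * w₀ * (κ / 8 * V ^ 2)
      - (m * w₀ * dV + w₀ * (s * H1) + w₀ * (s ^ 2 * H2)) / 2
      - m * w₀ * (L * (W₀ + W₁) / 2) + m * w₀ ≤ γ := by
    refine le_trans (le_of_eq ?_) hkey
    field_simp
    ring
  have g1 : m * (κ / 8 * V ^ 2) * (127 / 128) ≤ m * (κ / 8 * V ^ 2) * w₀ :=
    mul_le_mul_of_nonneg_left hw₀ (by positivity)
  have g2 : m * (w₀ * dV + w₁ - w₀) ≤ m * (κ / 64 * V ^ 2) :=
    mul_le_mul_of_nonneg_left hlog hm.le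
  have g3 : w₀ * (s ^ 2 * H2) ≤ s ^ 2 * H2 :=
    mul_le_of_le_one_left (mul_nonneg (sq_nonneg s) hH2) hw₀'
  have g4 : w₀ * (m * (L * (W₀ + W₁) / 2)) ≤ m * (L * (W₀ + W₁) / 2) :=
    mul_le_of_le_one_left (by positivity) hw₀'
  have g6 : L * W₁ * P ≤ L * W₁ * (2 * m) := mul_le_mul_of_nonneg_left hP2 (by positivity)
  have g7 : w₁ * P = w₁ * m - w₁ * (s * H1) := by rw [hP]; ring
  have g8 : 0 ≤ κ * (m * V ^ 2) := by positivity
  have g9 : 0 ≤ L * (m * W₀) := by positivity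
  have g10 : 0 ≤ L * (m * W₁) := by positivity
  linarith

/-- The key estimate. -/
theorem cell_estimate (hB : Body K R) (z : I → Spc d) (hz : Function.Injective z)
    (g₀ g₁ : I → ℝ) {h : Spc d → ℝ} (hh : Continuous h) {s : ℝ}
    (hs : ∀ x ∈ K, |s * h x| ≤ 1 / 2) (m : I → ℝ) (hm : ∀ i, 0 < m i)
    (h₀ : ∀ i, ∫ _x in cell z g₀ i, (1 : ℝ) ∂uniformOn K = m i)
    (h₁ : ∀ i, ∫ x in cell z g₁ i, (1 + s * h x) ∂uniformOn K = m i)
    (W₀ W₁ : I → ℝ)
    (hW₀ : ∀ i, ∀ x ∈ cell z g₀ i, x ∈ K → ∀ y ∈ cell z g₀ i, y ∈ K → ‖x - y‖ ≤ W₀ i)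
    (hW₁ : ∀ i, ∀ x ∈ cell z g₁ i, x ∈ K → ∀ y ∈ cell z g₁ i, y ∈ K → ‖x - y‖ ≤ W₁ i) :
    ∑ i, m i * ‖(m i)⁻¹ • moment K (fun x => 1 + s * h x) z g₁ i
        - (m i)⁻¹ • moment K (fun _ => 1) z g₀ i‖ ^ 2
      ≤ 1000 * R ^ 2 * s ^ 2 * (∫ x, h x ^ 2 ∂uniformOn K)
        + 100 * R * ∑ i, m i * (W₀ i + W₁ i) := by
  have := hB.isProb
  set ρ := uniformOn K
  have hR1 := hB.one_le
  have hR0 : 0 < R := by linarith
  set κ : ℝ := (64 * R ^ 2)⁻¹ with hκ
  have hκ0 : 0 < κ := by positivity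
  set L : ℝ := (64 * R)⁻¹ with hL
  have hL0 : 0 < L := by positivity
  set A := cell z g₀ with hA
  set B := cell z g₁ with hBdef
  set S := cell z (fun k => (g₀ k + g₁ k) / 2) with hSdef
  have hAm : ∀ i, MeasurableSet (A i) := measurableSet_cell z g₀
  have hBm : ∀ i, MeasurableSet (B i) := measurableSet_cell z g₁
  have hSm : ∀ i, MeasurableSet (S i) := measurableSet_cell z _
  set p : Spc d → ℝ := fun x => 1 + s * h x with hp
  have hpc : Continuous p := by fun_prop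
  have hp0 : ∀ x ∈ K, 0 ≤ p x := fun x hx => by
    have := (abs_le.1 (hs x hx)).1; simp only [hp]; linarith
  have cint : ∀ {F : Spc d → ℝ}, Continuous F → Integrable F ρ := fun {F} hF => by
    obtain ⟨C, hC⟩ := hB.compact.exists_bound_of_continuousOn hF.continuousOn
    exact hB.integrable hF.aestronglyMeasurable hC
  set c₀ : I → Spc d := fun i => (m i)⁻¹ • moment K (fun _ => (1 : ℝ)) z g₀ i with hc₀
  set c₁ : I → Spc d := fun i => (m i)⁻¹ • moment K p z g₁ i with hc₁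
  set v : I → Spc d := fun i => c₁ i - c₀ i with hv
  have hc0R : ∀ i, ‖c₀ i‖ ≤ R := fun i =>
    norm_bary_le hB (hAm i) continuous_const (fun _ _ => zero_le_one) (hm i) (h₀ i)
  have hc1R : ∀ i, ‖c₁ i‖ ≤ R := fun i => norm_bary_le hB (hBm i) hpc hp0 (hm i) (h₁ i)
  have hd0 : ∀ i, ∀ y ∈ A i, y ∈ K → ‖y - c₀ i‖ ≤ W₀ i := fun i y hy hyK =>
    norm_sub_bary_le hB (hAm i) continuous_const (fun _ _ => zero_le_one) (hm i) (h₀ i) (hW₀ i)
      hy hyK
  have hd1 : ∀ i, ∀ y ∈ B i, y ∈ K → ‖y - c₁ i‖ ≤ W₁ i := fun i y hy hyK =>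
    norm_sub_bary_le hB (hBm i) hpc hp0 (hm i) (h₁ i) (hW₁ i) hy hyK
  set P : I → ℝ := fun i => ∫ _x in B i, (1 : ℝ) ∂ρ with hP
  set H1 : I → ℝ := fun i => ∫ x in B i, h x ∂ρ with hH1
  set H2 : I → ℝ := fun i => ∫ x in B i, h x ^ 2 ∂ρ with hH2
  have hP' : ∀ i, P i = m i - s * H1 i := by
    intro i
    rw [← h₁ i, integral_add (integrable_const (1 : ℝ)).integrableOn
      ((cint hh).const_mul s).integrableOn, integral_const_mul]
    simp only [hP, hH1, hBdef]
    ring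
  have hP0 : ∀ i, 0 ≤ P i := fun i => setIntegral_nonneg (hBm i) fun _ _ => zero_le_one
  have hP2 : ∀ i, P i ≤ 2 * m i := by
    intro i
    rw [← h₁ i, ← integral_const_mul]
    refine setIntegral_mono_on_ae (integrable_const (1 : ℝ)).integrableOn
      ((cint hpc).const_mul 2).integrableOn (hBm i) ?_
    filter_upwards [hB.ae_mem] with x hx _
    have := (abs_le.1 (hs x hx)).1
    linarith
  have hH20 : ∀ i, 0 ≤ H2 i := fun i => setIntegral_nonneg (hBm i) fun x _ => sq_nonneg _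
  have hH12 : ∀ i, H1 i ^ 2 ≤ 2 * m i * H2 i := by
    intro i
    set c := H1 i / (2 * m i) with hc
    have h0 : 0 ≤ ∫ x in B i, (h x - c) ^ 2 ∂ρ := setIntegral_nonneg (hBm i) fun x _ => sq_nonneg _
    have e : ∫ x in B i, (h x - c) ^ 2 ∂ρ = H2 i - 2 * c * H1 i + c ^ 2 * P i := by
      simp only [hP, hH1, hH2, ← integral_const_mul]
      have i2 : Integrable (fun x => h x ^ 2) ρ := cint (hh.pow 2)
      rw [← integral_sub i2.integrableOn ((cint hh).const_mul _).integrableOn,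
        ← integral_add (Integrable.sub' i2 ((cint hh).const_mul _)).integrableOn
          ((integrable_const (1 : ℝ)).const_mul _).integrableOn]
      exact setIntegral_congr_fun (hBm i) fun x _ => by ring
    rw [e] at h0
    have hcm : 2 * m i * c = H1 i := by rw [hc]; have := hm i; field_simp
    nlinarith [mul_le_mul_of_nonneg_left (hP2 i) (sq_nonneg c), hm i, hH20 i]
  -- per cell lower bound through Prékopa–Leindler
  set γ : I → ℝ := fun i => ∫ x in S i, wgt R x ∂ρ with hγ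
  set dV : I → ℝ := fun i => potV R (c₁ i) - potV R (c₀ i) with hdV
  have hkey : ∀ i, m i * wgt R (c₀ i) * (1 + (κ / 8 * ‖v i‖ ^ 2
      - (dV i + (s * H1 i + s ^ 2 * H2 i) / m i) / 2 - L * (W₀ i + W₁ i) / 2)) ≤ γ i := by
    intro i
    have hmi := hm i
    set E0 := (∫ x in A i, potV R x ∂ρ) / m i
    set E1 := (∫ x in B i, p x * potV R x ∂ρ) / m i
    set a0 := -E0 - κ / 2 * ⟪v i, c₀ i⟫
    set a1 := -E1 + κ / 2 * ⟪v i, c₁ i⟫ - (s * H1 i + s ^ 2 * H2 i) / m i
    set u0 : Spc d → ℝ := fun x => -potV R x - κ / 2 * ⟪v i, x⟫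
    set u1 : Spc d → ℝ := fun x => -potV R x + κ / 2 * ⟪v i, x⟫ - s * h x
    have mom : ∀ (q : Spc d → ℝ) (U : Set (Spc d)), Continuous q →
        ∫ x in U, q x * ⟪v i, x⟫ ∂ρ = ⟪v i, ∫ x in U, q x • x ∂ρ⟫ := by
      intro q U hq
      obtain ⟨C, hC⟩ := hB.compact.exists_bound_of_continuousOn
        (show ContinuousOn (fun x => q x • x) K from (hq.smul continuous_id).continuousOn)
      have := (innerSL ℝ (v i)).integral_comp_comm
        ((hB.integrable (by fun_prop) hC).integrableOn : IntegrableOn (fun x => q x • x) U ρ)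
      simpa [inner_smul_right] using this
    have J0 : m i * Real.exp a0 ≤ ∫ x in A i, Real.exp (u0 x) ∂ρ := by
      have := mul_exp_le_setIntegral (ρ := ρ) (p := fun _ => 1) (u := u0) (a := a0) (hAm i)
        (Eventually.of_forall fun _ _ => zero_le_one) (integrable_const _).integrableOn
        (cint (by fun_prop)).integrableOn (cint (by fun_prop)).integrableOn (h₀ i) ?_
      · simpa using this
      have e := mom (fun _ => 1) (A i) continuous_const
      simp only [one_mul, one_smul] at e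
      simp only [one_mul, u0]
      rw [integral_sub (cint (by fun_prop)).integrableOn (cint (by fun_prop)).integrableOn,
        integral_neg, integral_const_mul, e]
      simp only [a0, E0, hc₀, moment, one_smul, inner_smul_right, hA, ρ]
      field_simp
    have J1 : m i * Real.exp a1 ≤ ∫ x in B i, Real.exp (-potV R x + κ / 2 * ⟪v i, x⟫) ∂ρ := by
      refine le_trans (mul_exp_le_setIntegral (ρ := ρ) (p := p) (u := u1) (a := a1) (hBm i)
        (hB.ae_mem.mono fun x hx _ => hp0 x hx) (cint hpc).integrableOn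
        (cint (by fun_prop)).integrableOn (cint (by fun_prop)).integrableOn (h₁ i) ?_) ?_
      · have e := mom p (B i) hpc
        have eh : ∫ x in B i, p x * (s * h x) ∂ρ = s * H1 i + s ^ 2 * H2 i := by
          simp only [hH1, hH2, ← integral_const_mul]
          have i2 : Integrable (fun x => h x ^ 2) ρ := cint (hh.pow 2)
          rw [← integral_add ((cint hh).const_mul _).integrableOn (i2.const_mul _).integrableOn]
          exact setIntegral_congr_fun (hBm i) fun x _ => by simp only [hp]; ring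
        have es : ∀ x, p x * u1 x
            = -(p x * potV R x) + κ / 2 * (p x * ⟪v i, x⟫) - p x * (s * h x) := fun x => by
          simp only [u1]; ring
        simp_rw [es]
        rw [integral_sub (cint (by fun_prop)).integrableOn (cint (by fun_prop)).integrableOn,
          integral_add (cint (by fun_prop)).integrableOn (cint (by fun_prop)).integrableOn,
          integral_neg, integral_const_mul, e, eh]
        simp only [a1, E1, hc₁, moment, inner_smul_right, hBdef, ρ]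
        field_simp
      · refine setIntegral_mono_on_ae (cint (by fun_prop)).integrableOn
          (cint (by fun_prop)).integrableOn (hBm i) ?_
        filter_upwards [hB.ae_mem] with x hx _
        simp only [u1, Real.exp_sub, hp]
        rw [mul_div_left_comm]
        refine mul_le_of_le_one_right (Real.exp_nonneg _) ?_
        rw [div_le_one (Real.exp_pos _)]
        linarith [Real.add_one_le_exp (s * h x)]
    set cc := Real.exp (κ / 8 * ‖v i‖ ^ 2)
    have hpl := pl_on_body hB (hAm i) (hBm i) (hSm i) (F := fun x => Real.exp (u0 x))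
      (G := fun x => Real.exp (-potV R x + κ / 2 * ⟪v i, x⟫)) (H := fun x => cc * wgt R x)
      (by fun_prop) (by fun_prop) (by fun_prop) (fun _ => Real.exp_nonneg _)
      (fun _ => Real.exp_nonneg _) (fun x => mul_nonneg (Real.exp_nonneg _) (wgt_pos x).le) ?_
    swap
    · intro x hx _ y hy _
      refine ⟨midpoint_mem_cell z g₀ g₁ hx hy, ?_⟩
      simp only [u0, cc, wgt, mul_pow, ← Real.exp_nat_mul, ← Real.exp_add]
      refine Real.exp_le_exp.2 ?_
      have e := norm_nonneg (y - x - v i)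
      have e' : 0 ≤ κ / 4 * ‖y - x - v i‖ ^ 2 := by positivity
      simp only [potV, ← hκ, norm_smul, mul_pow, norm_sub_sq_real, norm_add_sq_real,
        inner_sub_left, Nat.cast_ofNat, Real.norm_eq_abs, sq_abs] at e' ⊢
      rw [real_inner_comm (v i) y, real_inner_comm (v i) x, real_inner_comm y x] at *
      linarith
    rw [integral_const_mul] at hpl
    have h2 : (m i * Real.exp ((a0 + a1) / 2)) ^ 2 ≤ (cc * γ i) ^ 2 := by
      refine le_trans (le_of_eq ?_) ((mul_le_mul J0 J1 (mul_nonneg hmi.le (Real.exp_nonneg _))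
        (setIntegral_nonneg (hAm i) fun _ _ => Real.exp_nonneg _)).trans hpl)
      rw [mul_pow, ← Real.exp_nat_mul,
        show ((2 : ℕ) : ℝ) * ((a0 + a1) / 2) = a0 + a1 by push_cast; ring, Real.exp_add]
      ring
    have h3 : m i * Real.exp ((a0 + a1) / 2) ≤ cc * γ i :=
      pow_le_pow_iff_left₀ (by positivity) (mul_nonneg (Real.exp_nonneg _)
        (setIntegral_nonneg (hSm i) fun x _ => (wgt_pos x).le)) two_ne_zero |>.1 h2
    have hE0 : E0 ≤ potV R (c₀ i) + L * W₀ i := by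
      rw [div_le_iff₀ hmi]
      have := abs_setIntegral_sub_le hB (hAm i) (p := fun _ => 1) continuous_const
        (fun _ _ => zero_le_one) continuous_potV (potV R (c₀ i)) (L * W₀ i) fun x hx hxK =>
          (abs_potV_sub_le hR1 (hB.norm_le hxK) (hc0R i)).trans
            (mul_le_mul_of_nonneg_left (hd0 i x hx hxK) hL0.le)
      simp only [one_mul] at this
      rw [h₀ i, abs_le] at this
      linarith
    have hE1 : E1 ≤ potV R (c₁ i) + L * W₁ i := by
      rw [div_le_iff₀ hmi]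
      have := abs_setIntegral_sub_le hB (hBm i) hpc hp0 continuous_potV (potV R (c₁ i))
        (L * W₁ i) fun x hx hxK => (abs_potV_sub_le hR1 (hB.norm_le hxK) (hc1R i)).trans
            (mul_le_mul_of_nonneg_left (hd1 i x hx hxK) hL0.le)
      rw [h₁ i, abs_le] at this
      linarith
    set X := κ / 8 * ‖v i‖ ^ 2 - (dV i + (s * H1 i + s ^ 2 * H2 i) / m i) / 2
      - L * (W₀ i + W₁ i) / 2
    have hX : -potV R (c₀ i) + X ≤ (a0 + a1) / 2 - κ / 8 * ‖v i‖ ^ 2 := by
      have e : ⟪v i, c₁ i⟫ - ⟪v i, c₀ i⟫ = ‖v i‖ ^ 2 := by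
        rw [← inner_sub_right, ← real_inner_self_eq_norm_sq]
      have e2 : κ / 2 * ⟪v i, c₁ i⟫ - κ / 2 * ⟪v i, c₀ i⟫ = κ / 2 * ‖v i‖ ^ 2 := by
        rw [← mul_sub, e]
      simp only [X, a0, a1, hdV]
      linarith
    calc m i * wgt R (c₀ i) * (1 + X) ≤ m i * wgt R (c₀ i) * Real.exp X :=
          mul_le_mul_of_nonneg_left (by linarith [Real.add_one_le_exp X])
            (mul_nonneg hmi.le (wgt_pos _).le)
      _ = m i * Real.exp (-potV R (c₀ i) + X) := by rw [wgt, mul_assoc, ← Real.exp_add]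
      _ ≤ m i * Real.exp ((a0 + a1) / 2 - κ / 8 * ‖v i‖ ^ 2) :=
          mul_le_mul_of_nonneg_left (Real.exp_le_exp.2 hX) hmi.le
      _ ≤ γ i := by
          rw [Real.exp_sub, ← mul_div_assoc, div_le_iff₀ (Real.exp_pos _), mul_comm (γ i)]
          exact h3
  -- the total weight
  set Z := ∫ x, wgt R x ∂ρ
  have hwi : Integrable (wgt R) ρ := cint (by fun_prop)
  have hsumγ : ∑ i, γ i ≤ Z := by
    rw [← integral_iUnion_fintype hSm (fun i j hij => cell_disjoint z _ hij)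
      fun i => hwi.integrableOn]
    exact setIntegral_le_integral hwi (Eventually.of_forall fun x => (wgt_pos x).le)
  have hZ0 : Z = ∑ i, ∫ x in A i, wgt R x ∂ρ :=
    integral_sel z g₀ hz hB.ac (fun _ => wgt R) fun _ => hwi
  have hZ1 : Z = ∑ i, ∫ x in B i, wgt R x ∂ρ :=
    integral_sel z g₁ hz hB.ac (fun _ => wgt R) fun _ => hwi
  have hA2 : ∀ i, |(∫ x in A i, wgt R x ∂ρ) - wgt R (c₀ i) * m i| ≤ L * W₀ i * m i := by
    intro i
    have := abs_setIntegral_sub_le hB (hAm i) (p := fun _ => 1) continuous_const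
      (fun _ _ => zero_le_one) continuous_wgt (wgt R (c₀ i)) (L * W₀ i) fun x hx hxK =>
        (abs_wgt_sub_le hR1 (hB.norm_le hxK) (hc0R i)).trans
          (mul_le_mul_of_nonneg_left (hd0 i x hx hxK) hL0.le)
    simp only [one_mul] at this
    rwa [h₀ i] at this
  have hB2 : ∀ i, |(∫ x in B i, wgt R x ∂ρ) - wgt R (c₁ i) * P i| ≤ L * W₁ i * P i := by
    intro i
    have := abs_setIntegral_sub_le hB (hBm i) (p := fun _ => 1) continuous_const
      (fun _ _ => zero_le_one) continuous_wgt (wgt R (c₁ i)) (L * W₁ i) fun x hx hxK =>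
        (abs_wgt_sub_le hR1 (hB.norm_le hxK) (hc1R i)).trans
          (mul_le_mul_of_nonneg_left (hd1 i x hx hxK) hL0.le)
    simp only [one_mul] at this
    exact this
  set Q : ℝ := ∫ x, h x ^ 2 ∂ρ
  have hQ : ∑ i, H2 i = Q :=
    (integral_sel z g₁ hz hB.ac (fun _ x => h x ^ 2) fun _ => cint (hh.pow 2)).symm
  have hW0' : ∀ i, 0 ≤ W₀ i ∧ 0 ≤ W₁ i := by
    intro i
    have ex : ∀ (U : Set (Spc d)) (q : Spc d → ℝ), MeasurableSet U →
        ∫ x in U, q x ∂ρ = m i → ∃ x, x ∈ U ∧ x ∈ K := by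
      intro U q hU hq
      by_contra hcon
      have : ∫ x in U, q x ∂ρ = 0 := by
        refine setIntegral_eq_zero_of_ae_eq_zero ?_
        filter_upwards [hB.ae_mem] with x hx hxU
        exact absurd ⟨x, hxU, hx⟩ hcon
      linarith [hm i, hq]
    obtain ⟨x, hx, hxK⟩ := ex (A i) _ (hAm i) (h₀ i)
    obtain ⟨y, hy, hyK⟩ := ex (B i) _ (hBm i) (h₁ i)
    exact ⟨by simpa using hW₀ i x hx hxK x hx hxK, by simpa using hW₁ i y hy hyK y hy hyK⟩
  have hpw : ∀ i, κ * (1 / 10) * (m i * ‖v i‖ ^ 2)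
      ≤ γ i - (∫ x in A i, wgt R x ∂ρ) / 2 - (∫ x in B i, wgt R x ∂ρ) / 2
        + s ^ 2 * H2 i + 4 * L * (m i * (W₀ i + W₁ i)) := by
    intro i
    refine cell_algebra (hm i) hκ0.le hL0.le (hW0' i).1 (hW0' i).2 (hH20 i) rfl
      (le_wgt hR1 (hc0R i)) (wgt_le_one _) (w₁ := wgt R (c₁ i)) (dV := dV i) (P := P i)
      ?_ ?_ (abs_potV_sub_le hR1 (hc1R i) (hc0R i)) ?_
      (abs_wgt_sub_le hR1 (hc1R i) (hc0R i)) (hH12 i) (hP' i) (hP2 i) ?_ ?_ (hkey i)
    · rw [hL, hκ]; field_simp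
    · simp only [wgt, hdV, ← Real.exp_add]; ring_nf
    · have := potV_le hR1 (hc1R i); have := potV_le hR1 (hc0R i)
      have := potV_nonneg (R := R) (c₁ i); have := potV_nonneg (R := R) (c₀ i)
      rw [abs_le]; simp only [hdV]; constructor <;> linarith
    · linarith [(abs_le.1 (hA2 i)).2]
    · linarith [(abs_le.1 (hB2 i)).2]
  have hsum := Finset.sum_le_sum fun i (_ : i ∈ Finset.univ) => hpw i
  simp only [Finset.sum_add_distrib, Finset.sum_sub_distrib, ← Finset.mul_sum,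
    ← Finset.sum_div, ← hZ0, ← hZ1, hQ] at hsum
  have hfin : κ * (1 / 10) * ∑ i, m i * ‖v i‖ ^ 2
      ≤ s ^ 2 * Q + 4 * L * ∑ i, m i * (W₀ i + W₁ i) := by linarith
  have hconv : ∑ i, m i * ‖v i‖ ^ 2
      ≤ (s ^ 2 * Q + 4 * L * ∑ i, m i * (W₀ i + W₁ i)) / (κ * (1 / 10)) := by
    rw [le_div_iff₀ (by positivity)]; linarith
  refine hconv.trans ?_
  rw [div_le_iff₀ (by positivity), hκ, hL]
  have hQ0 : 0 ≤ s ^ 2 * Q := mul_nonneg (sq_nonneg s) (integral_nonneg fun x => sq_nonneg _)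
  have hE : 0 ≤ ∑ i, m i * (W₀ i + W₁ i) :=
    Finset.sum_nonneg fun i _ => mul_nonneg (hm i).le (add_nonneg (hW0' i).1 (hW0' i).2)
  have e : (1000 * R ^ 2 * s ^ 2 * Q + 100 * R * ∑ i, m i * (W₀ i + W₁ i))
      * ((64 * R ^ 2)⁻¹ * (1 / 10))
      = 100 / 64 * (s ^ 2 * Q) + 640 / 64 * ((64 * R)⁻¹ * ∑ i, m i * (W₀ i + W₁ i)) := by
    field_simp
    ring
  rw [e]
  have hLE : 0 ≤ (64 * R)⁻¹ * ∑ i, m i * (W₀ i + W₁ i) := mul_nonneg (by positivity) hE
  linarith

end Vale.Agent.P074
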