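import Mathlib.MeasureTheory.Function.LpSeminorm.Basic
import Mathlib.MeasureTheory.Measure.Haar.InnerProductSpace
import Mathlib.Analysis.SpecialFunctions.Pow.NNReal
import Mathlib.Analysis.Convex.Basic

/-! Definitions for the stability problem of quadratic optimal transport maps. -/

open MeasureTheory
open scoped ENNReal NNReal

namespace Vale.Agent.P074

/-- Euclidean space of dimension `d`. -/
abbrev Spc (d : ℕ) := EuclideanSpace ℝ (Fin d)

variable {d : ℕ}

/-- The uniform probability measure on `K`. -/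
noncomputable def uniformOn (K : Set (Spc d)) : Measure (Spc d) :=
  (volume K)⁻¹ • volume.restrict K

/-- `T` is a quadratic optimal transport map from `ρ` to `μ`. -/
def IsOptimalMap (ρ μ : Measure (Spc d)) (T : Spc d → Spc d) : Prop :=
  Measurable T ∧ ρ.map T = μ ∧ ∀ S : Spc d → Spc d, Measurable S → ρ.map S = μ →
    ∫⁻ x, edist x (T x) ^ 2 ∂ρ ≤ ∫⁻ x, edist x (S x) ^ 2 ∂ρ

/-- The quadratic Wasserstein distance, as an infimum over couplings. -/
noncomputable def W2 (μ ν : Measure (Spc d)) : ℝ≥0∞ :=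
  (⨅ (π : Measure (Spc d × Spc d)) (_ : π.map Prod.fst = μ) (_ : π.map Prod.snd = ν),
    ∫⁻ p, edist p.1 p.2 ^ 2 ∂π) ^ (1 / 2 : ℝ)

/-- The exponent `α` is admissible in dimension `d`. -/
def Admissible (d : ℕ) (α : ℝ) : Prop :=
  ∀ K : Set (Spc d), IsCompact K → Convex ℝ K → (interior K).Nonempty →
    ∀ Y : Set (Spc d), IsCompact Y → Y.Nonempty →
      ∃ C : ℝ≥0, ∀ μ ν : Measure (Spc d), IsProbabilityMeasure μ → IsProbabilityMeasure ν →
        μ Yᶜ = 0 → ν Yᶜ = 0 →
        ∀ T S : Spc d → Spc d, IsOptimalMap (uniformOn K) μ T →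
          IsOptimalMap (uniformOn K) ν S →
            eLpNorm (fun x => T x - S x) 2 (uniformOn K) ≤ C * W2 μ ν ^ α

end Vale.Agent.P074
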