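import Vale.Agent.P074.Defs
import Mathlib.Analysis.InnerProductSpace.PiL2
import Mathlib.Analysis.SpecialFunctions.Pow.Asymptotics
import Mathlib.MeasureTheory.Integral.Lebesgue.Markov
import Mathlib.MeasureTheory.Function.LpSeminorm.Indicator
import Mathlib.Analysis.SpecialFunctions.Pow.Continuity

/-! The three-atom family showing that no exponent above one third is admissible. -/

open MeasureTheory Filter
open scoped ENNReal NNReal RealInnerProductSpace Topology

namespace Vale.Agent.P074

variable {d : ℕ}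

/-- A product box. -/
def boxSet (a b : Fin d → ℝ) : Set (Spc d) := {x | ∀ i, x i ∈ Set.Icc (a i) (b i)}

lemma volume_boxSet (a b : Fin d → ℝ) :
    volume (boxSet a b) = ∏ i, ENNReal.ofReal (b i - a i) := by
  have h : boxSet a b
      = (MeasurableEquiv.toLp 2 (Fin d → ℝ)).symm ⁻¹'
          (Set.univ.pi fun i => Set.Icc (a i) (b i)) := by
    ext x; simp only [boxSet, Set.mem_ofPred_eq, Set.mem_preimage, Set.mem_univ_pi]; rfl
  rw [h, (EuclideanSpace.volume_preserving_symm_measurableEquiv_toLp (Fin d)).measure_preimage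
    (MeasurableSet.univ_pi fun i => measurableSet_Icc).nullMeasurableSet, volume_pi_pi]
  simp [Real.volume_Icc]

/-- The cube. -/
def cube (d : ℕ) : Set (Spc d) := boxSet (fun _ => -1) (fun _ => 1)

lemma volume_cube : volume (cube d) = (2 : ℝ≥0∞) ^ d := by
  rw [cube, volume_boxSet]
  norm_num

lemma volume_cube_ne_zero : volume (cube d) ≠ 0 := by
  rw [volume_cube]; positivity

lemma volume_cube_ne_top : volume (cube d) ≠ ⊤ := by
  rw [volume_cube]; simp

lemma cube_eq_preimage :
    cube d = (EuclideanSpace.equiv (Fin d) ℝ).toHomeomorph ⁻¹'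
      (Set.univ.pi fun _ => Set.Icc (-1) 1) := by
  ext x
  simp only [cube, boxSet, Set.mem_ofPred_eq, Set.mem_preimage, Set.mem_univ_pi]; rfl

lemma isCompact_cube : IsCompact (cube d) := by
  rw [cube_eq_preimage]
  exact (EuclideanSpace.equiv (Fin d) ℝ).toHomeomorph.isCompact_preimage.2
    (isCompact_univ_pi fun _ => isCompact_Icc)

lemma convex_cube : Convex ℝ (cube d) := by
  intro x hx y hy a b ha hb hab i
  have := convex_Icc (-1 : ℝ) 1 (hx i) (hy i) ha hb hab
  simpa using this

lemma interior_cube : (interior (cube d)).Nonempty := by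
  refine ⟨0, interior_maximal ?_ Metric.isOpen_ball (Metric.mem_ball_self one_pos)⟩
  intro x hx i
  rw [Metric.mem_ball, dist_zero_right] at hx
  have := PiLp.norm_apply_le x i
  rw [Real.norm_eq_abs, abs_le] at this
  exact ⟨by linarith, by linarith⟩

lemma measurableSet_cube : MeasurableSet (cube d) := isCompact_cube.measurableSet

instance : IsProbabilityMeasure (uniformOn (cube d)) :=
  ⟨by simp [uniformOn, ENNReal.inv_mul_cancel volume_cube_ne_zero volume_cube_ne_top]⟩

/-- The uniform measure of a box inside the cube whose only short sides are `i`, `j`. -/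
lemma uniformOn_boxSet {i j : Fin d} (hij : i ≠ j) (a b : Fin d → ℝ)
    (hsub : boxSet a b ⊆ cube d) (hrest : ∀ k, k ≠ i → k ≠ j → a k = -1 ∧ b k = 1) :
    uniformOn (cube d) (boxSet a b)
      = ENNReal.ofReal ((b i - a i) / 2) * ENNReal.ofReal ((b j - a j) / 2) := by
  have h1 : volume (boxSet a b)
      = (∏ k, ENNReal.ofReal ((b k - a k) / 2)) * (2 : ℝ≥0∞) ^ d := by
    have hc : (2 : ℝ≥0∞) ^ d = ∏ _k : Fin d, (2 : ℝ≥0∞) := by simp
    rw [volume_boxSet, hc, ← Finset.prod_mul_distrib]
    refine Finset.prod_congr rfl fun k _ => ?_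
    rw [show (2 : ℝ≥0∞) = ENNReal.ofReal 2 by simp, ← ENNReal.ofReal_mul' (by norm_num)]
    congr 1; ring
  have h2 : ∏ k, ENNReal.ofReal ((b k - a k) / 2)
      = ENNReal.ofReal ((b i - a i) / 2) * ENNReal.ofReal ((b j - a j) / 2) := by
    refine Finset.prod_eq_mul i j hij (fun k _ hk => ?_) (by simp) (by simp)
    obtain ⟨ha, hb⟩ := hrest k hk.1 hk.2
    rw [ha, hb]; norm_num
  rw [uniformOn, Measure.smul_apply, Measure.restrict_eq_self _ hsub, h1, h2, volume_cube,
    smul_eq_mul, mul_comm, mul_assoc, ENNReal.mul_inv_cancel (by positivity) (by simp), mul_one]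

section

variable (i0 i1 : Fin d)

/-- The middle cell. -/
def mid (c t : ℝ) : Set (Spc d) := {x | |x i0| ≤ c + t * x i1}

open Classical in
/-- The optimal map onto the three atoms `t e₁`, `e₀`, `-e₀`. -/
noncomputable def Tmap (c t : ℝ) (x : Spc d) : Spc d :=
  if x ∈ mid i0 i1 c t then EuclideanSpace.single i1 t
  else if 0 < x i0 then EuclideanSpace.single i0 1 else EuclideanSpace.single i0 (-1)

lemma measurableSet_mid (c t : ℝ) : MeasurableSet (mid i0 i1 c t) := by
  unfold mid; exact measurableSet_le (by fun_prop) (by fun_prop)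

lemma measurable_Tmap (c t : ℝ) : Measurable (Tmap i0 i1 c t) := by
  unfold Tmap
  refine Measurable.ite (measurableSet_mid i0 i1 c t) measurable_const ?_
  exact Measurable.ite (measurableSet_lt measurable_const (by fun_prop)) measurable_const
    measurable_const

/-- The set of atoms. -/
def atoms (t : ℝ) : Set (Spc d) :=
  {EuclideanSpace.single i1 t, EuclideanSpace.single i0 1, EuclideanSpace.single i0 (-1)}

lemma Tmap_mem_atoms (c t : ℝ) (x : Spc d) : Tmap i0 i1 c t x ∈ atoms i0 i1 t := by
  unfold Tmap atoms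
  split_ifs <;> simp

/-- Squared distance to an atom on a coordinate axis. -/
lemma dist_sq_single (x : Spc d) (i : Fin d) (a : ℝ) :
    dist x (EuclideanSpace.single i a) ^ 2 = ‖x‖ ^ 2 - 2 * (a * x i) + a ^ 2 := by
  rw [dist_eq_norm, norm_sub_sq_real, EuclideanSpace.inner_single_right]
  simp

open Classical in
/-- The shifted dual potential on the atoms. -/
noncomputable def pot (c t : ℝ) (y : Spc d) : ℝ :=
  if y = EuclideanSpace.single i1 t then 3 - 2 * c - t ^ 2 else 2

lemma single_ne {i0 i1 : Fin d} (h : i0 ≠ i1) (t a : ℝ) (ha : a ≠ 0) :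
    EuclideanSpace.single i0 a ≠ EuclideanSpace.single i1 t := by
  intro he
  have := congrArg (fun y : Spc d => y i0) he
  simp [h] at this
  exact ha this

lemma dual_ineq {i0 i1 : Fin d} (h : i0 ≠ i1) (c t : ℝ) (x y : Spc d)
    (hy : y ∈ atoms i0 i1 t) :
    dist x (Tmap i0 i1 c t x) ^ 2 + pot i1 c t (Tmap i0 i1 c t x)
      ≤ dist x y ^ 2 + pot i1 c t y := by
  have h1 := single_ne h t 1 one_ne_zero
  have h2 := single_ne h t (-1) (by norm_num)
  simp only [atoms, Set.mem_insert_iff, Set.mem_singleton_iff] at hy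
  unfold Tmap
  split_ifs with hm hp
  · simp only [mid, Set.mem_ofPred_eq, abs_le] at hm
    rcases hy with rfl | rfl | rfl <;>
      simp only [pot, if_true, if_neg h1, if_neg h2, dist_sq_single] <;> linarith
  · simp only [mid, Set.mem_ofPred_eq, not_le] at hm
    rw [abs_of_pos hp] at hm
    rcases hy with rfl | rfl | rfl <;>
      simp only [pot, if_true, if_neg h1, if_neg h2, dist_sq_single] <;> linarith
  · simp only [mid, Set.mem_ofPred_eq, not_le] at hm
    rw [abs_of_nonpos (not_lt.1 hp)] at hm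
    rcases hy with rfl | rfl | rfl <;>
      simp only [pot, if_true, if_neg h1, if_neg h2, dist_sq_single] <;> linarith

/-- The map `Tmap` is optimal towards its image measure. -/
lemma isOptimalMap_Tmap {i0 i1 : Fin d} (h : i0 ≠ i1) (ρ : Measure (Spc d))
    [IsProbabilityMeasure ρ] {c t : ℝ} (hc : c ≤ 1) (ht : |t| ≤ 1) :
    IsOptimalMap ρ (ρ.map (Tmap i0 i1 c t)) (Tmap i0 i1 c t) := by
  classical
  set T := Tmap i0 i1 c t with hT
  refine ⟨measurable_Tmap i0 i1 c t, rfl, fun S hS hmap => ?_⟩
  have hat : MeasurableSet (atoms i0 i1 t) := by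
    unfold atoms; exact (Set.toFinite _).measurableSet
  have hSat : ∀ᵐ x ∂ρ, S x ∈ atoms i0 i1 t := by
    refine (ae_map_iff hS.aemeasurable hat).1 ?_
    rw [hmap]
    exact (ae_map_iff (measurable_Tmap i0 i1 c t).aemeasurable hat).2
      (Eventually.of_forall fun x => Tmap_mem_atoms i0 i1 c t x)
  have hpot : ∀ y, 0 ≤ pot i1 c t y ∧ pot i1 c t y ≤ 3 + 2 * |c| := by
    intro y
    have : t ^ 2 ≤ 1 := (sq_le_one_iff_abs_le_one t).2 ht
    have := neg_abs_le c
    have := abs_nonneg c
    unfold pot; split_ifs <;> constructor <;> nlinarith [sq_nonneg t]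
  let G : Spc d → ℝ≥0∞ := fun y => ENNReal.ofReal (pot i1 c t y)
  have hG : Measurable G := by
    refine Measurable.ennreal_ofReal ?_
    unfold pot
    exact Measurable.ite (measurableSet_singleton _) measurable_const measurable_const
  have key : ∫⁻ x, (edist x (T x) ^ 2 + G (T x)) ∂ρ
      ≤ ∫⁻ x, (edist x (S x) ^ 2 + G (S x)) ∂ρ := by
    refine lintegral_mono_ae ?_
    filter_upwards [hSat] with x hx
    simp only [G, edist_dist, ← ENNReal.ofReal_pow dist_nonneg]
    rw [← ENNReal.ofReal_add (sq_nonneg _) (hpot _).1,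
      ← ENNReal.ofReal_add (sq_nonneg _) (hpot _).1]
    exact ENNReal.ofReal_le_ofReal (dual_ineq h c t x (S x) hx)
  have hTm : Measurable T := measurable_Tmap i0 i1 c t
  rw [lintegral_add_right _ (hG.fun_comp hTm), lintegral_add_right _ (hG.fun_comp hS),
    ← lintegral_map hG hTm, ← lintegral_map hG hS, hmap] at key
  refine (ENNReal.add_le_add_iff_right ?_).1 key
  refine ne_top_of_le_ne_top (b := ENNReal.ofReal (3 + 2 * |c|)) ENNReal.ofReal_ne_top ?_
  have : IsProbabilityMeasure (ρ.map T) := Measure.isProbabilityMeasure_map hTm.aemeasurable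
  calc ∫⁻ y, G y ∂(ρ.map T) ≤ ∫⁻ _, ENNReal.ofReal (3 + 2 * |c|) ∂(ρ.map T) :=
        lintegral_mono fun y => ENNReal.ofReal_le_ofReal (hpot y).2
    _ = _ := by simp

end

/-- The sign change of the coordinate `j`. -/
noncomputable def flip (j : Fin d) : Spc d ≃ₗᵢ[ℝ] Spc d :=
  LinearIsometryEquiv.piLpCongrRight 2 fun i =>
    if i = j then LinearIsometryEquiv.neg ℝ else LinearIsometryEquiv.refl ℝ ℝ

lemma flip_apply (j : Fin d) (x : Spc d) (i : Fin d) :
    flip j x i = if i = j then - x i else x i := by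
  simp only [flip, LinearIsometryEquiv.piLpCongrRight_apply]
  split_ifs with h <;> simp [h]

lemma flip_single_self (j : Fin d) (a : ℝ) :
    flip j (EuclideanSpace.single j a) = EuclideanSpace.single j (-a) := by
  ext i
  rw [flip_apply]
  by_cases h : i = j <;> simp [h]

lemma flip_single_ne {i j : Fin d} (hij : i ≠ j) (a : ℝ) :
    flip j (EuclideanSpace.single i a) = EuclideanSpace.single i a := by
  ext k
  rw [flip_apply]
  by_cases h : k = j <;> simp [h, Ne.symm hij]

lemma measurePreserving_flip (j : Fin d) :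
    MeasurePreserving (flip j) (uniformOn (cube d)) (uniformOn (cube d)) := by
  have hpre : (flip j) ⁻¹' cube d = cube d := by
    ext x
    simp only [cube, boxSet, Set.mem_preimage, Set.mem_ofPred_eq, Set.mem_Icc]
    refine forall_congr' fun i => ?_
    rw [flip_apply]
    split_ifs <;> constructor <;> rintro ⟨u, v⟩ <;> constructor <;> linarith
  have := (flip j).measurePreserving.restrict_preimage (measurableSet_cube (d := d))
  rw [hpre] at this
  exact this.smul_measure _

lemma Tmap_flip {i0 i1 : Fin d} (h : i0 ≠ i1) (c t : ℝ) (x : Spc d) :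
    flip i1 (Tmap i0 i1 c t (flip i1 x)) = Tmap i0 i1 c (-t) x := by
  have hmid : flip i1 x ∈ mid i0 i1 c t ↔ x ∈ mid i0 i1 c (-t) := by
    simp [mid, flip_apply, h]
  have h0 : flip i1 x i0 = x i0 := by simp [flip_apply, h]
  unfold Tmap
  rw [h0]
  split_ifs <;> simp_all [flip_single_self, flip_single_ne]

/-- The Wasserstein bound for the pair of targets. -/
lemma W2_le {i0 i1 : Fin d} (h : i0 ≠ i1) {c : ℝ} (hc : 0 ≤ c) (hc' : c ≤ 1 / 2) :
    W2 ((uniformOn (cube d)).map (Tmap i0 i1 c c))
        ((uniformOn (cube d)).map (Tmap i0 i1 c (-c)))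
      ≤ ENNReal.ofReal (8 * c ^ 3) ^ (1 / 2 : ℝ) := by
  set ρ := uniformOn (cube d)
  set T := Tmap i0 i1 c c
  have hT : Measurable T := measurable_Tmap i0 i1 c c
  have hF : Measurable (flip i1 : Spc d → Spc d) := (flip i1).continuous.measurable
  have hν : ρ.map (Tmap i0 i1 c (-c)) = ρ.map (fun x => flip i1 (T x)) := by
    have e : Tmap i0 i1 c (-c) = (fun x => flip i1 (T x)) ∘ (flip i1) := by
      funext x; exact (Tmap_flip h c c x).symm
    rw [e, ← Measure.map_map (hF.fun_comp hT) hF, (measurePreserving_flip i1).map_eq]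
  let P : Spc d → Spc d × Spc d := fun x => (T x, flip i1 (T x))
  have hP : Measurable P := hT.prodMk (hF.fun_comp hT)
  refine ENNReal.rpow_le_rpow ?_ (by norm_num)
  refine iInf_le_of_le (ρ.map P) (iInf_le_of_le ?_ (iInf_le_of_le ?_ ?_))
  · rw [Measure.map_map measurable_fst hP]; rfl
  · rw [hν, Measure.map_map measurable_snd hP]; rfl
  rw [lintegral_map (by fun_prop) hP]
  let a : Fin d → ℝ := fun k => if k = i0 then -(2 * c) else -1
  let b : Fin d → ℝ := fun k => if k = i0 then 2 * c else 1
  have hsub : boxSet a b ⊆ cube d := by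
    intro x hx k
    obtain ⟨u, v⟩ := hx k
    simp only [a, b] at u v
    split_ifs at u v <;> constructor <;> linarith
  have hbox : MeasurableSet (boxSet a b) := by
    have : boxSet a b = ⋂ i, (fun x : Spc d => x i) ⁻¹' Set.Icc (a i) (b i) := by
      ext x; simp [boxSet]
    rw [this]
    exact MeasurableSet.iInter fun i => (by fun_prop : Measurable fun x : Spc d => x i)
      measurableSet_Icc
  have hrho : ρ (boxSet a b) = ENNReal.ofReal (2 * c) := by
    rw [show ρ = uniformOn (cube d) from rfl, uniformOn_boxSet h a b hsub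
      (fun k hk _ => by simp [a, b, hk])]
    simp [a, b, h.symm]
  have hae : ∀ᵐ x ∂ρ, x ∈ cube d :=
    Measure.ae_smul_measure (ae_restrict_mem measurableSet_cube) _
  calc ∫⁻ x, edist (P x).1 (P x).2 ^ 2 ∂ρ
      ≤ ∫⁻ x, (boxSet a b).indicator (fun _ => ENNReal.ofReal (4 * c ^ 2)) x ∂ρ := by
        refine lintegral_mono_ae ?_
        filter_upwards [hae] with x hx
        show edist (T x) (flip i1 (T x)) ^ 2 ≤ _
        by_cases hm : x ∈ mid i0 i1 c c
        · have hxb : x ∈ boxSet a b := by
            intro k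
            obtain ⟨u, v⟩ := hx k
            simp only [a, b]
            split_ifs with hk
            · subst hk
              simp only [mid, Set.mem_ofPred_eq, abs_le] at hm
              obtain ⟨u', v'⟩ := hx i1
              constructor <;> nlinarith
            · exact ⟨u, v⟩
          rw [Set.indicator_of_mem hxb]
          simp only [T, Tmap, if_pos hm, flip_single_self, edist_dist,
            ← ENNReal.ofReal_pow dist_nonneg]
          refine ENNReal.ofReal_le_ofReal ?_
          rw [dist_sq_single]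
          simp
          nlinarith
        · simp only [T, Tmap, if_neg hm]
          split_ifs <;> simp [flip_single_ne h]
    _ = ENNReal.ofReal (4 * c ^ 2) * ρ (boxSet a b) := lintegral_indicator_const hbox _
    _ = ENNReal.ofReal (8 * c ^ 3) := by
        rw [hrho, ← ENNReal.ofReal_mul (by positivity)]; ring_nf

/-- The maps differ by order one on a set of mass of order `c`. -/
lemma le_eLpNorm_sub {i0 i1 : Fin d} (h : i0 ≠ i1) {c : ℝ} (hc : 0 < c) (hc' : c ≤ 1 / 2) :
    ENNReal.ofReal (c / 16) ^ (1 / 2 : ℝ)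
      ≤ eLpNorm (fun x => Tmap i0 i1 c c x - Tmap i0 i1 c (-c) x) 2 (uniformOn (cube d)) := by
  set ρ := uniformOn (cube d)
  let a : Fin d → ℝ := fun k => if k = i0 then c * (3 / 4) else if k = i1 then 1 / 2 else -1
  let b : Fin d → ℝ := fun k => if k = i0 then c * (3 / 2) else 1
  have hsub : boxSet a b ⊆ cube d := by
    intro x hx k
    obtain ⟨u, v⟩ := hx k
    simp only [a, b] at u v
    split_ifs at u v <;> constructor <;> linarith
  have hrho : ρ (boxSet a b) = ENNReal.ofReal (c * (3 / 32)) := by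
    rw [show ρ = uniformOn (cube d) from rfl, uniformOn_boxSet h a b hsub
      (fun k hk hk' => by simp [a, b, hk, hk'])]
    simp only [a, b, if_true, if_neg h.symm]
    rw [← ENNReal.ofReal_mul (by linarith)]
    ring_nf
  have hbox : MeasurableSet (boxSet a b) := by
    have : boxSet a b = ⋂ i, (fun x : Spc d => x i) ⁻¹' Set.Icc (a i) (b i) := by
      ext x; simp [boxSet]
    rw [this]
    exact MeasurableSet.iInter fun i => (by fun_prop : Measurable fun x : Spc d => x i)
      measurableSet_Icc
  calc ENNReal.ofReal (c / 16) ^ (1 / 2 : ℝ)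
      ≤ ρ (boxSet a b) ^ (1 / 2 : ℝ) := by
        rw [hrho]
        exact ENNReal.rpow_le_rpow (ENNReal.ofReal_le_ofReal (by linarith)) (by norm_num)
    _ = eLpNorm ((boxSet a b).indicator fun _ => (1 : ℝ)) 2 ρ := by
        rw [eLpNorm_indicator_const hbox (by norm_num) (by norm_num)]
        simp
    _ ≤ _ := by
        refine eLpNorm_mono fun x => ?_
        by_cases hx : x ∈ boxSet a b
        · rw [Set.indicator_of_mem hx, norm_one]
          have h0 := hx i0
          have h1 := hx i1
          simp only [a, b, if_true, if_neg h.symm, Set.mem_Icc] at h0 h1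
          have hp : 0 < x i0 := by nlinarith
          have hin : x ∈ mid i0 i1 c c := by
            simp only [mid, Set.mem_ofPred_eq, abs_of_pos hp]; nlinarith
          have hout : x ∉ mid i0 i1 c (-c) := by
            simp only [mid, Set.mem_ofPred_eq, abs_of_pos hp, not_le]; nlinarith
          simp only [Tmap, if_pos hin, if_neg hout, if_pos hp]
          calc (1 : ℝ) = ‖(EuclideanSpace.single i1 c - EuclideanSpace.single i0 1 : Spc d) i0‖ :=
                by simp [h]
            _ ≤ _ := PiLp.norm_apply_le _ _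
        · rw [Set.indicator_of_notMem hx, norm_zero]
          exact norm_nonneg _

/-- No exponent above one third is admissible. -/
theorem not_admissible {d : ℕ} (hd : 2 ≤ d) {α : ℝ} (hα : 1 / 3 < α) : ¬ Admissible d α := by
  intro hA
  let i0 : Fin d := ⟨0, by omega⟩
  let i1 : Fin d := ⟨1, by omega⟩
  have h01 : i0 ≠ i1 := by simp [i0, i1]
  obtain ⟨C, hC⟩ := hA (cube d) isCompact_cube convex_cube interior_cube
    (Metric.closedBall 0 1) (isCompact_closedBall _ _) ⟨0, by simp⟩
  -- choose `c`
  set β : ℝ := 3 * α / 2 - 1 / 2 with hβ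
  have hβ0 : 0 < β := by rw [hβ]; linarith
  have hlim : Tendsto (fun c : ℝ => (C : ℝ) * 8 ^ (α / 2) * c ^ β) (𝓝[>] 0) (𝓝 0) := by
    have h1 : ContinuousAt (fun c : ℝ => (C : ℝ) * 8 ^ (α / 2) * c ^ β) 0 :=
      continuousAt_const.mul (Real.continuousAt_rpow_const 0 β (Or.inr hβ0.le))
    have := h1.tendsto.mono_left (nhdsWithin_le_nhds (s := Set.Ioi (0 : ℝ)))
    simpa [Real.zero_rpow hβ0.ne'] using this
  have hev := (hlim.eventually (gt_mem_nhds
    (show (0 : ℝ) < (1 / 16) ^ (1 / 2 : ℝ) by positivity))).and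
    (Ioo_mem_nhdsGT (show (0 : ℝ) < 1 / 2 by norm_num))
  obtain ⟨c, hsmall, hc0, hc'⟩ := hev.exists
  set ρ := uniformOn (cube d)
  have hsupp : ∀ t : ℝ, |t| ≤ 1 →
      (ρ.map (Tmap i0 i1 c t)) (Metric.closedBall 0 1)ᶜ = 0 := by
    intro t ht
    rw [Measure.map_apply (measurable_Tmap i0 i1 c t) measurableSet_closedBall.compl]
    have : (Tmap i0 i1 c t) ⁻¹' (Metric.closedBall 0 1)ᶜ = ∅ := by
      ext x
      simp only [Set.mem_preimage, Set.mem_compl_iff, Metric.mem_closedBall, dist_zero_right,
        Set.mem_empty_iff_false, iff_false, not_not]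
      unfold Tmap
      split_ifs <;> simp [ht]
    rw [this, measure_empty]
  have hcabs : |c| ≤ 1 := by rw [abs_of_pos hc0]; linarith
  have hcabs' : |(-c)| ≤ 1 := by rwa [abs_neg]
  have key := hC _ _ (Measure.isProbabilityMeasure_map (measurable_Tmap i0 i1 c c).aemeasurable)
    (Measure.isProbabilityMeasure_map (measurable_Tmap i0 i1 c (-c)).aemeasurable)
    (hsupp c hcabs) (hsupp (-c) hcabs') _ _
    (isOptimalMap_Tmap h01 ρ (by linarith) hcabs)
    (isOptimalMap_Tmap h01 ρ (by linarith) hcabs')
  have hα0 : 0 < α := by linarith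
  have bound := ((le_eLpNorm_sub h01 hc0 hc'.le).trans key).trans
    (mul_le_mul_right (ENNReal.rpow_le_rpow (W2_le h01 hc0.le hc'.le) hα0.le) _)
  rw [← ENNReal.rpow_mul, ENNReal.ofReal_rpow_of_nonneg (by positivity) (by norm_num),
    ENNReal.ofReal_rpow_of_nonneg (by positivity) (by positivity), ← ENNReal.ofReal_coe_nnreal,
    ← ENNReal.ofReal_mul C.coe_nonneg, ENNReal.ofReal_le_ofReal_iff (by positivity)] at bound
  have e1 : (c / 16) ^ (1 / 2 : ℝ) = (1 / 16) ^ (1 / 2 : ℝ) * c ^ (1 / 2 : ℝ) := by
    rw [← Real.mul_rpow (by norm_num) hc0.le]; ring_nf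
  have e2 : (8 * c ^ 3 : ℝ) ^ (1 / 2 * α) = 8 ^ (α / 2) * c ^ β * c ^ (1 / 2 : ℝ) := by
    rw [Real.mul_rpow (by norm_num) (by positivity), mul_assoc, ← Real.rpow_add hc0,
      show (c ^ 3 : ℝ) = c ^ ((3 : ℕ) : ℝ) by rw [Real.rpow_natCast],
      ← Real.rpow_mul hc0.le, hβ]
    norm_num
    ring_nf
  rw [e1, e2] at bound
  have hcp : 0 < c ^ (1 / 2 : ℝ) := by positivity
  nlinarith

end Vale.Agent.P074
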