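import Vale.Agent.P074.Defs
import Mathlib.Analysis.InnerProductSpace.PiL2
import Mathlib.MeasureTheory.Integral.Bochner.Set
import Mathlib.MeasureTheory.Measure.Lebesgue.EqHaar

/-! Max-affine potentials, power cells and semi-discrete transport. -/

open MeasureTheory Filter Set
open scoped ENNReal NNReal RealInnerProductSpace Topology

namespace Vale.Agent.P074

variable {d : ℕ} {I : Type*} [Fintype I] [Nonempty I]

/-- The affine piece `i`. -/
noncomputable def piece (z : I → Spc d) (g : I → ℝ) (i : I) (x : Spc d) : ℝ := ⟪x, z i⟫ - g i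

/-- The max-affine potential. -/
noncomputable def phi (z : I → Spc d) (g : I → ℝ) (x : Spc d) : ℝ :=
  Finset.univ.sup' Finset.univ_nonempty fun i => piece z g i x

/-- The open power cell of `i`. -/
def cell (z : I → Spc d) (g : I → ℝ) (i : I) : Set (Spc d) :=
  {x | ∀ j, j ≠ i → piece z g j x < piece z g i x}

open Classical in
/-- A selected maximizing index. -/
noncomputable def sel (z : I → Spc d) (g : I → ℝ) (x : Spc d) : I :=
  if h : (Finset.univ.filter fun k : Fin (Fintype.card I) =>
      piece z g ((Fintype.equivFin I).symm k) x = phi z g x).Nonempty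
  then (Fintype.equivFin I).symm ((Finset.univ.filter fun k : Fin (Fintype.card I) =>
      piece z g ((Fintype.equivFin I).symm k) x = phi z g x).min' h)
  else Classical.arbitrary I

/-- The transport map of the potential. -/
noncomputable def gradMap (z : I → Spc d) (g : I → ℝ) (x : Spc d) : Spc d := z (sel z g x)

variable (z : I → Spc d) (g : I → ℝ)

omit [Fintype I] [Nonempty I] in
@[fun_prop]
lemma continuous_piece (i : I) : Continuous (piece z g i) := by unfold piece; fun_prop

lemma piece_le_phi (i : I) (x : Spc d) : piece z g i x ≤ phi z g x :=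
  Finset.le_sup' (fun i => piece z g i x) (Finset.mem_univ i)

lemma exists_piece_eq_phi (x : Spc d) : ∃ i, piece z g i x = phi z g x := by
  obtain ⟨i, -, hi⟩ := Finset.exists_mem_eq_sup' Finset.univ_nonempty fun i => piece z g i x
  exact ⟨i, hi.symm⟩

@[fun_prop]
lemma continuous_phi : Continuous (phi z g) :=
  Continuous.finset_sup'_apply _ fun i _ => continuous_piece z g i

lemma piece_sel (x : Spc d) : piece z g (sel z g x) x = phi z g x := by
  classical
  have h : (Finset.univ.filter fun k : Fin (Fintype.card I) =>
      piece z g ((Fintype.equivFin I).symm k) x = phi z g x).Nonempty := by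
    obtain ⟨i, hi⟩ := exists_piece_eq_phi z g x
    exact ⟨Fintype.equivFin I i, by simpa using hi⟩
  rw [sel, dif_pos h]
  exact (Finset.mem_filter.1 (Finset.min'_mem _ h)).2

lemma phi_eq_inner_gradMap (x : Spc d) :
    phi z g x = ⟪x, gradMap z g x⟫ - g (sel z g x) := (piece_sel z g x).symm

lemma sel_of_mem_cell {i : I} {x : Spc d} (hx : x ∈ cell z g i) : sel z g x = i := by
  by_contra h
  have := hx _ h
  rw [piece_sel] at this
  exact (piece_le_phi z g i x).not_gt this

lemma gradMap_of_mem_cell {i : I} {x : Spc d} (hx : x ∈ cell z g i) : gradMap z g x = z i := by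
  rw [gradMap, sel_of_mem_cell z g hx]

lemma phi_of_mem_cell {i : I} {x : Spc d} (hx : x ∈ cell z g i) :
    phi z g x = ⟪x, z i⟫ - g i := by
  rw [← piece_sel z g x, sel_of_mem_cell z g hx, piece]

omit [Fintype I] [Nonempty I] in
lemma cell_disjoint {i j : I} (hij : i ≠ j) : Disjoint (cell z g i) (cell z g j) :=
  Set.disjoint_left.2 fun _ hi hj => lt_asymm (hi j hij.symm) (hj i hij)

omit [Nonempty I] in
lemma isOpen_cell (i : I) : IsOpen (cell z g i) := by
  have : cell z g i = ⋂ j ∈ {j | j ≠ i}, {x | piece z g j x < piece z g i x} := by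
    ext x; simp [cell]
  rw [this]
  exact (Set.toFinite _).isOpen_biInter fun j _ => isOpen_lt (by fun_prop) (by fun_prop)

omit [Nonempty I] in
lemma measurableSet_cell (i : I) : MeasurableSet (cell z g i) := (isOpen_cell z g i).measurableSet

omit [Nonempty I] in
lemma midpoint_mem_cell (g' : I → ℝ) {i : I} {x y : Spc d} (hx : x ∈ cell z g i)
    (hy : y ∈ cell z g' i) :
    (2⁻¹ : ℝ) • (x + y) ∈ cell z (fun k => (g k + g' k) / 2) i := by
  intro j hj
  have h1 := hx j hj
  have h2 := hy j hj
  simp only [piece, inner_smul_left, inner_add_left, map_inv₀, map_ofNat,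
    RCLike.conj_to_real] at *
  linarith

lemma measurable_sel [MeasurableSpace I] [MeasurableSingletonClass I] :
    Measurable (sel z g) := by
  classical
  refine measurable_to_countable' fun i => ?_
  have : sel z g ⁻¹' {i} = {x | piece z g i x = phi z g x} ∩
      ⋂ j ∈ {j | Fintype.equivFin I j < Fintype.equivFin I i},
        {x | piece z g j x ≠ phi z g x} := by
    ext x
    have h : (Finset.univ.filter fun k : Fin (Fintype.card I) =>
        piece z g ((Fintype.equivFin I).symm k) x = phi z g x).Nonempty := by
      obtain ⟨i, hi⟩ := exists_piece_eq_phi z g x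
      exact ⟨Fintype.equivFin I i, by simpa using hi⟩
    simp only [mem_preimage, mem_singleton_iff, mem_inter_iff, Set.mem_ofPred_eq, mem_iInter]
    constructor
    · rintro rfl
      refine ⟨piece_sel z g x, fun j hj he => ?_⟩
      rw [sel, dif_pos h, Equiv.apply_symm_apply] at hj
      exact absurd (Finset.min'_le _ (Fintype.equivFin I j) (by simpa using he)) hj.not_ge
    · rintro ⟨hi, hlt⟩
      rw [sel, dif_pos h, Equiv.symm_apply_eq]
      refine le_antisymm (Finset.min'_le _ _ (by simpa using hi)) ?_
      by_contra hcon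
      rw [not_le] at hcon
      have hm := (Finset.mem_filter.1 (Finset.min'_mem _ h)).2
      exact hlt ((Fintype.equivFin I).symm _) (by simpa using hcon) hm
  rw [this]
  exact (measurableSet_eq_fun (by fun_prop) (by fun_prop)).inter
    (MeasurableSet.biInter (Set.to_countable _) fun j _ =>
      (measurableSet_eq_fun (by fun_prop) (by fun_prop)).compl)

@[fun_prop]
lemma measurable_gradMap : Measurable (gradMap z g) := by
  letI : MeasurableSpace I := ⊤
  haveI : MeasurableSingletonClass I := ⟨fun _ => trivial⟩
  exact (measurable_from_top : Measurable z).comp (measurable_sel z g)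

lemma ae_mem_cell (hz : Function.Injective z) {ν : Measure (Spc d)} (hν : ν ≪ volume) :
    ∀ᵐ x ∂ν, x ∈ cell z g (sel z g x) := by
  refine hν.ae_le ?_
  have null : ∀ i j, i ≠ j → ∀ᵐ x : Spc d, piece z g i x ≠ piece z g j x := by
    intro i j hij
    rw [ae_iff]
    simp only [not_not]
    set a := z i - z j with ha
    have ha0 : a ≠ 0 := sub_ne_zero.2 fun h => hij (hz h)
    by_cases hne : ({x : Spc d | piece z g i x = piece z g j x}).Nonempty
    swap
    · rw [not_nonempty_iff_eq_empty] at hne; rw [hne]; exact measure_empty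
    obtain ⟨x0, hx0⟩ := hne
    have : {x : Spc d | piece z g i x = piece z g j x}
        = (fun x => x + (-x0)) ⁻¹' ((innerₗ (Spc d) a).ker : Set (Spc d)) := by
      ext x
      simp only [Set.mem_ofPred_eq] at hx0
      simp only [Set.mem_ofPred_eq, mem_preimage, SetLike.mem_coe, LinearMap.mem_ker,
        innerₗ_apply_apply, ha, inner_add_right, inner_neg_right, inner_sub_left, inner_sub_right, piece,
        real_inner_comm x, real_inner_comm x0] at hx0 ⊢
      constructor <;> intro h <;> linarith
    rw [this, measure_preimage_add_right]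
    refine Measure.addHaar_submodule _ _ fun h => ha0 ?_
    have : a ∈ (innerₗ (Spc d) a).ker := by rw [h]; trivial
    simpa [LinearMap.mem_ker] using this
  have : ∀ᵐ x : Spc d, ∀ i j, i ≠ j → piece z g i x ≠ piece z g j x := by
    simp only [ae_all_iff]
    exact null
  filter_upwards [this] with x hx j hj
  exact lt_of_le_of_ne (by rw [piece_sel]; exact piece_le_phi z g j x) (hx j _ hj)

lemma abs_piece_le {R : ℝ} (hz : ∀ i, ‖z i‖ ≤ R) {x : Spc d} (hx : ‖x‖ ≤ R) (i : I) :
    |⟪x, z i⟫| ≤ R ^ 2 := by
  have := abs_real_inner_le_norm x (z i)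
  nlinarith [hz i, norm_nonneg x, norm_nonneg (z i)]

lemma phi_le_of_piece_le {x : Spc d} {c : ℝ} (h : ∀ i, piece z g i x ≤ c) : phi z g x ≤ c :=
  Finset.sup'_le _ _ fun i _ => h i

lemma phi_sub_le {R : ℝ} (hz : ∀ i, ‖z i‖ ≤ R) (x y : Spc d) :
    phi z g x - phi z g y ≤ R * ‖x - y‖ := by
  have h1 := piece_le_phi z g (sel z g x) y
  rw [← piece_sel z g x]
  simp only [piece] at *
  have h2 := real_inner_le_norm (x - y) (z (sel z g x))
  rw [inner_sub_left] at h2
  nlinarith [hz (sel z g x), norm_nonneg (x - y)]

lemma abs_phi_sub_le {R : ℝ} (hz : ∀ i, ‖z i‖ ≤ R) (x y : Spc d) :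
    |phi z g x - phi z g y| ≤ R * ‖x - y‖ := by
  rw [abs_le]
  have := phi_sub_le z g hz y x
  rw [norm_sub_rev] at this
  exact ⟨by linarith, phi_sub_le z g hz x y⟩

lemma inner_gradMap_le (x a : Spc d) :
    phi z g x + ⟪a, gradMap z g x⟫ ≤ phi z g (x + a) := by
  have := piece_le_phi z g (sel z g x) (x + a)
  rw [piece, inner_add_left] at this
  rw [phi_eq_inner_gradMap z g x]
  rw [gradMap] at *
  linarith

lemma integrable_of_bound_on {F : Type*} [NormedAddCommGroup F] {ν : Measure (Spc d)}
    [IsFiniteMeasure ν] {f : Spc d → F} (hf : AEStronglyMeasurable f ν) {C : ℝ}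
    (hb : ∀ᵐ x ∂ν, ‖f x‖ ≤ C) : Integrable f ν :=
  Integrable.of_bound hf C hb

lemma integrable_phi {R : ℝ} (hz : ∀ i, ‖z i‖ ≤ R) {ν : Measure (Spc d)} [IsFiniteMeasure ν]
    (hν : ∀ᵐ x ∂ν, ‖x‖ ≤ R) : Integrable (phi z g) ν := by
  refine integrable_of_bound_on (continuous_phi z g).aestronglyMeasurable
    (C := |phi z g 0| + R * R) ?_
  filter_upwards [hν] with x hx
  have h := abs_phi_sub_le z g hz x 0
  rw [sub_zero] at h
  have := abs_sub_abs_le_abs_sub (phi z g x) (phi z g 0)
  rw [Real.norm_eq_abs]
  have : 0 ≤ R := (norm_nonneg x).trans hx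
  nlinarith [norm_nonneg x]

/-- Decomposition of an integral along the cells. -/
lemma integral_sel (hz : Function.Injective z) {ν : Measure (Spc d)} [IsFiniteMeasure ν]
    (hν : ν ≪ volume) (F : I → Spc d → ℝ) (hF : ∀ i, Integrable (F i) ν) :
    ∫ x, F (sel z g x) x ∂ν = ∑ i, ∫ x in cell z g i, F i x ∂ν := by
  classical
  simp_rw [← integral_indicator (measurableSet_cell z g _)]
  rw [← integral_finsetSum _ fun i _ => (hF i).indicator (measurableSet_cell z g i)]
  refine integral_congr_ae ?_
  filter_upwards [ae_mem_cell z g hz hν] with x hx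
  rw [Finset.sum_eq_single (sel z g x), Set.indicator_of_mem hx]
  · intro j _ hj
    refine Set.indicator_of_notMem (fun hxj => hj ?_) _
    exact (sel_of_mem_cell z g hxj).symm
  · simp

/-- The dual functional. -/
noncomputable def dual (ν : Measure (Spc d)) (m : I → ℝ) : ℝ :=
  (∫ x, phi z g x ∂ν) + ∑ i, m i * g i

/-- The transport value of a partition given by the cells. -/
noncomputable def value (ν : Measure (Spc d)) : ℝ :=
  ∑ i, ∫ x in cell z g i, ⟪x, z i⟫ ∂ν

lemma dual_eq_value {R : ℝ} (hz : Function.Injective z) {ν : Measure (Spc d)}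
    [IsFiniteMeasure ν] (hν : ν ≪ volume) (hsupp : ∀ᵐ x ∂ν, ‖x‖ ≤ R) {m : I → ℝ}
    (hm : ∀ i, ν.real (cell z g i) = m i) (hzR : ∀ i, ‖z i‖ ≤ R) :
    dual z g ν m = value z g ν := by
  have hi : ∀ i, Integrable (fun x => ⟪x, z i⟫) ν := fun i =>
    integrable_of_bound_on (by fun_prop) (C := R ^ 2) (by
      filter_upwards [hsupp] with x hx
      simpa using abs_piece_le z hzR hx i)
  have h1 : ∫ x, phi z g x ∂ν = ∑ i, ∫ x in cell z g i, piece z g i x ∂ν := by
    rw [← integral_sel z g hz hν (fun i x => piece z g i x)
      fun i => (hi i).sub (integrable_const (g i))]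
    exact integral_congr_ae (Eventually.of_forall fun x => (piece_sel z g x).symm)
  rw [dual, h1, value, ← Finset.sum_add_distrib]
  refine Finset.sum_congr rfl fun i _ => ?_
  simp only [piece]
  rw [integral_sub (hi i).integrableOn (integrable_const _), setIntegral_const, hm i, smul_eq_mul]
  ring

omit [Nonempty I] in
lemma sum_update (m : I → ℝ) [DecidableEq I] (i : I) (e : ℝ) :
    ∑ j, m j * Function.update g i (g i + e) j = (∑ j, m j * g j) + m i * e := by
  have : ∀ j, m j * Function.update g i (g i + e) j
      = m j * g j + if j = i then m i * e else 0 := by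
    intro j
    by_cases h : j = i
    · subst h; simp [mul_add]
    · simp [h]
  simp [this, Finset.sum_add_distrib]

/-- Semi-discrete transport: weights realizing prescribed cell masses. -/
theorem exists_weights (hzi : Function.Injective z) {R : ℝ} (hzR : ∀ i, ‖z i‖ ≤ R)
    (ν : Measure (Spc d)) [IsProbabilityMeasure ν] (hν : ν ≪ volume)
    (hsupp : ∀ᵐ x ∂ν, ‖x‖ ≤ R) (m : I → ℝ) (hm : ∀ i, 0 < m i) (hm1 : ∑ i, m i = 1) :
    ∃ g : I → ℝ, ∀ i, ν.real (cell z g i) = m i := by
  classical
  have hR : 0 ≤ R := (norm_nonneg _).trans (hzR (Classical.arbitrary I))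
  have hphi : ∀ g, Integrable (phi z g) ν := fun g => integrable_phi z g hzR hsupp
  have hcont : Continuous fun g => dual z g ν m := by
    refine Continuous.add ?_ (by fun_prop)
    refine (LipschitzWith.of_le_add fun g g' => ?_).continuous
    calc ∫ x, phi z g x ∂ν ≤ ∫ x, (phi z g' x + dist g g') ∂ν :=
          integral_mono (hphi g) ((hphi g').add (integrable_const _)) fun x => by
            refine phi_le_of_piece_le z g fun i => ?_
            have h1 := piece_le_phi z g' i x
            have h2 := dist_le_pi_dist g g' i
            rw [Real.dist_eq] at h2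
            have := neg_abs_le (g i - g' i)
            simp only [piece] at *
            linarith
      _ = _ := by rw [integral_add (hphi g') (integrable_const _)]; simp
  obtain ⟨i0, -, hi0⟩ := Finset.exists_min_image Finset.univ m Finset.univ_nonempty
  set B := 2 * R ^ 2 / m i0 + 1 with hB
  have hB0 : 0 ≤ B := by have := hm i0; positivity
  obtain ⟨g, hgmem, hgmin⟩ := (isCompact_univ_pi fun _ : I => isCompact_Icc (a := (0 : ℝ))
    (b := B)).exists_isMinOn ⟨0, fun i _ => ⟨le_rfl, hB0⟩⟩ hcont.continuousOn
  have hd0 : dual z (0 : I → ℝ) ν m ≤ R ^ 2 := by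
    simp only [dual, Pi.zero_apply, mul_zero, Finset.sum_const_zero, add_zero]
    calc ∫ x, phi z 0 x ∂ν ≤ ∫ _, R ^ 2 ∂ν := integral_mono_ae (hphi 0) (integrable_const _) (by
          filter_upwards [hsupp] with x hx
          refine phi_le_of_piece_le z 0 fun i => ?_
          simpa [piece] using (abs_le.1 (abs_piece_le z hzR hx i)).2)
      _ = R ^ 2 := by simp
  have hglob : ∀ g', dual z g ν m ≤ dual z g' ν m := by
    intro g'
    obtain ⟨k, -, hk⟩ := Finset.exists_min_image Finset.univ g' Finset.univ_nonempty
    set g'' : I → ℝ := fun i => g' i - g' k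
    have e : dual z g'' ν m = dual z g' ν m := by
      have : ∀ x, phi z g'' x = phi z g' x + g' k := by
        intro x
        refine le_antisymm (phi_le_of_piece_le z g'' fun i => ?_) ?_
        · have := piece_le_phi z g' i x
          simp only [piece, g''] at *
          linarith
        · obtain ⟨i, hi⟩ := exists_piece_eq_phi z g' x
          have := piece_le_phi z g'' i x
          simp only [piece, g''] at *
          linarith
      simp only [dual, this]
      rw [integral_add (hphi g') (integrable_const _)]
      simp only [g'', mul_sub, Finset.sum_sub_distrib, ← Finset.sum_mul, hm1, integral_const,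
        probReal_univ, smul_eq_mul, one_mul]
      ring
    rw [← e]
    by_cases hin : g'' ∈ Set.univ.pi fun _ => Icc (0 : ℝ) B
    · exact hgmin hin
    · have hnn : ∀ i, 0 ≤ g'' i := fun i => sub_nonneg.2 (hk i (Finset.mem_univ i))
      simp only [Set.mem_pi, Set.mem_univ, Set.mem_Icc, true_implies, not_forall, not_and,
        not_le] at hin
      obtain ⟨j, hj⟩ := hin
      have hj := hj (hnn j)
      refine (hgmin (show (0 : I → ℝ) ∈ _ from fun i _ => ⟨le_rfl, hB0⟩)).trans (hd0.trans ?_)
      have h1 : -R ^ 2 ≤ ∫ x, phi z g'' x ∂ν := by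
        calc -R ^ 2 = ∫ _, -R ^ 2 ∂ν := by simp
          _ ≤ _ := integral_mono_ae (integrable_const _) (hphi g'') (by
            filter_upwards [hsupp] with x hx
            refine le_trans ?_ (piece_le_phi z g'' k x)
            simpa [piece, g''] using (abs_le.1 (abs_piece_le z hzR hx k)).1)
      have h2 : m j * g'' j ≤ ∑ i, m i * g'' i :=
        Finset.single_le_sum (fun i _ => mul_nonneg (hm i).le (hnn i)) (Finset.mem_univ j)
      have h3 : m i0 * B ≤ m j * g'' j :=
        mul_le_mul (hi0 j (Finset.mem_univ j)) hj.le hB0 (hm j).le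
      have h4 : m i0 * B = 2 * R ^ 2 + m i0 := by
        rw [hB, mul_add, mul_div_cancel₀ _ (hm i0).ne', mul_one]
      have := hm i0
      simp only [dual]
      linarith
  refine ⟨g, ?_⟩
  have hle : ∀ i, ν.real (cell z g i) ≤ m i := by
    intro i
    let M : ℕ → Set (Spc d) := fun n =>
      {x | ∀ j, j ≠ i → piece z g j x + 1 / (n + 1) ≤ piece z g i x}
    have hMm : ∀ n, MeasurableSet (M n) := by
      intro n
      have : M n = ⋂ j ∈ {j | j ≠ i},
          {x | piece z g j x + 1 / ((n : ℝ) + 1) ≤ piece z g i x} := by
        ext x; simp [M]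
      rw [this]
      exact MeasurableSet.biInter (Set.to_countable _) fun j _ =>
        measurableSet_le (by fun_prop) (by fun_prop)
    have hMle : ∀ n : ℕ, ν.real (M n) ≤ m i := by
      intro n
      set e : ℝ := 1 / (n + 1)
      have he : 0 < e := by positivity
      have h := hglob (Function.update g i (g i + e))
      simp only [dual, sum_update] at h
      have hle : ∫ x, phi z (Function.update g i (g i + e)) x ∂ν
          ≤ ∫ x, (phi z g x - (M n).indicator (fun _ => e) x) ∂ν := by
        refine integral_mono (hphi _) ((hphi g).sub ((integrable_const e).indicator (hMm n)))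
          fun x => phi_le_of_piece_le z _ fun j => ?_
        have hj := piece_le_phi z g j x
        by_cases hx : x ∈ M n
        · rw [Set.indicator_of_mem hx]
          have hi := piece_le_phi z g i x
          by_cases hji : j = i
          · subst hji; simp only [piece, Function.update_self] at *; linarith
          · have := hx j hji
            simp only [piece, Function.update_of_ne hji] at *
            linarith
        · rw [Set.indicator_of_notMem hx, sub_zero]
          by_cases hji : j = i
          · subst hji; simp only [piece, Function.update_self] at *; linarith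
          · simpa [piece, Function.update_of_ne hji] using hj
      rw [integral_sub (hphi g) ((integrable_const e).indicator (hMm n)),
        integral_indicator_const _ (hMm n), smul_eq_mul] at hle
      nlinarith
    have hU : cell z g i = ⋃ n, M n := by
      ext x
      simp only [Set.mem_iUnion, M, cell, Set.mem_ofPred_eq]
      constructor
      · intro hx
        have : ∀ᶠ n : ℕ in atTop,
            ∀ j, j ≠ i → piece z g j x + 1 / ((n : ℝ) + 1) ≤ piece z g i x := by
          rw [eventually_all]
          intro j
          by_cases hji : j = i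
          · exact Eventually.of_forall fun n h => absurd hji h
          · filter_upwards [(tendsto_one_div_add_atTop_nhds_zero_nat (𝕜 := ℝ)).eventually
              (ge_mem_nhds (sub_pos.2 (hx j hji)))] with n hn _
            linarith
        exact this.exists
      · rintro ⟨n, hn⟩ j hj
        have := hn j hj
        have : (0 : ℝ) < 1 / ((n : ℝ) + 1) := by positivity
        linarith
    have hmono : Monotone M := by
      intro a b hab x hx j hj
      have := hx j hj
      have : 1 / ((b : ℝ) + 1) ≤ 1 / ((a : ℝ) + 1) := by gcongr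
      linarith
    rw [hU]
    exact le_of_tendsto ((ENNReal.tendsto_toReal (measure_ne_top _ _)).comp
      (tendsto_measure_iUnion_atTop hmono)) (Eventually.of_forall hMle)
  have hsum : ∑ i, ν.real (cell z g i) = 1 := by
    have h := integral_sel z g hzi hν (fun _ _ => (1 : ℝ)) fun _ => integrable_const _
    simpa using h.symm
  intro i
  by_contra hne
  have : ∑ j, ν.real (cell z g j) < ∑ j, m j :=
    Finset.sum_lt_sum (fun j _ => hle j) ⟨i, Finset.mem_univ i, lt_of_le_of_ne (hle i) hne⟩
  linarith

end Vale.Agent.P074
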