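import Vale.Agent.P074.Example
import Vale.Agent.P074.MaxAffine
import Mathlib.MeasureTheory.Integral.Prod
import Mathlib.Analysis.SpecialFunctions.Pow.Real
import Mathlib.MeasureTheory.Group.Integral
import Mathlib.MeasureTheory.Measure.Haar.NormedSpace
import Mathlib.Analysis.SpecificLimits.Basic

/-! Second differences, gradient bound by the duality gap, Poincaré inequality and interpolation
for max-affine potentials on a convex body. -/

open MeasureTheory Filter Set
open scoped ENNReal NNReal RealInnerProductSpace Topology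

namespace Vale.Agent.P074

variable {d : ℕ}

/-- The hypotheses on the source body. -/
structure Body (K : Set (Spc d)) (R : ℝ) : Prop where
  compact : IsCompact K
  convex : Convex ℝ K
  interior_nonempty : (interior K).Nonempty
  subset : K ⊆ Metric.closedBall 0 R
  one_le : 1 ≤ R

namespace Body

variable {K : Set (Spc d)} {R : ℝ}

lemma nonneg (hB : Body K R) : 0 ≤ R := le_trans zero_le_one hB.one_le

lemma norm_le (hB : Body K R) {x : Spc d} (hx : x ∈ K) : ‖x‖ ≤ R := by
  simpa using hB.subset hx

lemma vol_ne_zero (hB : Body K R) : volume K ≠ 0 :=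
  (Measure.measure_pos_of_nonempty_interior _ hB.interior_nonempty).ne'

lemma vol_pos (hB : Body K R) : 0 < volume.real K :=
  ENNReal.toReal_pos hB.vol_ne_zero hB.compact.measure_ne_top

lemma isProb (hB : Body K R) : IsProbabilityMeasure (uniformOn K) :=
  ⟨by simp [uniformOn, ENNReal.inv_mul_cancel hB.vol_ne_zero hB.compact.measure_ne_top]⟩

lemma ac (_hB : Body K R) : uniformOn K ≪ volume :=
  (Measure.smul_absolutelyContinuous).trans (Measure.restrict_le_self.absolutelyContinuous)

lemma ae_mem (hB : Body K R) : ∀ᵐ x ∂uniformOn K, x ∈ K :=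
  Measure.ae_smul_measure (ae_restrict_mem hB.compact.measurableSet) _

lemma ae_norm_le (hB : Body K R) : ∀ᵐ x ∂uniformOn K, ‖x‖ ≤ R := by
  filter_upwards [hB.ae_mem] with x hx using hB.norm_le hx

lemma integral_eq (hB : Body K R) (f : Spc d → ℝ) :
    ∫ x, f x ∂uniformOn K = (volume.real K)⁻¹ * ∫ x, K.indicator f x := by
  rw [uniformOn, integral_smul_measure, ENNReal.toReal_inv,
    integral_indicator hB.compact.measurableSet, smul_eq_mul]
  rfl

lemma integrable_indicator (hB : Body K R) {f : Spc d → ℝ} (hf : Measurable f) {C : ℝ}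
    (hC : ∀ x ∈ K, |f x| ≤ C) : Integrable (K.indicator f) := by
  rw [integrable_indicator_iff hB.compact.measurableSet]
  exact IntegrableOn.of_bound hB.compact.measure_lt_top hf.aestronglyMeasurable C
    ((ae_restrict_iff' hB.compact.measurableSet).2 (Eventually.of_forall hC))

lemma integrable (hB : Body K R) {F : Type*} [NormedAddCommGroup F] {f : Spc d → F}
    (hf : AEStronglyMeasurable f (uniformOn K)) {C : ℝ} (hC : ∀ x ∈ K, ‖f x‖ ≤ C) :
    Integrable f (uniformOn K) := by
  have := hB.isProb
  exact Integrable.of_bound hf C (hB.ae_mem.mono hC)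

/-- Translating a subset inside the body. -/
lemma integral_indicator_translate_le (hB : Body K R) {S : Set (Spc d)} (hS : MeasurableSet S)
    {F : Spc d → ℝ} (hF : Measurable F) {C : ℝ} (hC : ∀ x ∈ K, |F x| ≤ C)
    (hF0 : ∀ x ∈ K, 0 ≤ F x) {a : Spc d} (hSK : S ⊆ K) (ha : ∀ x ∈ S, x + a ∈ K) :
    ∫ x, S.indicator (fun x => F (x + a)) x ∂uniformOn K ≤ ∫ x, F x ∂uniformOn K := by
  rw [hB.integral_eq, hB.integral_eq, indicator_indicator, Set.inter_eq_right.2 hSK,
    ← integral_add_right_eq_self (fun x => K.indicator F x) a]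
  refine mul_le_mul_of_nonneg_left (integral_mono ?_ ((hB.integrable_indicator hF hC).comp_add_right a)
    fun x => ?_) (inv_nonneg.2 hB.vol_pos.le)
  · rw [integrable_indicator_iff hS]
    exact IntegrableOn.of_bound ((measure_mono hSK).trans_lt hB.compact.measure_lt_top)
      (hF.comp (measurable_add_const a)).aestronglyMeasurable C
      ((ae_restrict_iff' hS).2 (Eventually.of_forall fun x hx => hC _ (ha x hx)))
  · by_cases hx : x ∈ S
    · rw [Set.indicator_of_mem hx, Set.indicator_of_mem (ha x hx)]
    · rw [Set.indicator_of_notMem hx]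
      exact Set.indicator_nonneg hF0 _

/-- Shrinking the body towards one of its points. -/
lemma integral_contract_le (hB : Body K R) {Φ : Spc d → ℝ} (hΦ : Measurable Φ) {C : ℝ}
    (hC : ∀ x ∈ K, |Φ x| ≤ C) (h0 : ∀ x ∈ K, 0 ≤ Φ x) {x' : Spc d} (hx' : x' ∈ K)
    {t : ℝ} (ht0 : 0 ≤ t) (ht : t ≤ 1 / 2) :
    ∫ x, Φ ((1 - t) • x + t • x') ∂uniformOn K ≤ 2 ^ d * ∫ x, Φ x ∂uniformOn K := by
  set r := 1 - t with hr
  have hr2 : 1 / 2 ≤ r := by linarith
  have hrp : 0 < r := by linarith
  rw [hB.integral_eq, hB.integral_eq, ← mul_assoc, mul_comm ((2 : ℝ) ^ d), mul_assoc]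
  refine mul_le_mul_of_nonneg_left ?_ (inv_nonneg.2 hB.vol_pos.le)
  set F := K.indicator Φ with hF
  have hFi : Integrable F := hB.integrable_indicator hΦ hC
  have hmem : ∀ x ∈ K, r • x + t • x' ∈ K := fun x hx =>
    hB.convex hx hx' hrp.le ht0 (by linarith)
  calc ∫ x, K.indicator (fun x => Φ (r • x + t • x')) x
      ≤ ∫ x, F (r • x + t • x') := by
        refine integral_mono (hB.integrable_indicator (hΦ.comp (by fun_prop))
          fun x hx => hC _ (hmem x hx)) ((hFi.comp_add_right (t • x')).comp_smul hrp.ne')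
          fun x => ?_
        by_cases hx : x ∈ K
        · rw [Set.indicator_of_mem hx, hF, Set.indicator_of_mem (hmem x hx)]
        · rw [Set.indicator_of_notMem hx]
          exact Set.indicator_nonneg h0 _
    _ = |(r ^ d)⁻¹| • ∫ y, F (y + t • x') := by
        rw [Measure.integral_comp_smul volume (fun y => F (y + t • x')) r,
          finrank_euclideanSpace_fin]
    _ ≤ 2 ^ d * ∫ x, F x := by
        rw [integral_add_right_eq_self (fun x => F x), smul_eq_mul]
        refine mul_le_mul_of_nonneg_right ?_ (integral_nonneg fun x => Set.indicator_nonneg h0 x)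
        rw [abs_of_pos (by positivity), ← inv_pow]
        refine pow_le_pow_left₀ (by positivity) ?_ d
        rw [inv_le_comm₀ hrp two_pos]
        linarith

end Body

variable {I : Type*} [Fintype I] [Nonempty I]

/-- The Bregman increment. -/
noncomputable def breg (z : I → Spc d) (g : I → ℝ) (x a : Spc d) : ℝ :=
  phi z g (x + a) - phi z g x - ⟪a, gradMap z g x⟫

/-- The second difference in the coordinate direction `k`. -/
noncomputable def sdiff (z : I → Spc d) (g : I → ℝ) (k : Fin d) (r : ℝ) (x : Spc d) : ℝ :=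
  phi z g (x + EuclideanSpace.single k r) + phi z g (x - EuclideanSpace.single k r)
    - 2 * phi z g x

variable (z : I → Spc d) (g : I → ℝ)

lemma breg_nonneg (x a : Spc d) : 0 ≤ breg z g x a := by
  have := inner_gradMap_le z g x a; rw [breg]; linarith

lemma single_neg (k : Fin d) (r : ℝ) :
    EuclideanSpace.single k (-r) = -EuclideanSpace.single k r := by
  ext i; by_cases h : i = k <;> simp [h]

lemma breg_add_breg (k : Fin d) (r : ℝ) (x : Spc d) :
    breg z g x (EuclideanSpace.single k r) + breg z g x (EuclideanSpace.single k (-r))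
      = sdiff z g k r x := by
  simp only [breg, sdiff, single_neg, inner_neg_left, ← sub_eq_add_neg]
  ring

lemma sdiff_nonneg (k : Fin d) (r : ℝ) (x : Spc d) : 0 ≤ sdiff z g k r x := by
  rw [← breg_add_breg]; exact add_nonneg (breg_nonneg z g _ _) (breg_nonneg z g _ _)

lemma breg_le_sdiff (k : Fin d) (r : ℝ) (x : Spc d) :
    breg z g x (EuclideanSpace.single k r) ≤ sdiff z g k r x := by
  rw [← breg_add_breg]; linarith [breg_nonneg z g x (EuclideanSpace.single k (-r))]

lemma inner_single (k : Fin d) (r : ℝ) (v : Spc d) : ⟪EuclideanSpace.single k r, v⟫ = r * v k := by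
  rw [EuclideanSpace.inner_single_left]; simp

lemma breg_single_le_sdiff (k : Fin d) {t r : ℝ} (ht : |t| ≤ r) (x : Spc d) :
    breg z g x (EuclideanSpace.single k t) ≤ sdiff z g k r x := by
  set i := sel z g (x + EuclideanSpace.single k t)
  have e : ∀ u, piece z g i (x + EuclideanSpace.single k u) = piece z g i x + u * z i k := by
    intro u; simp only [piece, inner_add_left, inner_single]; ring
  have h0 := piece_le_phi z g i x
  have h1 := piece_le_phi z g i (x + EuclideanSpace.single k r)
  have h2 := piece_le_phi z g i (x + EuclideanSpace.single k (-r))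
  rw [e] at h1 h2
  rw [← breg_add_breg]
  have g1 := breg_nonneg z g x (EuclideanSpace.single k r)
  have g2 := breg_nonneg z g x (EuclideanSpace.single k (-r))
  simp only [breg, inner_single] at *
  rw [← piece_sel z g (x + EuclideanSpace.single k t), e]
  rw [abs_le] at ht
  rcases le_total 0 (z i k - gradMap z g x k) with hs | hs
  · nlinarith [mul_le_mul_of_nonneg_right ht.2 hs]
  · nlinarith [mul_le_mul_of_nonpos_right ht.1 hs]

lemma eq_sum_single (a : Spc d) : a = ∑ k, EuclideanSpace.single k (a k) := by
  ext i; simp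

lemma breg_le_sum_sdiff {r : ℝ} {a : Spc d} (ha : ∀ k, |(d : ℝ) * a k| ≤ r) (x : Spc d) :
    breg z g x a ≤ ∑ k, sdiff z g k r x := by
  rcases Nat.eq_zero_or_pos d with hd | hd
  · subst hd
    have : a = 0 := Subsingleton.elim _ _
    simp [this, breg]
  set i := sel z g (x + a)
  have key : (d : ℝ) * breg z g x a
      ≤ ∑ k, breg z g x (EuclideanSpace.single k ((d : ℝ) * a k)) := by
    have hk : ∀ k, (piece z g i x - phi z g x + d * (a k * z i k) - d * (a k * gradMap z g x k))
        ≤ breg z g x (EuclideanSpace.single k ((d : ℝ) * a k)) := by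
      intro k
      have := piece_le_phi z g i (x + EuclideanSpace.single k ((d : ℝ) * a k))
      simp only [piece, inner_add_left, inner_single] at this
      simp only [breg, piece, inner_single]
      linarith
    refine le_trans (le_of_eq ?_) (Finset.sum_le_sum fun k _ => hk k)
    rw [breg, ← piece_sel z g (x + a)]
    simp only [piece, inner_add_left]
    have e : ∀ v : Spc d, ⟪a, v⟫ = ∑ k, a k * v k := by
      intro v; simp [PiLp.inner_apply, mul_comm]
    simp only [e, Finset.sum_add_distrib, Finset.sum_sub_distrib, ← Finset.mul_sum,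
      Finset.sum_const, Finset.card_univ, Fintype.card_fin, nsmul_eq_mul]
    ring
  have h2 : ∑ k, breg z g x (EuclideanSpace.single k ((d : ℝ) * a k)) ≤ ∑ k, sdiff z g k r x :=
    Finset.sum_le_sum fun k _ => breg_single_le_sdiff z g k (ha k) x
  have h3 : (1 : ℝ) ≤ d := by exact_mod_cast hd
  nlinarith [breg_nonneg z g x a]

/-- The constant in the bound on second differences. -/
noncomputable def sdC (K : Set (Spc d)) (R : ℝ) : ℝ :=
  2 * R * (2 * R) ^ (d - 1) / volume.real K

variable {K : Set (Spc d)} {R : ℝ}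

lemma sdC_nonneg (hB : Body K R) : 0 ≤ sdC K R := by
  have := hB.nonneg
  have := hB.vol_pos
  rw [sdC]; positivity

@[fun_prop]
lemma continuous_sdiff (k : Fin d) (r : ℝ) : Continuous (sdiff z g k r) := by
  unfold sdiff; fun_prop

lemma integral_sdiff_le (hB : Body K R) (hz : ∀ i, ‖z i‖ ≤ R) (k : Fin d) {r : ℝ} (hr : 0 ≤ r) :
    ∫ x, sdiff z g k r x ∂uniformOn K ≤ sdC K R * r ^ 2 := by
  set a := EuclideanSpace.single k r with ha
  set ψ : Spc d → ℝ := fun x => phi z g x - phi z g (x - a) with hψ
  have hna : ‖a‖ = r := by rw [ha, PiLp.norm_single, Real.norm_eq_abs, abs_of_nonneg hr]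
  have hψb : ∀ x, ‖ψ x‖ ≤ R * r := fun x => by
    have := abs_phi_sub_le z g hz x (x - a)
    rwa [sub_sub_cancel, hna] at this
  set Q := boxSet (fun _ : Fin d => -R) (fun _ => R) with hQ
  let Q' := boxSet (fun i : Fin d => -R + a i) (fun i => R + a i)
  have mbox : ∀ u v : Fin d → ℝ, MeasurableSet (boxSet u v) := by
    intro u v
    have : boxSet u v = ⋂ i, (fun x : Spc d => x i) ⁻¹' Set.Icc (u i) (v i) := by
      ext x; simp [boxSet]
    rw [this]
    exact MeasurableSet.iInter fun i => (by fun_prop : Measurable fun x : Spc d => x i)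
      measurableSet_Icc
  have hfin : ∀ u v : Fin d → ℝ, volume (boxSet u v) < ⊤ := fun u v => by
    rw [volume_boxSet]; exact ENNReal.prod_lt_top fun _ _ => ENNReal.ofReal_lt_top
  have hψi : ∀ u v, IntegrableOn ψ (boxSet u v) := fun u v =>
    IntegrableOn.of_bound (hfin u v) (by fun_prop : Continuous ψ).aestronglyMeasurable
      (R * r) (Eventually.of_forall hψb)
  have hψi' : IntegrableOn (fun x => ψ (x + a)) Q :=
    IntegrableOn.of_bound (hfin _ _) (by fun_prop : Continuous fun x => ψ (x + a)).aestronglyMeasurable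
      (R * r) (Eventually.of_forall fun x => hψb _)
  have hsd : ∀ x, sdiff z g k r x = ψ (x + a) - ψ x := by
    intro x; simp only [sdiff, hψ, ← ha, add_sub_cancel_right]; ring
  have hKQ : K ⊆ Q := fun x hx i => by
    have := (PiLp.norm_apply_le x i).trans (hB.norm_le hx)
    rw [Real.norm_eq_abs, abs_le] at this
    exact this
  have hpre : (fun x => x + a) ⁻¹' Q' = Q := by
    ext x
    simp only [Q', Q, boxSet, mem_preimage, Set.mem_ofPred_eq, Set.mem_Icc, PiLp.add_apply]
    refine forall_congr' fun i => ?_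
    constructor <;> rintro ⟨u, v⟩ <;> constructor <;> linarith
  have hshift : ∫ x in Q, ψ (x + a) = ∫ x in Q', ψ x := by
    rw [← hpre]
    exact (measurePreserving_add_right volume a).setIntegral_preimage_emb
      (MeasurableEquiv.addRight a).measurableEmbedding ψ Q'
  have hslab : ∀ (u v : ℝ) (S : Set (Spc d)), v - u = r →
      S ⊆ boxSet (fun i => if i = k then u else -R) (fun i => if i = k then v else R) →
      volume.real S ≤ r * (2 * R) ^ (d - 1) := by
    intro u v S huv hS
    refine le_trans (measureReal_mono hS (hfin _ _).ne) ?_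
    have hR := hB.nonneg
    rw [measureReal_def, volume_boxSet, ENNReal.toReal_prod,
      ← Finset.mul_prod_erase _ _ (Finset.mem_univ k)]
    simp only [if_true, huv, ENNReal.toReal_ofReal hr]
    refine mul_le_mul_of_nonneg_left (le_of_eq ?_) hr
    rw [Finset.prod_eq_pow_card (b := 2 * R) fun i hi => by
      rw [if_neg (Finset.ne_of_mem_erase hi), if_neg (Finset.ne_of_mem_erase hi),
        ENNReal.toReal_ofReal (by linarith)]; ring]
    simp
  have s1 : volume.real (Q' \ Q) ≤ r * (2 * R) ^ (d - 1) := by
    refine hslab R (R + r) _ (by ring) fun x hx i => ?_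
    obtain ⟨h1, h2⟩ := hx.1 i
    by_cases hi : i = k
    · subst hi
      simp only [if_true]
      simp only [ha, PiLp.single_apply, if_true] at h1 h2
      refine ⟨?_, h2⟩
      by_contra hcon
      refine hx.2 fun j => ?_
      obtain ⟨g1, g2⟩ := hx.1 j
      by_cases hj : j = i
      · subst hj; exact ⟨by linarith, by linarith⟩
      · simp [ha, hj] at g1 g2
        exact ⟨g1, g2⟩
    · simp [ha, hi] at h1 h2 ⊢
      exact ⟨h1, h2⟩
  have s2 : volume.real (Q \ Q') ≤ r * (2 * R) ^ (d - 1) := by
    refine hslab (-R) (-R + r) _ (by ring) fun x hx i => ?_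
    obtain ⟨h1, h2⟩ := hx.1 i
    by_cases hi : i = k
    · subst hi
      simp only [if_true]
      refine ⟨h1, ?_⟩
      by_contra hcon
      refine hx.2 fun j => ?_
      obtain ⟨g1, g2⟩ := hx.1 j
      by_cases hj : j = i
      · subst hj; simp [ha]; constructor <;> linarith
      · simp [ha, hj]; exact ⟨g1, g2⟩
    · simp [hi]; exact ⟨h1, h2⟩
  have main : ∫ x in Q, sdiff z g k r x ≤ 2 * R * (2 * R) ^ (d - 1) * r ^ 2 := by
    simp_rw [hsd]
    rw [integral_sub hψi' (hψi _ _), hshift]
    have hQm : MeasurableSet Q := mbox _ _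
    have hQ'm : MeasurableSet Q' := mbox _ _
    have iQ : IntegrableOn ψ Q := hψi _ _
    have iQ' : IntegrableOn ψ Q' := hψi _ _
    have e3 := integral_inter_add_sdiff hQm iQ'
    have e4 := integral_inter_add_sdiff hQ'm iQ
    rw [Set.inter_comm Q' Q] at e3
    have e1 := norm_setIntegral_le_of_norm_le_const
      ((measure_mono Set.sdiff_subset).trans_lt (hfin _ _)) fun x (_ : x ∈ Q' \ Q) => hψb x
    have e2 := norm_setIntegral_le_of_norm_le_const
      ((measure_mono Set.sdiff_subset).trans_lt (hfin _ _)) fun x (_ : x ∈ Q \ Q') => hψb x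
    rw [Real.norm_eq_abs, abs_le] at e1 e2
    have hR := mul_nonneg hB.nonneg hr
    nlinarith
  have hint : IntegrableOn (sdiff z g k r) Q :=
    (hψi'.sub (hψi _ _)).congr (Eventually.of_forall fun x => (hsd x).symm)
  rw [hB.integral_eq, integral_indicator hB.compact.measurableSet, sdC, div_mul_eq_mul_div,
    inv_mul_eq_div]
  refine (div_le_div_iff_of_pos_right hB.vol_pos).2 (le_trans ?_ main)
  exact setIntegral_mono_set hint
    (Eventually.of_forall fun x => sdiff_nonneg z g k r x) (Eventually.of_forall hKQ)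

end Vale.Agent.P074
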