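import Vale.Agent.P074.Linear
import Mathlib.Order.Interval.Set.Infinite

/-! A fine grid of atoms has small cells; the discrete stability estimate with exponent one
third. -/

open MeasureTheory Filter Set
open scoped ENNReal NNReal RealInnerProductSpace Topology

namespace Vale.Agent.P074

variable {d : ℕ} {J : Type*} [Fintype J] [Nonempty J]
variable {K : Set (Spc d)} {R : ℝ}

/-- Cells of a grid family are thin on average. -/
lemma grid_width (hB : Body K R) {n : ℕ} (z : J × (Fin d → Fin n) → Spc d)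
    (g : J × (Fin d → Fin n) → ℝ)
    (hstep : ∀ (j : J) (a : Fin d → Fin n) (k : Fin d) (b : Fin n), a k < b →
      ∃ c : ℝ, 0 < c ∧ z (j, Function.update a k b) - z (j, a) = EuclideanSpace.single k c)
    (hne : ∀ i, ∃ x ∈ cell z g i, x ∈ K) :
    ∃ W : J × (Fin d → Fin n) → ℝ,
      (∀ i, ∀ x ∈ cell z g i, x ∈ K → ∀ y ∈ cell z g i, y ∈ K → ‖x - y‖ ≤ W i) ∧
      (∀ i, 0 ≤ W i) ∧ ∀ j, ∑ a, W (j, a) * n ≤ d * (2 * R) * (n : ℝ) ^ d := by
  classical
  set img : J × (Fin d → Fin n) → Fin d → Set ℝ := fun i k =>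
    (fun x : Spc d => x k) '' (cell z g i ∩ K) with himg
  have hcoord : ∀ (x : Spc d) k, x ∈ K → -R ≤ x k ∧ x k ≤ R := fun x k hx => by
    have := (PiLp.norm_apply_le x k).trans (hB.norm_le hx)
    rw [Real.norm_eq_abs, abs_le] at this
    exact this
  set lo : J × (Fin d → Fin n) → Fin d → ℝ := fun i k => sInf (img i k) with hlo
  have hlole : ∀ i k x, x ∈ cell z g i → x ∈ K → lo i k ≤ x k := fun i k x hx hxK =>
    csInf_le ⟨-R, by rintro _ ⟨y, hy, rfl⟩; exact (hcoord y k hy.2).1⟩ ⟨x, ⟨hx, hxK⟩, rfl⟩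
  have hlobd : ∀ i k, -R ≤ lo i k := fun i k => by
    obtain ⟨x, hx, hxK⟩ := hne i
    refine le_csInf ⟨_, x, ⟨hx, hxK⟩, rfl⟩ ?_
    rintro _ ⟨y, hy, rfl⟩
    exact (hcoord y k hy.2).1
  have hord : ∀ (j : J) (a : Fin d → Fin n) (k : Fin d) (b : Fin n), a k < b →
      ∀ x ∈ cell z g (j, a), x ∈ K → x k ≤ lo (j, Function.update a k b) k := by
    intro j a k b hab x hx hxK
    obtain ⟨y, hy, hyK⟩ := hne (j, Function.update a k b)
    refine le_csInf ⟨_, y, ⟨hy, hyK⟩, rfl⟩ ?_
    rintro _ ⟨y, ⟨hy, -⟩, rfl⟩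
    obtain ⟨c, hc, hcz⟩ := hstep j a k b hab
    have hne' : (j, Function.update a k b) ≠ (j, a) := by
      intro h
      have := congrArg (fun p : J × (Fin d → Fin n) => p.2 k) h
      simp at this
      exact hab.ne' this
    have h1 := hx _ hne'
    have h2 := hy _ hne'.symm
    have e : ∀ w : Spc d, ⟪w, z (j, Function.update a k b)⟫ = ⟪w, z (j, a)⟫ + c * w k := by
      intro w
      rw [← inner_single k c w, real_inner_comm w (EuclideanSpace.single k c), ← inner_add_right,
        ← hcz, add_sub_cancel]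
    simp only [piece, e] at h1 h2
    show x k ≤ y k
    nlinarith
  -- the upper ends
  set nxt : J → (Fin d → Fin n) → Fin d → ℕ → ℝ := fun j a k b =>
    if h : b < n then lo (j, Function.update a k ⟨b, h⟩) k else R with hnxt
  set top : J × (Fin d → Fin n) → Fin d → ℝ := fun i k =>
    nxt i.1 i.2 k ((i.2 k : ℕ) + 1) with htop
  have htop' : ∀ i k x, x ∈ cell z g i → x ∈ K → x k ≤ top i k := by
    rintro ⟨j, a⟩ k x hx hxK
    simp only [htop, hnxt]
    split_ifs with h
    · exact hord j a k _ (show (a k : ℕ) < _ by exact Nat.lt_succ_self _) x hx hxK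
    · exact (hcoord x k hxK).2
  refine ⟨fun i => ∑ k, (top i k - lo i k), ?_, ?_, ?_⟩
  · intro i x hx hxK y hy hyK
    refine (norm_le_sum_abs _).trans (Finset.sum_le_sum fun k _ => ?_)
    rw [PiLp.sub_apply, abs_le]
    have := hlole i k x hx hxK; have := hlole i k y hy hyK
    have := htop' i k x hx hxK; have := htop' i k y hy hyK
    constructor <;> linarith
  · intro i
    obtain ⟨x, hx, hxK⟩ := hne i
    exact Finset.sum_nonneg fun k _ => by
      linarith [hlole i k x hx hxK, htop' i k x hx hxK]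
  · intro j
    rw [← Finset.sum_mul, Finset.sum_comm]
    have hline : ∀ k, (∑ a, (top (j, a) k - lo (j, a) k)) * n ≤ 2 * R * (n : ℝ) ^ d := by
      intro k
      set F : (Fin d → Fin n) → ℝ := fun a => top (j, a) k - lo (j, a) k
      have key : (∑ a, F a) * n = ∑ a : Fin d → Fin n, ∑ b : Fin n, F (Function.update a k b) := by
        have e := Equiv.sum_comp (show (Fin d → Fin n) × Fin n ≃ (Fin d → Fin n) × Fin n from
          { toFun := fun p => (Function.update p.1 k p.2, p.1 k)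
            invFun := fun p => (Function.update p.1 k p.2, p.1 k)
            left_inv := fun p => by simp
            right_inv := fun p => by simp }) (fun p => F p.1)
        simp only [Fintype.sum_prod_type] at e
        refine Eq.trans ?_ e.symm
        simp only [Finset.sum_const, Finset.card_univ, Fintype.card_fin, nsmul_eq_mul,
          ← Finset.mul_sum]
        ring
      rw [key]
      calc ∑ a : Fin d → Fin n, ∑ b : Fin n, F (Function.update a k b)
          ≤ ∑ _a : Fin d → Fin n, 2 * R := Finset.sum_le_sum fun a _ => ?_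
        _ = _ := by simp; ring
      have e : ∀ b : Fin n, F (Function.update a k b) = nxt j a k ((b : ℕ) + 1) - nxt j a k b := by
        intro b
        simp only [F, htop, hnxt, Function.update_self, Function.update_idem, b.isLt, dif_pos]
      simp only [e]
      rw [Fin.sum_univ_eq_sum_range (fun b => nxt j a k (b + 1) - nxt j a k b) n,
        Finset.sum_range_sub (fun b => nxt j a k b)]
      simp only [hnxt, lt_irrefl, dif_neg, not_false_eq_true]
      split_ifs with h
      · linarith [hlobd (j, Function.update a k ⟨0, h⟩) k]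
      · linarith [hB.nonneg]
    rw [Finset.sum_mul]
    refine (Finset.sum_le_sum fun k _ => hline k).trans (le_of_eq ?_)
    simp; ring

/-- Discrete stability with exponent one third. -/
theorem discrete_stability (hd : 0 < d) (hB : Body K R) {c₀ : Spc d} {r : ℝ} (hr : 0 < r)
    (hball : Metric.closedBall c₀ r ⊆ K) (m : J → ℝ) (hm : ∀ j, 0 < m j) (hm1 : ∑ j, m j = 1)
    (y y' : J → Spc d) {η tol : ℝ} (hη : 0 < η) (htol : 0 < tol)
    (hy : ∀ j, ‖y j‖ + η ≤ R) (hy' : ∀ j, ‖y' j‖ + η ≤ R) :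
    ∃ n : ℕ, ∃ z₀ z₁ : J × (Fin d → Fin (n + 1)) → Spc d,
      ∃ g₀ g₁ : J × (Fin d → Fin (n + 1)) → ℝ,
      Function.Injective z₀ ∧ Function.Injective z₁ ∧
      (∀ i, ‖z₀ i‖ ≤ R) ∧ (∀ i, ‖z₁ i‖ ≤ R) ∧
      (∀ i, ‖z₀ i - y i.1‖ ≤ η) ∧ (∀ i, ‖z₁ i - y' i.1‖ ≤ η) ∧
      (∀ i, (uniformOn K).real (cell z₀ g₀ i) = m i.1 / ((n : ℝ) + 1) ^ d) ∧
      (∀ i, (uniformOn K).real (cell z₁ g₁ i) = m i.1 / ((n : ℝ) + 1) ^ d) ∧
      ∫ x, ‖gradMap z₁ g₁ x - gradMap z₀ g₀ x‖ ^ 2 ∂uniformOn K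
        ≤ interpC K R r * (linA R * (∑ j, m j * ‖y' j - y j‖ ^ 2) + tol) ^ (1 / 3 : ℝ) := by
  classical
  have hR1 := hB.one_le
  have hR0 : 0 < R := by linarith
  have hA : 0 < linA R := by rw [linA]; positivity
  have hC0 : 0 ≤ linC K R := by
    have := gapC_nonneg hB; rw [linC]; positivity
  -- parameters
  set s := min (1 / (8 * R ^ 2)) ((tol / 3 / (linC K R + 1)) ^ 2) with hs
  have hs0 : 0 < s := lt_min (by positivity) (by positivity)
  have hs1 : linC K R * Real.sqrt s ≤ tol / 3 := by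
    have h1 : Real.sqrt s ≤ tol / 3 / (linC K R + 1) :=
      (Real.sqrt_le_sqrt (min_le_right _ _)).trans (le_of_eq (Real.sqrt_sq (by positivity)))
    have h2 := mul_le_mul_of_nonneg_left h1 hC0
    have h3 : linC K R * (tol / 3 / (linC K R + 1)) ≤ tol / 3 := by
      rw [← mul_div_assoc, div_le_iff₀ (by linarith)]; nlinarith
    linarith
  obtain ⟨N, hN⟩ := exists_nat_gt (8 * R ^ 2 / s / (tol / 3))
  have hN0 : 0 < N := by
    have : (0 : ℝ) < N := lt_of_le_of_lt (by positivity) hN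
    exact_mod_cast this
  obtain ⟨n₀, hn'⟩ := exists_nat_gt (200 * R * (d * (2 * R)) / (linA R * s ^ 2) / (tol / 3))
  obtain ⟨n, hnn⟩ : ∃ n, n = n₀ + 1 := ⟨_, rfl⟩
  have hn0 : 0 < n := by omega
  have hnR : (0 : ℝ) < n := by exact_mod_cast hn0
  have hn : 200 * R * (d * (2 * R)) / (linA R * s ^ 2) / (tol / 3) < n :=
    hn'.trans_le (by exact_mod_cast (by omega : n₀ ≤ n))
  have hdR : (0 : ℝ) < d := by exact_mod_cast hd
  set h' : ℝ := η / (2 * d * n) with hh'
  have hh'0 : 0 < h' := by positivity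
  let k0 : Fin d := ⟨0, hd⟩
  set pj : J → ℝ := fun j => ((Fintype.equivFin J j : ℕ) : ℝ) with hpj
  set grid : (Fin d → Fin n) → Spc d := fun a =>
    h' • WithLp.toLp 2 (fun k => ((a k : ℕ) : ℝ)) with hgrid
  set e : Spc d := WithLp.toLp 2 (fun _ => (1 : ℝ)) with he
  -- collisions
  set t : Fin (N + 1) → ℝ := fun k => (k : ℝ) / N
  set bad : Set ℝ := Set.range fun q : (Fin (N + 1)) × (J × (Fin d → Fin n)) × (J × (Fin d → Fin n)) =>
    -((y q.2.1.1 + t q.1 • (y' q.2.1.1 - y q.2.1.1) + grid q.2.1.2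
      - (y q.2.2.1 + t q.1 • (y' q.2.2.1 - y q.2.2.1) + grid q.2.2.2)) k0)
      / (pj q.2.1.1 - pj q.2.2.1)
  set bnd : ℝ := η / (2 * d * (Fintype.card J))
  have hbnd : 0 < bnd := by
    have : (0 : ℝ) < (Fintype.card J : ℝ) := by exact_mod_cast Fintype.card_pos
    positivity
  obtain ⟨δ, ⟨hδ0, hδ1⟩, hδbad⟩ := ((Ioo_infinite hbnd).diff (Set.finite_range _ : bad.Finite)).nonempty
  set off : J × (Fin d → Fin n) → Spc d := fun i => grid i.2 + (δ * pj i.1) • e with hoff
  set z₀ : J × (Fin d → Fin n) → Spc d := fun i => y i.1 + off i with hz₀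
  set z₁ : J × (Fin d → Fin n) → Spc d := fun i => y' i.1 + off i with hz₁
  have hoffn : ∀ i, ‖off i‖ ≤ η := by
    intro i
    refine (norm_le_sum_abs _).trans ?_
    calc ∑ k, |off i k| ≤ ∑ _k : Fin d, η / d := by
          refine Finset.sum_le_sum fun k _ => ?_
          have h1 : ((i.2 k : ℕ) : ℝ) ≤ n := by exact_mod_cast (i.2 k).isLt.le
          have h2 : pj i.1 ≤ (Fintype.card J : ℝ) := by
            simp only [hpj]; exact_mod_cast (Fintype.equivFin J i.1).isLt.le
          have h3 : 0 ≤ pj i.1 := by simp only [hpj]; positivity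
          have e1 : off i k = h' * (i.2 k : ℕ) + δ * pj i.1 := by simp [hoff, hgrid, he]
          rw [e1, abs_of_nonneg (add_nonneg (by positivity) (mul_nonneg hδ0.le h3))]
          have a1 : h' * (i.2 k : ℕ) ≤ h' * n := mul_le_mul_of_nonneg_left h1 hh'0.le
          have a2 : δ * pj i.1 ≤ bnd * Fintype.card J := mul_le_mul hδ1.le h2 h3 hbnd.le
          have a3 : h' * n = η / (2 * d) := by rw [hh']; field_simp
          have a4 : bnd * Fintype.card J = η / (2 * d) := by simp only [bnd]; field_simp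
          have a5 : η / (2 * d) + η / (2 * d) = η / d := by field_simp; ring
          linarith
      _ = η := by simp; field_simp
  have : Nonempty (Fin n) := ⟨⟨0, hn0⟩⟩
  set mI : (J × (Fin d → Fin n)) → ℝ := fun i => m i.1 / (n : ℝ) ^ d with hmI
  have hmI0 : ∀ i, 0 < mI i := fun i => div_pos (hm _) (by positivity)
  have hsumI : ∀ F : J → ℝ, ∑ i : (J × (Fin d → Fin n)), F i.1 * mI i = ∑ j, F j * m j := by
    intro F
    rw [Fintype.sum_prod_type]
    refine Finset.sum_congr rfl fun j _ => ?_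
    simp only [hmI, Finset.sum_const, Finset.card_univ, Fintype.card_fun, Fintype.card_fin,
      nsmul_eq_mul, Nat.cast_pow]
    field_simp
  have hmI1 : ∑ i, mI i = 1 := by
    have := hsumI fun _ => 1
    simp only [one_mul] at this
    rw [this, hm1]
  have hdiff : ∀ i, z₁ i - z₀ i = y' i.1 - y i.1 := fun i => by simp [hz₀, hz₁]
  have hZ : ∀ (k : ℕ) (i : (J × (Fin d → Fin n))), z₀ i + ((k : ℝ) / N) • (z₁ i - z₀ i)
      = y i.1 + ((k : ℝ) / N) • (y' i.1 - y i.1) + off i := by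
    intro k i; rw [hdiff]; simp only [hz₀]; abel
  have hinj : ∀ k ≤ N, Function.Injective fun i => z₀ i + ((k : ℝ) / N) • (z₁ i - z₀ i) := by
    intro k hk i i' heq
    simp only [hZ] at heq
    by_contra hne
    by_cases hj : i.1 = i'.1
    · rw [hj] at heq
      have h1 : grid i.2 = grid i'.2 := by
        have := add_left_cancel heq
        simp only [hoff, hj] at this
        exact add_right_cancel this
      refine hne (Prod.ext hj (funext fun c => Fin.ext ?_))
      have := congrArg (fun v : Spc d => v c) h1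
      simpa [hgrid, hh'0.ne'] using this
    · refine hδbad ⟨(⟨k, Nat.lt_succ_of_le hk⟩, i, i'), ?_⟩
      have hp : pj i.1 - pj i'.1 ≠ 0 := sub_ne_zero.2 fun h => hj <| by
        simpa [hpj, Fin.val_inj] using h
      have := congrArg (fun v : Spc d => v k0) heq
      simp only [hoff, he, PiLp.add_apply, PiLp.smul_apply, smul_eq_mul, mul_one] at this
      simp only [t, PiLp.sub_apply] at this ⊢
      simp only [PiLp.add_apply, PiLp.sub_apply, PiLp.smul_apply, smul_eq_mul] at this ⊢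
      rw [div_eq_iff hp]
      linarith
  have hbd : ∀ k ≤ N, ∀ i : (J × (Fin d → Fin n)), ‖z₀ i + ((k : ℝ) / N) • (z₁ i - z₀ i)‖ ≤ R := by
    intro k hk i
    rw [hZ]
    have h1 : (k : ℝ) / N ≤ 1 :=
      (div_le_one (by exact_mod_cast hN0)).2 (by exact_mod_cast hk)
    have h2 : y i.1 + ((k : ℝ) / N) • (y' i.1 - y i.1)
        = (1 - (k : ℝ) / N) • y i.1 + ((k : ℝ) / N) • y' i.1 := by module
    have h3 : ‖y i.1 + ((k : ℝ) / N) • (y' i.1 - y i.1)‖ ≤ R - η := by
      rw [h2]
      have := convex_closedBall (0 : Spc d) (R - η)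
        (show y i.1 ∈ _ by simpa using (by linarith [hy i.1] : ‖y i.1‖ ≤ R - η))
        (show y' i.1 ∈ _ by simpa using (by linarith [hy' i.1] : ‖y' i.1‖ ≤ R - η))
        (show 0 ≤ 1 - (k : ℝ) / N by linarith) (show 0 ≤ (k : ℝ) / N by positivity) (by ring)
      simpa using this
    exact (norm_add_le _ _).trans (by linarith [hoffn i])
  set ε := d * (2 * R) / n with hε
  have hW : ∀ k ≤ N, ∀ g : (J × (Fin d → Fin n)) → ℝ,
      (∀ i, ∃ x ∈ cell (fun i => z₀ i + ((k : ℝ) / N) • (z₁ i - z₀ i)) g i, x ∈ K) →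
      ∃ W : (J × (Fin d → Fin n)) → ℝ, (∀ i, ∀ x ∈ cell (fun i => z₀ i + ((k : ℝ) / N) • (z₁ i - z₀ i)) g i, x ∈ K →
        ∀ y ∈ cell (fun i => z₀ i + ((k : ℝ) / N) • (z₁ i - z₀ i)) g i, y ∈ K → ‖x - y‖ ≤ W i) ∧
        ∑ i, mI i * W i ≤ ε := by
    intro k _ g hne
    obtain ⟨W, hW1, _, hW3⟩ := grid_width hB (fun i => z₀ i + ((k : ℝ) / N) • (z₁ i - z₀ i)) g
      (fun j a c b hab => ⟨h' * ((b : ℕ) - (a c : ℕ) : ℝ), mul_pos hh'0 (sub_pos.2 (by exact_mod_cast hab)), by
        simp only [hZ, hoff, hgrid]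
        ext q
        by_cases hq : q = c
        · subst hq; simp; ring
        · simp [hq]⟩) hne
    refine ⟨W, hW1, ?_⟩
    rw [Fintype.sum_prod_type]
    calc ∑ j, ∑ a, mI (j, a) * W (j, a)
        = ∑ j, m j / ((n : ℝ) ^ d * n) * ∑ a, W (j, a) * n := by
          refine Finset.sum_congr rfl fun j _ => ?_
          rw [Finset.mul_sum]
          refine Finset.sum_congr rfl fun a _ => ?_
          simp only [hmI]; field_simp
      _ ≤ ∑ j, m j / ((n : ℝ) ^ d * n) * (d * (2 * R) * (n : ℝ) ^ d) :=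
          Finset.sum_le_sum fun j _ =>
            mul_le_mul_of_nonneg_left (hW3 j) (by have := hm j; positivity)
      _ = ε := by
          rw [← Finset.sum_mul, ← Finset.sum_div, hm1, hε]; field_simp
  obtain ⟨g₀, g₁, hg₀, hg₁, hlin⟩ :=
    linear_stability hB z₀ z₁ N hN0 hinj hbd mI hmI0 hmI1 ε hW hs0 (min_le_left _ _)
  have hinj0 : Function.Injective z₀ := by simpa using hinj 0 (Nat.zero_le _)
  have hN' : ((N : ℝ) / N) = 1 := div_self (by exact_mod_cast hN0.ne')
  have hinj1 : Function.Injective z₁ := by simpa [hN'] using hinj N le_rfl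
  have hb0 : ∀ i, ‖z₀ i‖ ≤ R := fun i => by simpa using hbd 0 (Nat.zero_le _) i
  have hb1 : ∀ i, ‖z₁ i‖ ≤ R := fun i => by simpa [hN'] using hbd N le_rfl i
  subst hnn
  refine ⟨n₀, z₀, z₁, g₀, g₁, hinj0, hinj1, hb0, hb1,
    fun i => by simpa [hz₀] using hoffn i, fun i => by simpa [hz₁] using hoffn i,
    fun i => (hg₀ i).trans (by simp [hmI]), fun i => (hg₁ i).trans (by simp [hmI]), ?_⟩
  have he2 : ∑ i, mI i * ‖z₁ i - z₀ i‖ ^ 2 = ∑ j, m j * ‖y' j - y j‖ ^ 2 := by
    simp only [hdiff]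
    refine (Finset.sum_congr rfl fun i _ => mul_comm _ _).trans
      ((hsumI fun j => ‖y' j - y j‖ ^ 2).trans (Finset.sum_congr rfl fun j _ => mul_comm _ _))
  rw [he2] at hlin
  have q1 : 8 * R ^ 2 / (N * s) ≤ tol / 3 := by
    rw [div_lt_iff₀ (by positivity), div_lt_iff₀ hs0] at hN
    rw [div_le_iff₀ (by positivity)]
    linarith
  have q2 : 200 * R * ε / (linA R * s ^ 2) ≤ tol / 3 := by
    rw [div_lt_iff₀ (by positivity), div_lt_iff₀ (by positivity)] at hn
    rw [hε, div_le_iff₀ (by positivity), ← mul_div_assoc, div_le_iff₀ hnR]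
    linarith
  refine interpolation z₁ g₁ z₀ g₀ hB hb1 hb0 hr hball
    (∫ x', (phi z₁ g₁ x' - phi z₀ g₀ x') ∂uniformOn K) _ ?_ ?_
  · have : 0 ≤ ∑ j, m j * ‖y' j - y j‖ ^ 2 :=
      Finset.sum_nonneg fun j _ => mul_nonneg (hm j).le (sq_nonneg _)
    positivity
  · linarith

end Vale.Agent.P074
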