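import Vale.Agent.P074.Geometry

/-! Gap bound on the gradient, Poincaré inequality and interpolation. -/

open MeasureTheory Filter Set
open scoped ENNReal NNReal RealInnerProductSpace Topology

namespace Vale.Agent.P074

variable {d : ℕ} {I J : Type*} [Fintype I] [Nonempty I] [Fintype J] [Nonempty J]
variable {K : Set (Spc d)} {R : ℝ}

lemma norm_le_sum_abs (v : Spc d) : ‖v‖ ≤ ∑ k, |v k| := by
  conv_lhs => rw [eq_sum_single v]
  exact (norm_sum_le _ _).trans (le_of_eq (Finset.sum_congr rfl fun k _ => by simp))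

lemma norm_gradMap_le (z : I → Spc d) (g : I → ℝ) (hz : ∀ i, ‖z i‖ ≤ R) (x : Spc d) :
    ‖gradMap z g x‖ ≤ R := hz _

/-- The constant in the gradient bound by the duality gap. -/
noncomputable def gapC (K : Set (Spc d)) (R : ℝ) : ℝ := d * (1 + sdC K R) + 2

lemma gapC_nonneg (hB : Body K R) : 0 ≤ gapC K R := by
  have := sdC_nonneg hB; rw [gapC]; positivity

/-- A map whose duality gap for a max-affine potential is small is close to the gradient. -/
theorem integral_norm_sub_le (hB : Body K R) (z : I → Spc d) (g : I → ℝ) (hz : ∀ i, ‖z i‖ ≤ R)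
    {T : Spc d → Spc d} (hT : Measurable T) (hTb : ∀ᵐ x ∂uniformOn K, ‖T x‖ ≤ R)
    {G : Spc d → ℝ} (hG : ∀ p y, ‖p‖ ≤ 2 * R → ‖y‖ ≤ R → ⟪p, y⟫ - phi z g p ≤ G y)
    (hint : Integrable (fun x => phi z g x + G (T x) - ⟪x, T x⟫) (uniformOn K))
    {q : ℝ} (hq0 : 0 < q)
    (hq : ∫ x, (phi z g x + G (T x) - ⟪x, T x⟫) ∂uniformOn K ≤ q) :
    ∫ x, ‖T x - gradMap z g x‖ ∂uniformOn K ≤ gapC K R * Real.sqrt q := by
  have := hB.isProb
  set ρ := uniformOn K
  set B : Spc d → ℝ := fun x => phi z g x + G (T x) - ⟪x, T x⟫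
  have hR := hB.nonneg
  have hC := sdC_nonneg hB
  have hint' : Integrable (fun x => ‖T x - gradMap z g x‖) ρ := by
    refine Integrable.of_bound (hT.sub (measurable_gradMap z g)).norm.aestronglyMeasurable
      (R + R) ?_
    filter_upwards [hTb] with x hx
    rw [norm_norm]
    exact (norm_sub_le _ _).trans (add_le_add hx (norm_gradMap_le z g hz x))
  set s := Real.sqrt q with hs
  have hs0 : 0 < s := Real.sqrt_pos.2 hq0
  have hss : s * s = q := Real.mul_self_sqrt hq0.le
  by_cases hbig : R < s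
  · calc ∫ x, ‖T x - gradMap z g x‖ ∂ρ ≤ ∫ _, (2 * R : ℝ) ∂ρ := by
          refine integral_mono_ae hint' (integrable_const _) ?_
          filter_upwards [hTb] with x hx
          exact (norm_sub_le _ _).trans (by linarith [norm_gradMap_le z g hz x])
      _ = 2 * R := by simp
      _ ≤ _ := by
          have : (0 : ℝ) ≤ d * (1 + sdC K R) := by positivity
          rw [gapC]; nlinarith
  rw [not_lt] at hbig
  have hsi : ∀ k, Integrable (fun x => sdiff z g k s x) ρ := by
    intro k
    obtain ⟨C, hC⟩ := hB.compact.exists_bound_of_continuousOn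
      (continuous_sdiff z g k s).continuousOn
    exact hB.integrable (continuous_sdiff z g k s).aestronglyMeasurable hC
  have hrhs : Integrable (fun x => ∑ k, (B x / s + sdiff z g k s x / s)) ρ :=
    integrable_finsetSum _ fun k _ => (hint.div_const s).add ((hsi k).div_const s)
  have hpt : ∀ᵐ x ∂ρ, ‖T x - gradMap z g x‖ ≤ ∑ k, (B x / s + sdiff z g k s x / s) := by
    filter_upwards [hTb, hB.ae_norm_le] with x hTx hx
    refine (norm_le_sum_abs _).trans (Finset.sum_le_sum fun k _ => ?_)
    rw [← add_div, le_div_iff₀ hs0]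
    have hn : ∀ u : ℝ, |u| = s → ‖x + EuclideanSpace.single k u‖ ≤ 2 * R := by
      intro u hu
      refine (norm_add_le _ _).trans ?_
      rw [PiLp.norm_single, Real.norm_eq_abs, hu]; linarith
    have h1 := hG _ (T x) (hn s (abs_of_pos hs0)) hTx
    have h2 := hG _ (T x) (hn (-s) (by rw [abs_neg, abs_of_pos hs0])) hTx
    have b1 := breg_nonneg z g x (EuclideanSpace.single k s)
    have b2 := breg_nonneg z g x (EuclideanSpace.single k (-s))
    have b := breg_add_breg z g k s x
    simp only [B, breg, inner_add_left, inner_single, PiLp.sub_apply] at *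
    rcases le_total 0 ((T x) k - gradMap z g x k) with h | h
    · rw [abs_of_nonneg h]; nlinarith
    · rw [abs_of_nonpos h]; nlinarith
  refine (integral_mono_ae hint' hrhs hpt).trans ?_
  rw [integral_finsetSum _ fun k _ => (hint.div_const s).fun_add ((hsi k).div_const s)]
  calc ∑ k : Fin d, ∫ x, (B x / s + sdiff z g k s x / s) ∂ρ
      ≤ ∑ _k : Fin d, (1 + sdC K R) * s := by
        refine Finset.sum_le_sum fun k _ => ?_
        rw [integral_add (hint.div_const s) ((hsi k).div_const s), integral_div, integral_div,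
          ← add_div, div_le_iff₀ hs0]
        have := integral_sdiff_le z g hB hz k hs0.le
        nlinarith
    _ ≤ _ := by simp only [Finset.sum_const, Finset.card_univ, Fintype.card_fin, nsmul_eq_mul,
                  gapC]; nlinarith

variable (za : I → Spc d) (ga : I → ℝ) (zb : J → Spc d) (gb : J → ℝ)

lemma diff_increment (p a : Spc d) :
    (phi za ga (p + a) - phi zb gb (p + a)) - (phi za ga p - phi zb gb p)
      = ⟪a, gradMap za ga p - gradMap zb gb p⟫ + breg za ga p a - breg zb gb p a := by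
  simp only [breg, inner_sub_right]; ring

/-- Poincaré inequality for differences of max-affine potentials. -/
theorem poincare (hB : Body K R) (hza : ∀ i, ‖za i‖ ≤ R) (hzb : ∀ i, ‖zb i‖ ≤ R) :
    ∫ x, |(phi za ga x - phi zb gb x)
        - ∫ x', (phi za ga x' - phi zb gb x') ∂uniformOn K| ∂uniformOn K
      ≤ 2 * R * 2 ^ d * ∫ x, ‖gradMap za ga x - gradMap zb gb x‖ ∂uniformOn K := by
  have := hB.isProb
  set ρ := uniformOn K
  set f : Spc d → ℝ := fun x => phi za ga x - phi zb gb x with hf
  set W : Spc d → ℝ := fun x => ‖gradMap za ga x - gradMap zb gb x‖ with hW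
  have hR := hB.nonneg
  have hfc : Continuous f := by fun_prop
  have hfi : Integrable f ρ := by
    obtain ⟨C, hC⟩ := hB.compact.exists_bound_of_continuousOn hfc.continuousOn
    exact hB.integrable hfc.aestronglyMeasurable hC
  have hWm : Measurable W := by fun_prop
  have hWb : ∀ x, |W x| ≤ 2 * R := fun x => by
    rw [hW, abs_norm]
    have h1 := norm_gradMap_le za ga hza x
    have h2 := norm_gradMap_le zb gb hzb x
    exact (norm_sub_le _ _).trans (by linarith)
  have hC := sdC_nonneg hB
  set D := (2 : ℝ) ^ d * (2 * (d : ℝ) * sdC K R * (2 * d * R) ^ 2) with hD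
  suffices h : ∀ N : ℕ, ∫ x, |f x - ∫ x', f x' ∂ρ| ∂ρ
      ≤ 2 * R * 2 ^ d * (∫ x, W x ∂ρ) + D / (N + 1) by
    have hlim : Tendsto (fun N : ℕ => 2 * R * 2 ^ d * (∫ x, W x ∂ρ) + D / (N + 1)) atTop
        (𝓝 (2 * R * 2 ^ d * (∫ x, W x ∂ρ) + 0)) := by
      refine tendsto_const_nhds.add ?_
      have := (tendsto_one_div_add_atTop_nhds_zero_nat (𝕜 := ℝ)).const_mul D
      simpa [div_eq_mul_inv] using this
    rw [add_zero] at hlim
    exact ge_of_tendsto hlim (Eventually.of_forall h)
  intro N
  set M : ℝ := (N : ℝ) + 1 with hM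
  have hM0 : 0 < M := by positivity
  set r : ℝ := 2 * d * R / M with hr
  have hr0 : 0 ≤ r := by positivity
  set Φ : Spc d → ℝ := fun p =>
    (2 * R / M) * W p + ∑ k, (sdiff za ga k r p + sdiff zb gb k r p) with hΦ
  have hΦm : Measurable Φ := by fun_prop
  have hΦ0 : ∀ p, 0 ≤ Φ p := fun p => add_nonneg (by positivity)
    (Finset.sum_nonneg fun k _ => add_nonneg (sdiff_nonneg _ _ _ _ _) (sdiff_nonneg _ _ _ _ _))
  obtain ⟨CΦ, hCΦ⟩ : ∃ C, ∀ x ∈ K, |Φ x| ≤ C := by
    have hc : Continuous fun p => ∑ k, (sdiff za ga k r p + sdiff zb gb k r p) := by fun_prop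
    obtain ⟨C, hC⟩ := hB.compact.exists_bound_of_continuousOn hc.continuousOn
    refine ⟨2 * R / M * (2 * R) + C, fun x hx => (abs_add_le _ _).trans ?_⟩
    rw [abs_mul, abs_of_nonneg (by positivity : (0 : ℝ) ≤ 2 * R / M)]
    exact add_le_add (mul_le_mul_of_nonneg_left (hWb x) (by positivity)) (hC x hx)
  let P : ℕ → Spc d × Spc d → Spc d := fun j q =>
    (1 - (j : ℝ) / M) • q.1 + ((j : ℝ) / M) • q.2
  have hstep : ∀ j : ℕ, ∀ x ∈ K, ∀ x' ∈ K,
      |f (P (j + 1) (x, x')) - f (P j (x, x'))| ≤ Φ (P j (x, x')) := by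
    intro j x hx x' hx'
    set a : Spc d := M⁻¹ • (x' - x) with ha
    have hP : P (j + 1) (x, x') = P j (x, x') + a := by
      simp only [P, ha, Nat.cast_add, Nat.cast_one, add_div, smul_sub, one_div]
      module
    have hna : ‖a‖ ≤ 2 * R / M := by
      rw [ha, norm_smul, Real.norm_eq_abs, abs_of_pos (inv_pos.2 hM0), inv_mul_eq_div]
      exact (div_le_div_iff_of_pos_right hM0).2
        ((norm_sub_le _ _).trans (by linarith [hB.norm_le hx, hB.norm_le hx']))
    have hak : ∀ k, |(d : ℝ) * a k| ≤ r := by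
      intro k
      rw [abs_mul, Nat.abs_cast, hr, show 2 * (d : ℝ) * R / M = d * (2 * R / M) by ring]
      refine mul_le_mul_of_nonneg_left ?_ (Nat.cast_nonneg d)
      have := PiLp.norm_apply_le a k
      rw [Real.norm_eq_abs] at this
      exact this.trans hna
    rw [hP]
    simp only [hf, diff_increment]
    set p := P j (x, x')
    have h1 := abs_real_inner_le_norm a (gradMap za ga p - gradMap zb gb p)
    have h2 := breg_le_sum_sdiff za ga hak p
    have h3 := breg_le_sum_sdiff zb gb hak p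
    have h4 := breg_nonneg za ga p a
    have h5 := breg_nonneg zb gb p a
    have h6 : ‖a‖ * W p ≤ 2 * R / M * W p := mul_le_mul_of_nonneg_right hna (norm_nonneg _)
    have h7 : 0 ≤ ∑ k, sdiff za ga k r p :=
      Finset.sum_nonneg fun k _ => sdiff_nonneg _ _ _ _ _
    have h8 : 0 ≤ ∑ k, sdiff zb gb k r p :=
      Finset.sum_nonneg fun k _ => sdiff_nonneg _ _ _ _ _
    simp only [hΦ, Finset.sum_add_distrib, hW] at *
    rw [abs_le] at h1 ⊢
    constructor <;> linarith
  have htel : ∀ x ∈ K, ∀ x' ∈ K,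
      |f x' - f x| ≤ ∑ j ∈ Finset.range (N + 1), Φ (P j (x, x')) := by
    intro x hx x' hx'
    have e1 : P (N + 1) (x, x') = x' := by
      simp only [P, Nat.cast_add, Nat.cast_one, ← hM, div_self hM0.ne']; simp
    have e0 : P 0 (x, x') = x := by simp [P]
    calc |f x' - f x| = |∑ j ∈ Finset.range (N + 1), (f (P (j + 1) (x, x')) - f (P j (x, x')))| := by
          rw [Finset.sum_range_sub (fun j => f (P j (x, x'))), e1, e0]
      _ ≤ _ := (Finset.abs_sum_le_sum_abs _ _).trans
          (Finset.sum_le_sum fun j _ => hstep j x hx x' hx')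
  have hPm : ∀ j, Measurable (P j) := fun j => by fun_prop
  have hPK : ∀ j ≤ N + 1, ∀ x ∈ K, ∀ x' ∈ K, P j (x, x') ∈ K := by
    intro j hj x hx x' hx'
    have : (j : ℝ) / M ≤ 1 := (div_le_one hM0).2 (by rw [hM]; exact_mod_cast hj)
    exact hB.convex hx hx' (by linarith) (by positivity) (by ring)
  have hpairs : ∀ᵐ q ∂(ρ.prod ρ), q.1 ∈ K ∧ q.2 ∈ K :=
    (Measure.quasiMeasurePreserving_fst.ae hB.ae_mem).and
      (Measure.quasiMeasurePreserving_snd.ae hB.ae_mem)
  have hPi : ∀ j ∈ Finset.range (N + 1), Integrable (fun q => Φ (P j q)) (ρ.prod ρ) := by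
    intro j hj
    refine Integrable.of_bound (hΦm.comp (hPm j)).aestronglyMeasurable CΦ ?_
    filter_upwards [hpairs] with q hq
    exact hCΦ _ (hPK j (Finset.mem_range.1 hj).le _ hq.1 _ hq.2)
  have hterm : ∀ j ∈ Finset.range (N + 1),
      ∫ q, Φ (P j q) ∂(ρ.prod ρ) ≤ 2 ^ d * ∫ p, Φ p ∂ρ := by
    intro j hj
    have hjM : (j : ℝ) / M ≤ 1 :=
      (div_le_one hM0).2 (by rw [hM]; exact_mod_cast (Finset.mem_range.1 hj).le)
    rcases le_total ((j : ℝ) / M) (1 / 2) with ht | ht
    · rw [integral_prod_symm _ (hPi j hj)]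
      calc ∫ x', ∫ x, Φ (P j (x, x')) ∂ρ ∂ρ ≤ ∫ _, 2 ^ d * ∫ p, Φ p ∂ρ ∂ρ := by
            refine integral_mono_ae (hPi j hj).integral_prod_right (integrable_const _) ?_
            filter_upwards [hB.ae_mem] with x' hx'
            exact hB.integral_contract_le hΦm hCΦ (fun x _ => hΦ0 x) hx' (by positivity) ht
        _ = _ := by simp
    · rw [integral_prod _ (hPi j hj)]
      calc ∫ x, ∫ x', Φ (P j (x, x')) ∂ρ ∂ρ ≤ ∫ _, 2 ^ d * ∫ p, Φ p ∂ρ ∂ρ := by
            refine integral_mono_ae (hPi j hj).integral_prod_left (integrable_const _) ?_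
            filter_upwards [hB.ae_mem] with x hx
            have := hB.integral_contract_le hΦm hCΦ (fun x _ => hΦ0 x) hx
              (t := 1 - (j : ℝ) / M) (by linarith) (by linarith)
            refine le_trans (le_of_eq ?_) this
            congr 1 with x'
            simp only [P, sub_sub_cancel, add_comm]
        _ = _ := by simp
  have hWi : Integrable W ρ := hB.integrable hWm.aestronglyMeasurable fun x _ => hWb x
  have hsdi : ∀ k, Integrable (fun p => sdiff za ga k r p + sdiff zb gb k r p) ρ := by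
    intro k
    obtain ⟨C, hC⟩ := hB.compact.exists_bound_of_continuousOn
      (f := fun p => sdiff za ga k r p + sdiff zb gb k r p) (by fun_prop)
    exact hB.integrable (by fun_prop) hC
  have hΦint : ∫ p, Φ p ∂ρ ≤ 2 * R / M * (∫ p, W p ∂ρ) + d * (2 * (sdC K R * r ^ 2)) := by
    simp only [hΦ]
    rw [integral_add (hWi.const_mul _) (integrable_finsetSum _ fun k _ => hsdi k),
      integral_const_mul, integral_finsetSum _ fun k _ => hsdi k]
    refine add_le_add le_rfl ?_
    calc ∑ k, ∫ p, (sdiff za ga k r p + sdiff zb gb k r p) ∂ρ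
        ≤ ∑ _k : Fin d, 2 * (sdC K R * r ^ 2) := Finset.sum_le_sum fun k _ => by
          obtain ⟨C, hC⟩ := hB.compact.exists_bound_of_continuousOn
            (continuous_sdiff za ga k r).continuousOn
          obtain ⟨C', hC'⟩ := hB.compact.exists_bound_of_continuousOn
            (continuous_sdiff zb gb k r).continuousOn
          rw [integral_add (hB.integrable (continuous_sdiff za ga k r).aestronglyMeasurable hC)
            (hB.integrable (continuous_sdiff zb gb k r).aestronglyMeasurable hC'), two_mul]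
          exact add_le_add (integral_sdiff_le za ga hB hza k hr0)
            (integral_sdiff_le zb gb hB hzb k hr0)
      _ = _ := by simp
  have hff : Integrable (fun q : Spc d × Spc d => |f q.2 - f q.1|) (ρ.prod ρ) :=
    ((hfi.comp_snd ρ).sub (hfi.comp_fst ρ)).abs
  calc ∫ x, |f x - ∫ x', f x' ∂ρ| ∂ρ ≤ ∫ x, ∫ x', |f x' - f x| ∂ρ ∂ρ := by
        refine integral_mono (hfi.sub (integrable_const _)).abs hff.integral_prod_left fun x => ?_
        rw [abs_sub_comm, show (∫ x', f x' ∂ρ) - f x = ∫ x', (f x' - f x) ∂ρ by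
          rw [integral_sub hfi (integrable_const _)]; simp]
        exact abs_integral_le_integral_abs
    _ = ∫ q, |f q.2 - f q.1| ∂(ρ.prod ρ) := (integral_prod _ hff).symm
    _ ≤ ∫ q, ∑ j ∈ Finset.range (N + 1), Φ (P j q) ∂(ρ.prod ρ) := by
        refine integral_mono_ae hff (integrable_finsetSum _ hPi) ?_
        filter_upwards [hpairs] with q hq
        exact htel _ hq.1 _ hq.2
    _ ≤ ∑ j ∈ Finset.range (N + 1), 2 ^ d * ∫ p, Φ p ∂ρ := by
        rw [integral_finsetSum _ hPi]; exact Finset.sum_le_sum hterm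
    _ ≤ _ := by
        rw [Finset.sum_const, Finset.card_range, nsmul_eq_mul, Nat.cast_add, Nat.cast_one, ← hM]
        refine (mul_le_mul_of_nonneg_left (mul_le_mul_of_nonneg_left hΦint (by positivity))
          hM0.le).trans (le_of_eq ?_)
        simp only [hD, hr]
        field_simp

lemma integral_four_terms {ρ : Measure (Spc d)} [IsFiniteMeasure ρ] {A F Q : Spc d → ℝ}
    {N : Set (Spc d)} (hA : Integrable A ρ) (hF : Integrable F ρ) (hQ : Integrable Q ρ)
    (hN : MeasurableSet N) (a b e : ℝ) :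
    ∫ x, (2 * A x / a + 2 * F x / a + b * Q x / e + N.indicator (fun _ => 4 * R ^ 2) x) ∂ρ
      = 2 * (∫ x, A x ∂ρ) / a + 2 * (∫ x, F x ∂ρ) / a + b * (∫ x, Q x ∂ρ) / e
        + ρ.real N * (4 * R ^ 2) := by
  have i1 := (hA.const_mul 2).div_const a
  have i2 := (hF.const_mul 2).div_const a
  have i3 := (hQ.const_mul b).div_const e
  rw [integral_add ((i1.fun_add i2).fun_add i3) ((integrable_const _).indicator hN),
    integral_add (i1.fun_add i2) i3, integral_add i1 i2, integral_div, integral_div,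
    integral_div, integral_const_mul, integral_const_mul, integral_const_mul,
    integral_indicator_const _ hN, smul_eq_mul]

lemma four_terms_le {u t A F Q P C e : ℝ} (hu : 0 < u) (hu3 : u ^ 3 = t) (hR : 0 ≤ R)
    (hA : A ≤ t) (hF : F ≤ t) (hQ : Q ≤ 2 * (C * u ^ 2)) (hP : P ≤ e * u) :
    2 * A / u ^ 2 + 2 * F / u ^ 2 + 4 * R * Q / u + P * (4 * R ^ 2)
      ≤ (4 + 8 * R * C + 4 * R ^ 2 * e) * u := by
  have h1 : 2 * A / u ^ 2 ≤ 2 * u := by
    rw [div_le_iff₀ (pow_pos hu 2)]
    have : u * u ^ 2 = t := by rw [← hu3]; ring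
    linarith
  have h2 : 2 * F / u ^ 2 ≤ 2 * u := by
    rw [div_le_iff₀ (pow_pos hu 2)]
    have : u * u ^ 2 = t := by rw [← hu3]; ring
    linarith
  have h3 : 4 * R * Q / u ≤ 8 * R * C * u := by
    rw [div_le_iff₀ hu]
    calc 4 * R * Q ≤ 4 * R * (2 * (C * u ^ 2)) := mul_le_mul_of_nonneg_left hQ (by positivity)
      _ = _ := by ring
  have h4 : P * (4 * R ^ 2) ≤ 4 * R ^ 2 * e * u := by
    calc P * (4 * R ^ 2) ≤ e * u * (4 * R ^ 2) := mul_le_mul_of_nonneg_right hP (by positivity)
      _ = _ := by ring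
  linarith

/-- The constant in the interpolation inequality. -/
noncomputable def interpC (K : Set (Spc d)) (R r : ℝ) : ℝ :=
  d * (4 + 8 * R * sdC K R + 4 * R ^ 2 * d / r) + 4 * R ^ 2 / r

/-- Interpolation: gradients are controlled by the cube root of the potentials. -/
theorem interpolation (hB : Body K R) (hza : ∀ i, ‖za i‖ ≤ R) (hzb : ∀ i, ‖zb i‖ ≤ R)
    {c₀ : Spc d} {r : ℝ} (hr : 0 < r) (hball : Metric.closedBall c₀ r ⊆ K) (c t : ℝ) (ht : 0 < t)
    (hL2 : ∫ x, (phi za ga x - phi zb gb x - c) ^ 2 ∂uniformOn K ≤ t) :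
    ∫ x, ‖gradMap za ga x - gradMap zb gb x‖ ^ 2 ∂uniformOn K
      ≤ interpC K R r * t ^ (1 / 3 : ℝ) := by
  have := hB.isProb
  set ρ := uniformOn K
  set f : Spc d → ℝ := fun x => phi za ga x - phi zb gb x - c with hf
  set D : Spc d → Spc d := fun x => gradMap za ga x - gradMap zb gb x with hD
  have hR := hB.nonneg
  have hC := sdC_nonneg hB
  have hDb : ∀ x, ‖D x‖ ≤ 2 * R := fun x => by
    have h1 := norm_gradMap_le za ga hza x
    have h2 := norm_gradMap_le zb gb hzb x
    exact (norm_sub_le _ _).trans (by linarith)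
  have hDm : Measurable D := by fun_prop
  have hDi : Integrable (fun x => ‖D x‖ ^ 2) ρ :=
    hB.integrable (by fun_prop : Measurable fun x => ‖D x‖ ^ 2).aestronglyMeasurable
      fun x _ => by
      rw [norm_pow, norm_norm]; exact pow_le_pow_left₀ (norm_nonneg _) (hDb x) 2
  set u := t ^ (1 / 3 : ℝ) with hu
  have hu0 : 0 < u := Real.rpow_pos_of_pos ht _
  have hu3 : u ^ 3 = t := by
    rw [hu, ← Real.rpow_natCast, ← Real.rpow_mul ht.le]; norm_num
  have hIC : 4 * R ^ 2 / r ≤ interpC K R r := by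
    have : 0 ≤ (d : ℝ) * (4 + 8 * R * sdC K R + 4 * R ^ 2 * d / r) := by positivity
    rw [interpC]; linarith
  by_cases hbig : r < u
  · calc ∫ x, ‖D x‖ ^ 2 ∂ρ ≤ ∫ _, (2 * R) ^ 2 ∂ρ :=
          integral_mono hDi (integrable_const _) fun x =>
            pow_le_pow_left₀ (norm_nonneg _) (hDb x) 2
      _ = 4 * R ^ 2 := by simp; ring
      _ = 4 * R ^ 2 / r * r := by field_simp
      _ ≤ interpC K R r * u := mul_le_mul hIC hbig.le hr.le
          ((by positivity : (0 : ℝ) ≤ 4 * R ^ 2 / r).trans hIC)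
  rw [not_lt] at hbig
  set θ := u / r with hθ
  have hθ0 : 0 < θ := div_pos hu0 hr
  have hθ1 : θ ≤ 1 := (div_le_one hr).2 hbig
  set S := AffineMap.homothety c₀ (1 - θ) '' K with hS
  have hScomp : IsCompact S := hB.compact.image (AffineMap.homothety_continuous _ _)
  have hc₀ : c₀ ∈ K := hball (Metric.mem_closedBall_self hr.le)
  have hSK : ∀ x ∈ S, ∀ a : Spc d, ‖a‖ ≤ u → x + a ∈ K := by
    rintro x ⟨y, hy, rfl⟩ a ha
    have hb : c₀ + θ⁻¹ • a ∈ K := hball (by
      rw [Metric.mem_closedBall, dist_self_add_left, norm_smul, Real.norm_eq_abs,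
        abs_of_pos (inv_pos.2 hθ0), inv_mul_le_iff₀ hθ0, hθ, div_mul_cancel₀ _ hr.ne']
      exact ha)
    convert hB.convex hy hb (show 0 ≤ 1 - θ by linarith) hθ0.le (by ring) using 1
    rw [AffineMap.homothety_apply, vsub_eq_sub, vadd_eq_add, smul_add, smul_inv_smul₀ hθ0.ne']
    module
  have hSsub : S ⊆ K := fun x hx => by simpa using hSK x hx 0 (by simp [hu0.le])
  have hcompl : ρ.real (K \ S) ≤ d * θ := by
    have h1 : volume.real S = (1 - θ) ^ d * volume.real K := by
      rw [measureReal_def, hS, Measure.addHaar_image_homothety, finrank_euclideanSpace_fin,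
        ENNReal.toReal_mul, ENNReal.toReal_ofReal (abs_nonneg _),
        abs_of_nonneg (pow_nonneg (by linarith) d)]
      rfl
    have h2 : ρ.real (K \ S) = (volume.real K - volume.real S) / volume.real K := by
      rw [← measureReal_sdiff hSsub hScomp.measurableSet hB.compact.measure_ne_top]
      simp only [ρ, measureReal_def, uniformOn, Measure.smul_apply, smul_eq_mul,
        ENNReal.toReal_mul, ENNReal.toReal_inv,
        Measure.restrict_eq_self _ Set.sdiff_subset]
      rw [inv_mul_eq_div]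
    rw [h2, h1, div_le_iff₀ hB.vol_pos]
    have h3 : 1 + (d : ℝ) * (-θ) ≤ (1 - θ) ^ d := by
      rw [sub_eq_add_neg]; exact one_add_mul_le_pow (by linarith) d
    have := hB.vol_pos
    nlinarith
  have hfc : Continuous f := by fun_prop
  obtain ⟨Cf, hCf⟩ := hB.compact.exists_bound_of_continuousOn (hfc.pow 2).continuousOn
  have hfi : Integrable (fun x => f x ^ 2) ρ := hB.integrable (hfc.pow 2).aestronglyMeasurable hCf
  set Q : Fin d → Spc d → ℝ := fun k x => sdiff za ga k u x + sdiff zb gb k u x with hQ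
  set A : Fin d → Spc d → ℝ := fun k x =>
    S.indicator (fun x => f (x + EuclideanSpace.single k u) ^ 2) x with hA
  set bd : Fin d → Spc d → ℝ := fun k x =>
    2 * A k x / u ^ 2 + 2 * f x ^ 2 / u ^ 2 + 4 * R * Q k x / u
      + (K \ S).indicator (fun _ => 4 * R ^ 2) x with hbd
  have hpt : ∀ k, ∀ x ∈ K, (D x k) ^ 2 ≤ bd k x := by
    intro k x hx
    have hQ0 : 0 ≤ Q k x := add_nonneg (sdiff_nonneg _ _ _ _ _) (sdiff_nonneg _ _ _ _ _)
    have hdk : |D x k| ≤ 2 * R := by
      have := (PiLp.norm_apply_le (D x) k).trans (hDb x); rwa [Real.norm_eq_abs] at this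
    simp only [hbd, hA]
    by_cases hxS : x ∈ S
    · rw [Set.indicator_of_mem hxS, Set.indicator_of_notMem (fun h => h.2 hxS), add_zero]
      set a := EuclideanSpace.single k u
      have e := diff_increment za ga zb gb x a
      rw [inner_single] at e
      have b1 := breg_nonneg za ga x a
      have b2 := breg_nonneg zb gb x a
      have b3 := breg_le_sdiff za ga k u x
      have b4 := breg_le_sdiff zb gb k u x
      have s1 := sdiff_nonneg za ga k u x
      have s2 := sdiff_nonneg zb gb k u x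
      set P := |f (x + a) - f x| with hP
      have h1 : u * |D x k| ≤ P + Q k x := by
        have e2 : f (x + a) - f x = u * D x k + breg za ga x a - breg zb gb x a := by
          simp only [hf, hD]; linarith
        have e3 := le_abs_self (f (x + a) - f x)
        have e4 := neg_abs_le (f (x + a) - f x)
        rw [← hP] at e3 e4
        simp only [hQ]
        rcases le_total 0 (D x k) with h | h
        · rw [abs_of_nonneg h]; linarith
        · rw [abs_of_nonpos h]; linarith
      have h2 : P ^ 2 ≤ 2 * f (x + a) ^ 2 + 2 * f x ^ 2 := by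
        rw [hP, sq_abs]; nlinarith [sq_nonneg (f (x + a) + f x)]
      have h3 : u ^ 2 * (D x k) ^ 2 ≤ P ^ 2 + 4 * R * u * Q k x := by
        rw [← sq_abs (D x k)]
        nlinarith [abs_nonneg (D x k), sq_nonneg (u * |D x k| - P),
          mul_le_mul_of_nonneg_left h1 (mul_nonneg hu0.le (abs_nonneg (D x k))),
          mul_le_mul_of_nonneg_left hdk (mul_nonneg hu0.le hQ0)]
      rw [← mul_le_mul_iff_right₀ (pow_pos hu0 2)]
      have : u ^ 2 * (2 * f (x + a) ^ 2 / u ^ 2 + 2 * f x ^ 2 / u ^ 2 + 4 * R * Q k x / u)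
          = 2 * f (x + a) ^ 2 + 2 * f x ^ 2 + 4 * R * u * Q k x := by field_simp
      linarith
    · rw [Set.indicator_of_notMem hxS, Set.indicator_of_mem (show x ∈ K \ S from ⟨hx, hxS⟩)]
      have : (D x k) ^ 2 ≤ 4 * R ^ 2 := by rw [← sq_abs]; nlinarith [abs_nonneg (D x k)]
      have : 0 ≤ 4 * R * Q k x / u := by positivity
      have : 0 ≤ 2 * f x ^ 2 / u ^ 2 := by positivity
      simp only [mul_zero, zero_div]
      linarith
  have hAm : ∀ k, Measurable (A k) := fun k =>
    (by fun_prop : Measurable fun x => f (x + EuclideanSpace.single k u) ^ 2).indicator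
      hScomp.measurableSet
  have hAi : ∀ k, Integrable (A k) ρ := fun k => by
    refine hB.integrable (hAm k).aestronglyMeasurable (C := |Cf|) fun x _ => ?_
    by_cases hxS : x ∈ S
    · simp only [hA, Set.indicator_of_mem hxS]
      exact (hCf _ (hSK x hxS _ (by simp [abs_of_pos hu0]))).trans (le_abs_self _)
    · simp [hA, Set.indicator_of_notMem hxS]
  have hQi : ∀ k, Integrable (Q k) ρ := fun k => by
    obtain ⟨C, hC⟩ := hB.compact.exists_bound_of_continuousOn (f := Q k) (by fun_prop)
    exact hB.integrable (by fun_prop) hC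
  have hKS : MeasurableSet (K \ S) := hB.compact.measurableSet.diff hScomp.measurableSet
  have hbdi : ∀ k, Integrable (bd k) ρ := fun k =>
    (((((hAi k).const_mul 2).div_const _).add ((hfi.const_mul 2).div_const _)).add
      (((hQi k).const_mul (4 * R)).div_const _)).add ((integrable_const _).indicator hKS)
  have hstep : ∀ k, ∫ x, bd k x ∂ρ ≤ (4 + 8 * R * sdC K R + 4 * R ^ 2 * d / r) * u := by
    intro k
    simp only [hbd]
    rw [integral_four_terms (hAi k) hfi (hQi k) hKS]
    have hA' : ∫ x, A k x ∂ρ ≤ t := le_trans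
      (hB.integral_indicator_translate_le (F := fun x => f x ^ 2) (C := Cf)
        (a := EuclideanSpace.single k u) hScomp.measurableSet (hfc.pow 2).measurable
        (fun x hx => hCf x hx) (fun x _ => sq_nonneg _) hSsub
        (fun x hx => hSK x hx _ (by simp [abs_of_pos hu0]))) hL2
    have hQ' : ∫ x, Q k x ∂ρ ≤ 2 * (sdC K R * u ^ 2) := by
      simp only [hQ]
      obtain ⟨C, hC⟩ := hB.compact.exists_bound_of_continuousOn
        (continuous_sdiff za ga k u).continuousOn
      obtain ⟨C', hC'⟩ := hB.compact.exists_bound_of_continuousOn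
        (continuous_sdiff zb gb k u).continuousOn
      rw [integral_add (hB.integrable (continuous_sdiff za ga k u).aestronglyMeasurable hC)
        (hB.integrable (continuous_sdiff zb gb k u).aestronglyMeasurable hC'), two_mul]
      exact add_le_add (integral_sdiff_le za ga hB hza k hu0.le)
        (integral_sdiff_le zb gb hB hzb k hu0.le)
    have t4 : ρ.real (K \ S) ≤ (d : ℝ) / r * u := hcompl.trans (le_of_eq (by rw [hθ]; ring))
    refine (four_terms_le hu0 hu3 hR hA' hL2 hQ' t4).trans (le_of_eq ?_)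
    rw [mul_div_assoc]
  calc ∫ x, ‖D x‖ ^ 2 ∂ρ ≤ ∫ x, ∑ k, bd k x ∂ρ := by
        refine integral_mono_ae hDi (integrable_finsetSum _ fun k _ => hbdi k) ?_
        filter_upwards [hB.ae_mem] with x hx
        rw [EuclideanSpace.norm_sq_eq]
        exact Finset.sum_le_sum fun k _ => by
          rw [Real.norm_eq_abs, sq_abs]; exact hpt k x hx
    _ ≤ ∑ _k : Fin d, (4 + 8 * R * sdC K R + 4 * R ^ 2 * d / r) * u := by
        rw [integral_finsetSum _ fun k _ => hbdi k]; exact Finset.sum_le_sum fun k _ => hstep k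
    _ ≤ _ := by
        rw [Finset.sum_const, Finset.card_univ, Fintype.card_fin, nsmul_eq_mul, interpC]
        have : 0 ≤ 4 * R ^ 2 / r * u := by positivity
        linarith

end Vale.Agent.P074
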