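import Vale.Agent.P074.Interp
import Vale.Agent.P074.CellEstimate

/-! Linear stability of semi-discrete potentials in `L²` along a path of atom positions. -/

open MeasureTheory Filter Set
open scoped ENNReal NNReal RealInnerProductSpace Topology

namespace Vale.Agent.P074

variable {d : ℕ} {I I' : Type*} [Fintype I] [Nonempty I]
variable {K : Set (Spc d)} {R : ℝ}

/-- A truncated conjugate of a potential. -/
noncomputable def conj (z : I → Spc d) (g : I → ℝ) (R : ℝ) (y : Spc d) : ℝ :=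
  sSup ((fun p => ⟪p, y⟫ - phi z g p) '' Metric.closedBall 0 (2 * R))

variable (z : I → Spc d) (g : I → ℝ)

lemma bddAbove_conj (y : Spc d) :
    BddAbove ((fun p => ⟪p, y⟫ - phi z g p) '' Metric.closedBall 0 (2 * R)) :=
  (isCompact_closedBall 0 _).bddAbove_image (by fun_prop)

lemma le_conj {p : Spc d} (hp : ‖p‖ ≤ 2 * R) (y : Spc d) :
    ⟪p, y⟫ - phi z g p ≤ conj z g R y :=
  le_csSup (bddAbove_conj z g y) (Set.mem_image_of_mem _ (by simpa using hp))

lemma conj_le (hR : 0 ≤ R) {y : Spc d} {c : ℝ}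
    (h : ∀ p, ‖p‖ ≤ 2 * R → ⟪p, y⟫ - phi z g p ≤ c) : conj z g R y ≤ c := by
  refine csSup_le ((Metric.nonempty_closedBall.2 (by linarith)).image _) ?_
  rintro _ ⟨p, hp, rfl⟩
  exact h p (by simpa using hp)

lemma conj_apply_le (hR : 0 ≤ R) (i : I) : conj z g R (z i) ≤ g i :=
  conj_le z g hR fun p _ => by
    have := piece_le_phi z g i p
    rw [piece] at this
    linarith

lemma abs_conj_sub_le (hR : 0 ≤ R) (y y' : Spc d) :
    |conj z g R y - conj z g R y'| ≤ 2 * R * ‖y - y'‖ := by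
  have key : ∀ u w, conj z g R u ≤ conj z g R w + 2 * R * ‖u - w‖ := fun u w =>
    conj_le z g hR fun p hp => by
      have h1 := le_conj z g hp w
      have h2 := real_inner_le_norm p (u - w)
      rw [inner_sub_right] at h2
      nlinarith [norm_nonneg (u - w)]
  rw [abs_le]
  have h1 := key y y'
  have h2 := key y' y
  rw [norm_sub_rev] at h2
  constructor <;> linarith

lemma continuous_conj (hR : 0 ≤ R) : Continuous (conj z g R) :=
  (LipschitzWith.of_dist_le_mul (K := ⟨2 * R, by linarith⟩) fun y y' => by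
    rw [Real.dist_eq, dist_eq_norm]; exact abs_conj_sub_le z g hR y y').continuous

/-- Weak duality for a family of cells with prescribed masses. -/
lemma partition_le_dual (hz : Function.Injective z) {ν : Measure (Spc d)} [IsFiniteMeasure ν]
    (hν : ν ≪ volume) (hsupp : ∀ᵐ x ∂ν, ‖x‖ ≤ R) {m : I → ℝ}
    (hm : ∀ i, ν.real (cell z g i) = m i) (z' : I → Spc d) (g' : I → ℝ) (hz' : ∀ i, ‖z' i‖ ≤ R) :
    ∑ i, ∫ x in cell z g i, ⟪x, z' i⟫ ∂ν ≤ dual z' g' ν m := by
  have hi : ∀ i, Integrable (fun x => ⟪x, z' i⟫) ν := fun i =>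
    integrable_of_bound_on (by fun_prop) (C := R ^ 2) (by
      filter_upwards [hsupp] with x hx
      simpa using abs_piece_le z' hz' hx i)
  have hphi := integrable_phi z' g' hz' hsupp
  have h1 : ∑ i, ∫ x in cell z g i, (phi z' g' x + g' i) ∂ν = dual z' g' ν m := by
    rw [← integral_sel z g hz hν (fun i x => phi z' g' x + g' i)
      fun i => hphi.add (integrable_const _)]
    have h2 := integral_sel z g hz hν (fun i _ => g' i) fun i => integrable_const _
    simp only [setIntegral_const, hm, smul_eq_mul] at h2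
    rw [dual, ← h2]
    refine integral_add hphi ?_
    letI : MeasurableSpace I := ⊤
    have : MeasurableSingletonClass I := ⟨fun _ => trivial⟩
    obtain ⟨C, hC⟩ := (Finite.bddAbove_range fun i => |g' i|)
    exact Integrable.of_bound ((measurable_from_top : Measurable g').comp
      (measurable_sel z g)).aestronglyMeasurable C
      (Eventually.of_forall fun x => hC (Set.mem_range_self (sel z g x)))
  rw [← h1]
  refine Finset.sum_le_sum fun i _ => setIntegral_mono (hi i).integrableOn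
    (hphi.add (integrable_const _)).integrableOn fun x => ?_
  have := piece_le_phi z' g' i x
  rw [piece] at this
  linarith

/-- Coefficient of the squared displacement. -/
noncomputable def linA (R : ℝ) : ℝ := 1000 * R ^ 2

/-- Coefficient of the square root of the perturbation size. -/
noncomputable def linC (K : Set (Spc d)) (R : ℝ) : ℝ :=
  2 * (4 * R ^ 2) * (2 * R * 2 ^ d * gapC K R) * Real.sqrt (32 * R ^ 4)

lemma abs_diff_sub_mean_le (hB : Body K R) (za : I → Spc d) (ga : I → ℝ) (zb : I → Spc d)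
    (gb : I → ℝ) (hza : ∀ i, ‖za i‖ ≤ R) (hzb : ∀ i, ‖zb i‖ ≤ R) {x : Spc d} (hx : x ∈ K) :
    |(phi za ga x - phi zb gb x)
      - ∫ x', (phi za ga x' - phi zb gb x') ∂uniformOn K| ≤ 4 * R ^ 2 := by
  have := hB.isProb
  have hfi : Integrable (fun x => phi za ga x - phi zb gb x) (uniformOn K) :=
    (integrable_phi za ga hza hB.ae_norm_le).sub (integrable_phi zb gb hzb hB.ae_norm_le)
  rw [show (phi za ga x - phi zb gb x) - ∫ x', (phi za ga x' - phi zb gb x') ∂uniformOn K
      = ∫ x', ((phi za ga x - phi zb gb x) - (phi za ga x' - phi zb gb x')) ∂uniformOn K by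
    rw [integral_sub (integrable_const _) hfi]; simp]
  rw [← Real.norm_eq_abs]
  refine (norm_integral_le_of_norm_le_const (μ := uniformOn K) (C := 4 * R ^ 2) ?_).trans ?_
  swap
  · simp
  filter_upwards [hB.ae_mem] with x' hx'
  have h1 := abs_phi_sub_le za ga hza x x'
  have h2 := abs_phi_sub_le zb gb hzb x x'
  have h3 : ‖x - x'‖ ≤ 2 * R :=
    (norm_sub_le _ _).trans (by linarith [hB.norm_le hx, hB.norm_le hx'])
  have h4 := mul_le_mul_of_nonneg_left h3 hB.nonneg
  rw [abs_le] at h1 h2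
  rw [Real.norm_eq_abs, abs_le]
  constructor <;> nlinarith

/-- Linear stability of potentials along a path of atom positions. -/
theorem linear_stability (hB : Body K R) (z₀ z₁ : I → Spc d) (N : ℕ) (hN : 0 < N)
    (hinj : ∀ k ≤ N, Function.Injective fun i => z₀ i + ((k : ℝ) / N) • (z₁ i - z₀ i))
    (hbd : ∀ k ≤ N, ∀ i, ‖z₀ i + ((k : ℝ) / N) • (z₁ i - z₀ i)‖ ≤ R)
    (m : I → ℝ) (hm : ∀ i, 0 < m i) (hm1 : ∑ i, m i = 1) (ε : ℝ)
    (hW : ∀ k ≤ N, ∀ g : I → ℝ,
      (∀ i, ∃ x ∈ cell (fun i => z₀ i + ((k : ℝ) / N) • (z₁ i - z₀ i)) g i, x ∈ K) →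
      ∃ W : I → ℝ, (∀ i, ∀ x ∈ cell (fun i => z₀ i + ((k : ℝ) / N) • (z₁ i - z₀ i)) g i, x ∈ K →
        ∀ y ∈ cell (fun i => z₀ i + ((k : ℝ) / N) • (z₁ i - z₀ i)) g i, y ∈ K → ‖x - y‖ ≤ W i) ∧
        ∑ i, m i * W i ≤ ε)
    {s : ℝ} (hs : 0 < s) (hs' : s ≤ 1 / (8 * R ^ 2)) :
    ∃ g₀ g₁ : I → ℝ, (∀ i, (uniformOn K).real (cell z₀ g₀ i) = m i) ∧
      (∀ i, (uniformOn K).real (cell z₁ g₁ i) = m i) ∧
      ∫ x, (phi z₁ g₁ x - phi z₀ g₀ x
          - ∫ x', (phi z₁ g₁ x' - phi z₀ g₀ x') ∂uniformOn K) ^ 2 ∂uniformOn K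
        ≤ linA R * (∑ i, m i * ‖z₁ i - z₀ i‖ ^ 2) + 200 * R * ε / (linA R * s ^ 2)
          + 8 * R ^ 2 / (N * s) + linC K R * Real.sqrt s := by
  have := hB.isProb
  set ρ := uniformOn K
  have hR := hB.nonneg
  have hR1 := hB.one_le
  set Z : ℕ → I → Spc d := fun k i => z₀ i + ((k : ℝ) / N) • (z₁ i - z₀ i) with hZ
  have hNR : (0 : ℝ) < N := by exact_mod_cast hN
  have hZ0 : Z 0 = z₀ := by funext i; simp [hZ]
  have hZN : Z N = z₁ := by funext i; simp [hZ, div_self hNR.ne']
  have hex : ∀ k, ∃ g : I → ℝ, k ≤ N → ∀ i, ρ.real (cell (Z k) g i) = m i := by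
    intro k
    by_cases hk : k ≤ N
    · obtain ⟨g, hg⟩ := exists_weights (Z k) (hinj k hk) (hbd k hk) ρ hB.ac hB.ae_norm_le m hm hm1
      exact ⟨g, fun _ => hg⟩
    · exact ⟨0, fun h => absurd h hk⟩
  choose G₀ hG₀ using hex
  refine ⟨G₀ 0, G₀ N, fun i => hZ0 ▸ hG₀ 0 (Nat.zero_le _) i, fun i => hZN ▸ hG₀ N le_rfl i, ?_⟩
  -- the perturbation
  set f : Spc d → ℝ := fun x => phi z₁ (G₀ N) x - phi z₀ (G₀ 0) x with hf
  set h : Spc d → ℝ := fun x => f x - ∫ x', f x' ∂ρ with hh
  show ∫ x, h x ^ 2 ∂ρ ≤ _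
  have hbN : ∀ i, ‖z₁ i‖ ≤ R := fun i => hZN ▸ hbd N le_rfl i
  have hb0 : ∀ i, ‖z₀ i‖ ≤ R := fun i => hZ0 ▸ hbd 0 (Nat.zero_le _) i
  have hhb : ∀ x ∈ K, |h x| ≤ 4 * R ^ 2 := fun x hx =>
    abs_diff_sub_mean_le hB z₁ (G₀ N) z₀ (G₀ 0) hbN hb0 hx
  have hfi : Integrable f ρ :=
    (integrable_phi z₁ _ hbN hB.ae_norm_le).sub (integrable_phi z₀ _ hb0 hB.ae_norm_le)
  have hhc : Continuous h := by fun_prop
  have cint : ∀ {F : Spc d → ℝ}, Continuous F → Integrable F ρ := fun {F} hF => by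
    obtain ⟨C, hC⟩ := hB.compact.exists_bound_of_continuousOn hF.continuousOn
    exact hB.integrable hF.aestronglyMeasurable hC
  have hh0 : ∫ x, h x ∂ρ = 0 := by
    simp only [hh]; rw [integral_sub hfi (integrable_const _)]; simp
  set p : Spc d → ℝ := fun x => 1 + s * h x with hp
  have hsh : ∀ x ∈ K, |s * h x| ≤ 1 / 2 := by
    intro x hx
    rw [abs_mul, abs_of_pos hs]
    calc s * |h x| ≤ 1 / (8 * R ^ 2) * (4 * R ^ 2) :=
          mul_le_mul hs' (hhb x hx) (abs_nonneg _) (by positivity)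
      _ = 1 / 2 := by field_simp; norm_num
  have hp12 : ∀ x ∈ K, 1 / 2 ≤ p x := fun x hx => by
    have := (abs_le.1 (hsh x hx)).1; simp only [hp]; linarith
  have hpc : Continuous p := by fun_prop
  set ν := ρ.withDensity fun x => ENNReal.ofReal (p x) with hν
  have hν1 : IsProbabilityMeasure ν := by
    refine ⟨?_⟩
    rw [hν, withDensity_apply _ MeasurableSet.univ, Measure.restrict_univ,
      ← ofReal_integral_eq_lintegral_ofReal (cint hpc)
        (hB.ae_mem.mono fun x hx => le_trans (by norm_num) (hp12 x hx))]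
    simp only [hp]
    rw [integral_add (integrable_const _) ((cint hhc).const_mul s), integral_const_mul, hh0]
    simp
  have hνρ : ν ≪ ρ := withDensity_absolutelyContinuous _ _
  have hνac : ν ≪ volume := hνρ.trans hB.ac
  have hνsupp : ∀ᵐ x ∂ν, ‖x‖ ≤ R := hνρ.ae_le hB.ae_norm_le
  have conv : ∀ (U : Set (Spc d)) (F : Spc d → ℝ), MeasurableSet U →
      ∫ x in U, F x ∂ν = ∫ x in U, p x * F x ∂ρ := by
    intro U F hU
    rw [hν, setIntegral_withDensity_eq_setIntegral_toReal_smul (by fun_prop)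
      (Eventually.of_forall fun _ => ENNReal.ofReal_lt_top) _ hU]
    refine setIntegral_congr_ae hU ?_
    filter_upwards [hB.ae_mem] with x hx _
    rw [ENNReal.toReal_ofReal (le_trans (by norm_num) (hp12 x hx)), smul_eq_mul]
  have convint : ∀ (F : Spc d → ℝ), ∫ x, F x ∂ν = ∫ x, p x * F x ∂ρ := fun F => by
    simpa using conv Set.univ F MeasurableSet.univ
  have hexs : ∀ k, ∃ g : I → ℝ, k ≤ N → ∀ i, ν.real (cell (Z k) g i) = m i := by
    intro k
    by_cases hk : k ≤ N
    · obtain ⟨g, hg⟩ := exists_weights (Z k) (hinj k hk) (hbd k hk) ν hνac hνsupp m hm hm1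
      exact ⟨g, fun _ => hg⟩
    · exact ⟨0, fun h => absurd h hk⟩
  choose Gs hGs using hexs
  set b₀ : ℕ → I → Spc d := fun k => moment K (fun _ => (1 : ℝ)) (Z k) (G₀ k) with hb₀
  set bs : ℕ → I → Spc d := fun k => moment K p (Z k) (Gs k) with hbs
  have mom : ∀ (q : Spc d → ℝ) (U : Set (Spc d)) (w : Spc d), Continuous q →
      ∫ x in U, q x * ⟪x, w⟫ ∂ρ = ⟪w, ∫ x in U, q x • x ∂ρ⟫ := by
    intro q U w hq
    obtain ⟨C, hC⟩ := hB.compact.exists_bound_of_continuousOn
      (show ContinuousOn (fun x => q x • x) K from (hq.smul continuous_id).continuousOn)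
    have := (innerSL ℝ w).integral_comp_comm
      ((hB.integrable (by fun_prop) hC).integrableOn : IntegrableOn (fun x => q x • x) U ρ)
    simpa [inner_smul_right, real_inner_comm w] using this
  have e0 : ∀ k (w : I → Spc d), ∑ i, ∫ x in cell (Z k) (G₀ k) i, ⟪x, w i⟫ ∂ρ
      = ∑ i, ⟪w i, b₀ k i⟫ := by
    intro k w
    refine Finset.sum_congr rfl fun i _ => ?_
    simpa [hb₀, moment] using mom (fun _ => 1) (cell (Z k) (G₀ k) i) (w i) continuous_const
  have es : ∀ k (w : I → Spc d), ∑ i, ∫ x in cell (Z k) (Gs k) i, ⟪x, w i⟫ ∂ν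
      = ∑ i, ⟪w i, bs k i⟫ := by
    intro k w
    refine Finset.sum_congr rfl fun i _ => ?_
    rw [conv _ _ (measurableSet_cell _ _ i)]
    exact mom p (cell (Z k) (Gs k) i) (w i) hpc
  set D : ℕ → ℝ := fun k => ∑ i, ⟪Z k i, bs k i⟫ - ∑ i, ⟪Z k i, b₀ k i⟫ with hD
  set Δ : I → Spc d := fun i => (N : ℝ)⁻¹ • (z₁ i - z₀ i) with hΔ
  have hZs : ∀ k i, Z (k + 1) i = Z k i + Δ i := by
    intro k i
    simp only [hZ, hΔ, Nat.cast_add, Nat.cast_one, add_div, add_smul, one_div]
    abel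
  have Vs : ∀ k ≤ N, ∀ g' : I → ℝ, ∑ i, ⟪Z k i, bs k i⟫ ≤ dual (Z k) g' ν m := fun k hk g' => by
    rw [← es k (Z k)]
    exact partition_le_dual (Z k) (Gs k) (hinj k hk) hνac hνsupp (hGs k hk) (Z k) g' (hbd k hk)
  have V0 : ∀ k ≤ N, ∀ g' : I → ℝ, ∑ i, ⟪Z k i, b₀ k i⟫ ≤ dual (Z k) g' ρ m := fun k hk g' => by
    rw [← e0 k (Z k)]
    exact partition_le_dual (Z k) (G₀ k) (hinj k hk) hB.ac hB.ae_norm_le (hG₀ k hk) (Z k) g'
      (hbd k hk)
  have Vseq : ∀ k ≤ N, dual (Z k) (Gs k) ν m = ∑ i, ⟪Z k i, bs k i⟫ := fun k hk => by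
    rw [← es k (Z k)]
    exact dual_eq_value (Z k) (Gs k) (hinj k hk) hνac hνsupp (hGs k hk) (hbd k hk)
  have V0eq : ∀ k ≤ N, dual (Z k) (G₀ k) ρ m = ∑ i, ⟪Z k i, b₀ k i⟫ := fun k hk => by
    rw [← e0 k (Z k)]
    exact dual_eq_value (Z k) (G₀ k) (hinj k hk) hB.ac hB.ae_norm_le (hG₀ k hk) (hbd k hk)
  have hdual : ∀ (w : I → Spc d) (g' : I → ℝ), (∀ i, ‖w i‖ ≤ R) →
      dual w g' ν m = dual w g' ρ m + s * ∫ x, h x * phi w g' x ∂ρ := by
    intro w g' hw
    have hi1 : Integrable (phi w g') ρ := cint (by fun_prop)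
    have hi2 : Integrable (fun x => s * (h x * phi w g' x)) ρ := cint (by fun_prop)
    simp only [dual, convint]
    rw [show (fun x => p x * phi w g' x) = fun x => phi w g' x + s * (h x * phi w g' x) from
      funext fun x => by simp only [hp]; ring,
      integral_add hi1 hi2, integral_const_mul]
    ring
  -- one step
  have hcs : ∀ k ≤ N, ∑ i, ⟪z₁ i - z₀ i, bs k i - b₀ k i⟫
      ≤ linA R * s / 2 * (∑ i, m i * ‖z₁ i - z₀ i‖ ^ 2) + s / 2 * (∫ x, h x ^ 2 ∂ρ)
        + 100 * R * ε / (linA R * s) := by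
    intro k hk
    have hne : ∀ (μ : Measure (Spc d)) (U : Set (Spc d)) (i : I), (∀ᵐ x ∂μ, x ∈ K) →
        μ.real U = m i → ∃ x ∈ U, x ∈ K := by
      intro μ U i hμ hU
      by_contra hcon
      have : μ U = 0 := measure_mono_null
        (show U ⊆ {x | ¬ x ∈ K} from fun x hx hxK => hcon ⟨x, hx, hxK⟩) (ae_iff.1 hμ)
      rw [measureReal_def, this] at hU
      simpa using (hm i).trans_eq hU.symm
    obtain ⟨W₀, hW₀, hW₀ε⟩ := hW k hk (G₀ k) fun i => hne ρ _ i hB.ae_mem (hG₀ k hk i)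
    obtain ⟨W₁, hW₁, hW₁ε⟩ := hW k hk (Gs k) fun i => hne ν _ i (hνρ.ae_le hB.ae_mem) (hGs k hk i)
    have est := cell_estimate hB (Z k) (hinj k hk) (G₀ k) (Gs k) hhc hsh m hm
      (fun i => by simpa [measureReal_def] using hG₀ k hk i)
      (fun i => by
        have := conv (cell (Z k) (Gs k) i) (fun _ => 1) (measurableSet_cell _ _ i)
        simp only [mul_one, setIntegral_const, smul_eq_mul] at this
        rw [← hGs k hk i, this]) W₀ W₁ hW₀ hW₁
    set θ := linA R * s with hθ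
    have hθ0 : 0 < θ := by rw [hθ, linA]; positivity
    have hpt : ∀ i, ⟪z₁ i - z₀ i, bs k i - b₀ k i⟫ ≤ θ / 2 * (m i * ‖z₁ i - z₀ i‖ ^ 2)
        + (m i * ‖(m i)⁻¹ • bs k i - (m i)⁻¹ • b₀ k i‖ ^ 2) / (2 * θ) := by
      intro i
      have e : bs k i - b₀ k i = m i • ((m i)⁻¹ • bs k i - (m i)⁻¹ • b₀ k i) := by
        rw [smul_sub, smul_inv_smul₀ (hm i).ne', smul_inv_smul₀ (hm i).ne']
      conv_lhs => rw [e, inner_smul_right]
      set u := ‖z₁ i - z₀ i‖
      set v := ‖(m i)⁻¹ • bs k i - (m i)⁻¹ • b₀ k i‖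
      refine (mul_le_mul_of_nonneg_left (real_inner_le_norm _ _) (hm i).le).trans ?_
      rw [← sub_nonneg]
      have e2 : θ / 2 * (m i * u ^ 2) + m i * v ^ 2 / (2 * θ) - m i * (u * v)
          = m i * (θ * u - v) ^ 2 / (2 * θ) := by field_simp; ring
      rw [e2]
      have := hm i
      positivity
    refine (Finset.sum_le_sum fun i _ => hpt i).trans ?_
    rw [Finset.sum_add_distrib, ← Finset.mul_sum, ← Finset.sum_div, add_assoc]
    refine add_le_add le_rfl ?_
    rw [div_le_iff₀ (by positivity)]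
    refine est.trans ?_
    have hsum : ∑ i, m i * (W₀ i + W₁ i) ≤ 2 * ε := by
      simp only [mul_add, Finset.sum_add_distrib]; linarith
    have e3 : (s / 2 * (∫ x, h x ^ 2 ∂ρ) + 100 * R * ε / θ) * (2 * θ)
        = linA R * s ^ 2 * (∫ x, h x ^ 2 ∂ρ) + 200 * R * ε := by
      field_simp; rw [hθ]; ring
    rw [e3, linA]
    nlinarith
  set T := linA R * s / 2 * (∑ i, m i * ‖z₁ i - z₀ i‖ ^ 2) + s / 2 * (∫ x, h x ^ 2 ∂ρ)
    + 100 * R * ε / (linA R * s) with hT
  have hstep : ∀ k < N, D (k + 1) - D k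
      ≤ T / N + (∑ i, ⟪Δ i, b₀ (k + 1) i⟫ - ∑ i, ⟪Δ i, b₀ k i⟫) := by
    intro k hk
    have h1 : ∑ i, ⟪Z k i, bs (k + 1) i⟫ ≤ ∑ i, ⟪Z k i, bs k i⟫ := by
      rw [← Vseq k hk.le, ← es (k + 1) (Z k)]
      exact partition_le_dual (Z (k + 1)) (Gs (k + 1)) (hinj _ hk) hνac hνsupp (hGs _ hk) (Z k)
        (Gs k) (hbd k hk.le)
    have h2 : ∑ i, ⟪Z (k + 1) i, b₀ k i⟫ ≤ ∑ i, ⟪Z (k + 1) i, b₀ (k + 1) i⟫ := by
      rw [← V0eq (k + 1) hk, ← e0 k (Z (k + 1))]
      exact partition_le_dual (Z k) (G₀ k) (hinj _ hk.le) hB.ac hB.ae_norm_le (hG₀ _ hk.le)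
        (Z (k + 1)) (G₀ (k + 1)) (hbd _ hk)
    have h3 : (∑ i, ⟪Δ i, bs (k + 1) i - b₀ (k + 1) i⟫) ≤ T / N := by
      have e : ∑ i, ⟪Δ i, bs (k + 1) i - b₀ (k + 1) i⟫
          = (N : ℝ)⁻¹ * ∑ i, ⟪z₁ i - z₀ i, bs (k + 1) i - b₀ (k + 1) i⟫ := by
        simp [hΔ, real_inner_smul_left, Finset.mul_sum]
      rw [e, inv_mul_eq_div]
      exact (div_le_div_iff_of_pos_right hNR).2 (hcs _ hk)
    simp only [hD, hZs, inner_add_left, Finset.sum_add_distrib, inner_sub_right,
      Finset.sum_sub_distrib] at *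
    linarith
  have hup : D N - D 0 ≤ T + (∑ i, ⟪Δ i, b₀ N i⟫ - ∑ i, ⟪Δ i, b₀ 0 i⟫) := by
    rw [← Finset.sum_range_sub D N, ← Finset.sum_range_sub (fun k => ∑ i, ⟪Δ i, b₀ k i⟫) N]
    refine (Finset.sum_le_sum fun k hk => hstep k (Finset.mem_range.1 hk)).trans ?_
    rw [Finset.sum_add_distrib, Finset.sum_const, Finset.card_range, nsmul_eq_mul,
      mul_div_cancel₀ _ hNR.ne']
  have hbnd : ∀ k ≤ N, ∀ i, ‖b₀ k i‖ ≤ m i * R := by
    intro k hk i
    have := norm_bary_le hB (measurableSet_cell (Z k) (G₀ k) i) (p := fun _ => 1) continuous_const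
      (fun _ _ => zero_le_one) (hm i) (by simpa [measureReal_def] using hG₀ k hk i)
    rw [norm_smul, Real.norm_eq_abs, abs_of_pos (inv_pos.2 (hm i)),
      inv_mul_le_iff₀ (hm i)] at this
    exact this
  have htail : (∑ i, ⟪Δ i, b₀ N i⟫ - ∑ i, ⟪Δ i, b₀ 0 i⟫) ≤ 4 * R ^ 2 / N := by
    rw [← Finset.sum_sub_distrib]
    refine le_trans (Finset.sum_le_sum (g := fun i => m i * (4 * R ^ 2 / N)) fun i _ => ?_)
      (by rw [← Finset.sum_mul, hm1, one_mul])
    rw [← inner_sub_right]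
    refine (real_inner_le_norm _ _).trans ?_
    have h1 : ‖Δ i‖ ≤ 2 * R / N := by
      rw [hΔ, norm_smul, Real.norm_eq_abs, abs_of_pos (inv_pos.2 hNR), inv_mul_eq_div]
      exact (div_le_div_iff_of_pos_right hNR).2
        ((norm_sub_le _ _).trans (by linarith [hbN i, hb0 i]))
    have h2 : ‖b₀ N i - b₀ 0 i‖ ≤ 2 * (m i * R) := (norm_sub_le _ _).trans
      (by linarith [hbnd N le_rfl i, hbnd 0 (Nat.zero_le _) i])
    calc ‖Δ i‖ * ‖b₀ N i - b₀ 0 i‖ ≤ 2 * R / N * (2 * (m i * R)) :=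
          mul_le_mul h1 h2 (norm_nonneg _) (by positivity)
      _ = _ := by ring
  -- ends
  have hDN : s * ∫ x, h x * phi z₁ (Gs N) x ∂ρ ≤ D N := by
    have h1 := V0 N le_rfl (Gs N)
    have h2 := Vseq N le_rfl
    rw [hdual (Z N) (Gs N) (hbd N le_rfl)] at h2
    simp only [hD, ← hZN] at *
    linarith
  have hD0 : D 0 ≤ s * ∫ x, h x * phi z₀ (G₀ 0) x ∂ρ := by
    have h1 := Vs 0 (Nat.zero_le _) (G₀ 0)
    rw [hdual (Z 0) (G₀ 0) (hbd 0 (Nat.zero_le _))] at h1
    have h2 := V0eq 0 (Nat.zero_le _)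
    simp only [hD, ← hZ0] at *
    linarith
  -- the error of replacing the perturbed potential
  set φN := phi z₁ (G₀ N) with hφN
  set φs := phi z₁ (Gs N) with hφs
  set u : Spc d → ℝ := fun x => φN x - φs x with hu
  have hui : Integrable u ρ :=
    (integrable_phi z₁ _ hbN hB.ae_norm_le).sub (integrable_phi z₁ _ hbN hB.ae_norm_le)
  set cu := ∫ x, u x ∂ρ
  have hub : ∀ x ∈ K, |u x - cu| ≤ 4 * R ^ 2 := fun x hx =>
    abs_diff_sub_mean_le hB z₁ (G₀ N) z₁ (Gs N) hbN hbN hx
  have hM1 : |∫ x, h x * u x ∂ρ| ≤ 4 * R ^ 2 * ∫ x, |u x - cu| ∂ρ := by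
    have e : ∫ x, h x * u x ∂ρ = ∫ x, h x * (u x - cu) ∂ρ := by
      simp only [mul_sub]
      rw [integral_sub (cint (by fun_prop)) (cint (by fun_prop)), integral_mul_const, hh0]
      simp
    rw [e, ← integral_const_mul]
    rw [← Real.norm_eq_abs]
    refine norm_integral_le_of_norm_le
      ((cint (show Continuous fun x => |u x - cu| by fun_prop)).const_mul _) ?_
    filter_upwards [hB.ae_mem] with x hx
    rw [Real.norm_eq_abs, abs_mul]
    exact mul_le_mul_of_nonneg_right (hhb x hx) (abs_nonneg _)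
  have hM2 : |∫ x, h x * u x ∂ρ| ≤ 16 * R ^ 4 := by
    refine hM1.trans ?_
    calc 4 * R ^ 2 * ∫ x, |u x - cu| ∂ρ ≤ 4 * R ^ 2 * ∫ _, 4 * R ^ 2 ∂ρ := by
          refine mul_le_mul_of_nonneg_left (integral_mono_ae (cint (by fun_prop))
            (integrable_const _) (hB.ae_mem.mono fun x hx => hub x hx)) (by positivity)
      _ = _ := by simp; ring
  have hgrad : ∫ x, ‖gradMap z₁ (Gs N) x - gradMap z₁ (G₀ N) x‖ ∂ρ
      ≤ gapC K R * Real.sqrt (32 * R ^ 4 * s) := by
    have hcc := continuous_conj z₁ (G₀ N) hR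
    have hGT : Measurable fun x => conj z₁ (G₀ N) R (gradMap z₁ (Gs N) x) :=
      hcc.measurable.comp (measurable_gradMap _ _)
    set B : Spc d → ℝ := fun x =>
      φN x + conj z₁ (G₀ N) R (gradMap z₁ (Gs N) x) - ⟪x, gradMap z₁ (Gs N) x⟫
    have hBi : Integrable B ρ := by
      obtain ⟨C, hC⟩ := hB.compact.exists_bound_of_continuousOn
        (continuous_phi z₁ (G₀ N)).continuousOn
      obtain ⟨C', hC'⟩ := (isCompact_closedBall (0 : Spc d) R).exists_bound_of_continuousOn
        hcc.continuousOn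
      refine hB.integrable ((((continuous_phi _ _).measurable.add hGT).sub
        (show Measurable fun x => ⟪x, gradMap z₁ (Gs N) x⟫ by fun_prop)).aestronglyMeasurable) (C := C + C' + R * R) fun x hx => ?_
      refine (norm_sub_le _ _).trans (add_le_add ((norm_add_le _ _).trans
        (add_le_add (hC x hx) (hC' _ (by simpa using norm_gradMap_le z₁ (Gs N) hbN x)))) ?_)
      exact (abs_real_inner_le_norm _ _).trans (mul_le_mul (hB.norm_le hx)
        (norm_gradMap_le z₁ (Gs N) hbN x) (norm_nonneg _) hR)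
    have hB0 : ∀ x ∈ K, 0 ≤ B x := fun x hx => by
      have := le_conj z₁ (G₀ N) (show ‖x‖ ≤ 2 * R by linarith [hB.norm_le hx])
        (gradMap z₁ (Gs N) x)
      simp only [B, hφN]
      linarith
    refine integral_norm_sub_le hB z₁ (G₀ N) hbN (measurable_gradMap _ _)
      (Eventually.of_forall fun x => norm_gradMap_le z₁ (Gs N) hbN x)
      (fun q y hq _ => le_conj z₁ (G₀ N) hq y) hBi (by positivity) ?_
    have hpB : Integrable (fun x => p x * B x) ρ := by
      obtain ⟨C, hC⟩ := hB.compact.exists_bound_of_continuousOn hpc.continuousOn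
      exact hBi.bdd_mul (c := C) hpc.aestronglyMeasurable (hB.ae_mem.mono hC)
    calc ∫ x, B x ∂ρ ≤ 2 * ∫ x, p x * B x ∂ρ := by
          rw [← integral_const_mul]
          refine integral_mono_ae hBi (hpB.const_mul 2) ?_
          filter_upwards [hB.ae_mem] with x hx
          nlinarith [hB0 x hx, hp12 x hx]
      _ ≤ 2 * ∫ x, (φN x + G₀ N (sel z₁ (Gs N) x)
            - ⟪x, z₁ (sel z₁ (Gs N) x)⟫) ∂ν := by
          rw [← convint B]
          refine mul_le_mul_of_nonneg_left (integral_mono ?_ ?_ fun x => ?_) zero_le_two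
          · obtain ⟨C, hC⟩ := hB.compact.exists_bound_of_continuousOn
              (continuous_phi z₁ (G₀ N)).continuousOn
            obtain ⟨C', hC'⟩ := (isCompact_closedBall (0 : Spc d) R).exists_bound_of_continuousOn
              hcc.continuousOn
            refine Integrable.of_bound ((((continuous_phi _ _).measurable.add hGT).sub
              (show Measurable fun x => ⟪x, gradMap z₁ (Gs N) x⟫ by fun_prop)).aestronglyMeasurable) (C + C' + R * R) ?_
            filter_upwards [hνρ.ae_le hB.ae_mem] with x hx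
            refine (norm_sub_le _ _).trans (add_le_add ((norm_add_le _ _).trans
              (add_le_add (hC x hx) (hC' _ (by simpa using norm_gradMap_le z₁ (Gs N) hbN x)))) ?_)
            exact (abs_real_inner_le_norm _ _).trans (mul_le_mul (hB.norm_le hx)
              (norm_gradMap_le z₁ (Gs N) hbN x) (norm_nonneg _) hR)
          · letI : MeasurableSpace I := ⊤
            have : MeasurableSingletonClass I := ⟨fun _ => trivial⟩
            obtain ⟨C, hC⟩ := hB.compact.exists_bound_of_continuousOn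
              (continuous_phi z₁ (G₀ N)).continuousOn
            obtain ⟨C', hC'⟩ := Finite.bddAbove_range fun i => |G₀ N i|
            refine Integrable.of_bound ((((continuous_phi _ _).measurable.add
              ((measurable_from_top : Measurable (G₀ N)).comp (measurable_sel z₁ (Gs N)))).sub
              (show Measurable fun x => ⟪x, gradMap z₁ (Gs N) x⟫ by fun_prop)).aestronglyMeasurable)
              (C + C' + R * R) ?_
            filter_upwards [hνρ.ae_le hB.ae_mem] with x hx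
            refine (norm_sub_le _ _).trans (add_le_add ((norm_add_le _ _).trans
              (add_le_add (hC x hx) (hC' (Set.mem_range_self _)))) ?_)
            exact (abs_real_inner_le_norm _ _).trans (mul_le_mul (hB.norm_le hx)
              (norm_gradMap_le z₁ (Gs N) hbN x) (norm_nonneg _) hR)
          · have := conj_apply_le z₁ (G₀ N) hR (sel z₁ (Gs N) x)
            simp only [B, gradMap] at *
            linarith
      _ = 2 * (dual (Z N) (G₀ N) ν m - dual (Z N) (Gs N) ν m) := by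
          have hiN : ∀ i, Integrable (fun x => φN x + G₀ N i - ⟪x, z₁ i⟫) ν := fun i =>
            ((integrable_phi z₁ _ hbN hνsupp).add (integrable_const _)).sub
              (integrable_of_bound_on (by fun_prop) (C := R ^ 2) (by
                filter_upwards [hνsupp] with x hx
                simpa using abs_piece_le z₁ hbN hx i))
          rw [Vseq N le_rfl, ← es N (Z N)]
          simp only [hZN]
          rw [integral_sel z₁ (Gs N) (hZN ▸ hinj N le_rfl) hνac
              (fun i x => φN x + G₀ N i - ⟪x, z₁ i⟫) hiN, dual,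
            integral_sel z₁ (Gs N) (hZN ▸ hinj N le_rfl) hνac (fun _ x => phi z₁ (G₀ N) x)
              fun _ => integrable_phi z₁ _ hbN hνsupp,
            ← Finset.sum_add_distrib, ← Finset.sum_sub_distrib]
          congr 1
          refine Finset.sum_congr rfl fun i _ => ?_
          have hmi : ν.real (cell z₁ (Gs N) i) = m i := hZN ▸ hGs N le_rfl i
          have hI : Integrable (fun x => ⟪x, z₁ i⟫) ν :=
            integrable_of_bound_on (by fun_prop) (C := R ^ 2) (by
              filter_upwards [hνsupp] with x hx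
              simpa using abs_piece_le z₁ hbN hx i)
          rw [integral_sub ((integrable_phi z₁ _ hbN hνsupp).fun_add (integrable_const _)).integrableOn
              hI.integrableOn,
            integral_add (integrable_phi z₁ _ hbN hνsupp).integrableOn
              (integrable_const _).integrableOn, setIntegral_const, hmi, smul_eq_mul]
      _ ≤ 2 * (s * |∫ x, h x * u x ∂ρ|) := by
          refine mul_le_mul_of_nonneg_left ?_ zero_le_two
          have h1 := V0eq N le_rfl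
          have h2 := V0 N le_rfl (Gs N)
          rw [hdual (Z N) (G₀ N) (hbd N le_rfl), hdual (Z N) (Gs N) (hbd N le_rfl)]
          have e : ∫ x, h x * u x ∂ρ = (∫ x, h x * phi z₁ (G₀ N) x ∂ρ)
              - ∫ x, h x * phi z₁ (Gs N) x ∂ρ := by
            simp only [hu, mul_sub, hφN, hφs]
            exact integral_sub (cint (by fun_prop)) (cint (by fun_prop))
          have := mul_le_mul_of_nonneg_left (le_abs_self (∫ x, h x * u x ∂ρ)) hs.le
          rw [e, mul_sub] at this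
          simp only [hZN] at *
          rw [e]
          linarith
      _ ≤ 32 * R ^ 4 * s := by
          have := mul_le_mul_of_nonneg_left hM2 hs.le
          linarith
  have hM : |∫ x, h x * u x ∂ρ| ≤ linC K R / 2 * Real.sqrt s := by
    refine hM1.trans ?_
    have hP := poincare z₁ (G₀ N) z₁ (Gs N) hB hbN hbN
    simp only [norm_sub_rev (gradMap z₁ (G₀ N) _)] at hP
    refine le_trans (mul_le_mul_of_nonneg_left (hP.trans
      (mul_le_mul_of_nonneg_left hgrad (by positivity))) (by positivity)) (le_of_eq ?_)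
    rw [linC, Real.sqrt_mul (by positivity)]
    ring
  have hq : ∫ x, h x ^ 2 ∂ρ
      = (∫ x, h x * phi z₁ (G₀ N) x ∂ρ) - ∫ x, h x * phi z₀ (G₀ 0) x ∂ρ := by
    rw [← integral_sub (cint (by fun_prop)) (cint (by fun_prop))]
    have e : ∀ x, h x ^ 2 = h x * phi z₁ (G₀ N) x - h x * phi z₀ (G₀ 0) x
        - h x * ∫ x', f x' ∂ρ := fun x => by simp only [hh, hf]; ring
    simp_rw [e]
    rw [integral_sub (cint (by fun_prop)) (cint (by fun_prop)), integral_mul_const, hh0]
    simp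
  have hsu : s * ∫ x, h x * u x ∂ρ ≤ s * (linC K R / 2 * Real.sqrt s) :=
    mul_le_mul_of_nonneg_left ((le_abs_self _).trans hM) hs.le
  have hu2 : ∫ x, h x * u x ∂ρ
      = (∫ x, h x * φN x ∂ρ) - ∫ x, h x * φs x ∂ρ := by
    simp only [hu, mul_sub]
    exact integral_sub (cint (by fun_prop)) (cint (by fun_prop))
  simp only [hφN, hφs] at hu2
  rw [hu2] at hsu
  have main : s * ∫ x, h x ^ 2 ∂ρ ≤ T + 4 * R ^ 2 / N + s * (linC K R / 2 * Real.sqrt s) := by
    have hq' := congrArg (fun r => s * r) hq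
    simp only [mul_sub] at hq' hsu
    linarith
  have hA : 0 < linA R := by rw [linA]; positivity
  have e1 : s * (linA R * (∑ i, m i * ‖z₁ i - z₀ i‖ ^ 2) + 200 * R * ε / (linA R * s ^ 2)
      + 8 * R ^ 2 / (N * s) + linC K R * Real.sqrt s)
      = 2 * (linA R * s / 2 * (∑ i, m i * ‖z₁ i - z₀ i‖ ^ 2) + 100 * R * ε / (linA R * s)
        + 4 * R ^ 2 / N + s * (linC K R / 2 * Real.sqrt s)) := by
    field_simp
    ring
  refine le_of_mul_le_mul_left ?_ hs
  rw [e1]
  simp only [hT] at main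
  linarith

end Vale.Agent.P074
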