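import Vale.Agent.P074.Grid
import Mathlib.MeasureTheory.Measure.Portmanteau
import Mathlib.MeasureTheory.Function.SimpleFuncDense
import Mathlib.MeasureTheory.Function.SpecialFunctions.Inner

/-! Approximation of arbitrary targets by semi-discrete maps, existence and uniqueness of optimal
maps, and admissibility of the exponent one third. -/

open MeasureTheory Filter Set
open scoped ENNReal NNReal RealInnerProductSpace Topology

namespace Vale.Agent.P074

variable {d : ℕ} {K : Set (Spc d)} {R : ℝ}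

/-- `T` is a semi-discrete map approximating transport from the body to `μ` within `δ`. -/
def Approx (K : Set (Spc d)) (R : ℝ) (μ : Measure (Spc d)) (δ : ℝ) (T : Spc d → Spc d) : Prop :=
  Measurable T ∧ (∀ x, ‖T x‖ ≤ R) ∧
  (∀ (G : Spc d → ℝ) (L : ℝ), (∀ y y', |G y - G y'| ≤ L * ‖y - y'‖) →
    |∫ x, G (T x) ∂uniformOn K - ∫ y, G y ∂μ| ≤ L * δ) ∧
  ∃ (φ G : Spc d → ℝ), Continuous φ ∧ Continuous G ∧
    (∀ y y', |G y - G y'| ≤ 2 * R * ‖y - y'‖) ∧
    (∀ x ∈ K, ∀ y, ‖y‖ ≤ R → ⟪x, y⟫ ≤ φ x + G y) ∧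
    (∫ x, φ x ∂uniformOn K) + (∫ x, G (T x) ∂uniformOn K) ≤ ∫ x, ⟪x, T x⟫ ∂uniformOn K ∧
    ∀ T' : Spc d → Spc d, Measurable T' → (∀ᵐ x ∂uniformOn K, ‖T' x‖ ≤ R) →
      ∀ q : ℝ, 0 < q → ∫ x, (φ x + G (T' x) - ⟪x, T' x⟫) ∂uniformOn K ≤ q →
        ∫ x, ‖T' x - T x‖ ∂uniformOn K ≤ gapC K R * Real.sqrt q

lemma integrable_comp (hB : Body K R) {T : Spc d → Spc d} (hT : Measurable T)
    (hTb : ∀ᵐ x ∂uniformOn K, ‖T x‖ ≤ R) {G : Spc d → ℝ} (hG : Continuous G) :
    Integrable (fun x => G (T x)) (uniformOn K) := by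
  have := hB.isProb
  obtain ⟨C, hC⟩ := (isCompact_closedBall (0 : Spc d) R).exists_bound_of_continuousOn hG.continuousOn
  exact Integrable.of_bound (hG.measurable.comp hT).aestronglyMeasurable C
    (hTb.mono fun x hx => hC _ (by simpa using hx))

lemma integrable_inner (hB : Body K R) {T : Spc d → Spc d} (hT : Measurable T)
    (hTb : ∀ᵐ x ∂uniformOn K, ‖T x‖ ≤ R) :
    Integrable (fun x => ⟪x, T x⟫) (uniformOn K) := by
  have := hB.isProb
  refine Integrable.of_bound (Measurable.inner measurable_id hT).aestronglyMeasurable (R * R) ?_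
  filter_upwards [hTb, hB.ae_norm_le] with x hx hx'
  exact (abs_real_inner_le_norm _ _).trans (mul_le_mul hx' hx (norm_nonneg _) hB.nonneg)

lemma integrable_continuous (hB : Body K R) {φ : Spc d → ℝ} (hφ : Continuous φ) :
    Integrable φ (uniformOn K) := by
  obtain ⟨C, hC⟩ := hB.compact.exists_bound_of_continuousOn hφ.continuousOn
  exact hB.integrable hφ.aestronglyMeasurable hC

/-- A map with law near `μ` and nearly maximal correlation is close to an approximation. -/
lemma Approx.near (hB : Body K R) {μ : Measure (Spc d)} {δ δ' q : ℝ} {T T' : Spc d → Spc d}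
    (hA : Approx K R μ δ T) (hT' : Measurable T') (hTb : ∀ᵐ x ∂uniformOn K, ‖T' x‖ ≤ R)
    (hlaw : ∀ (G : Spc d → ℝ) (L : ℝ), (∀ y y', |G y - G y'| ≤ L * ‖y - y'‖) →
      |∫ x, G (T' x) ∂uniformOn K - ∫ y, G y ∂μ| ≤ L * δ') :
    (∫ x, ⟪x, T' x⟫ ∂uniformOn K) ≤ (∫ x, ⟪x, T x⟫ ∂uniformOn K) + 2 * R * (δ + δ') ∧
    ((∫ x, ⟪x, T x⟫ ∂uniformOn K) + 2 * R * (δ + δ')
        ≤ (∫ x, ⟪x, T' x⟫ ∂uniformOn K) + q → 0 < q →
      ∫ x, ‖T' x - T x‖ ∂uniformOn K ≤ gapC K R * Real.sqrt q) := by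
  have := hB.isProb
  obtain ⟨hT, hTn, hlawT, φ, G, hφ, hG, hGlip, hdual, hval, hgap⟩ := hA
  have h1 := abs_le.1 (hlawT G (2 * R) hGlip)
  have h2 := abs_le.1 (hlaw G (2 * R) hGlip)
  have iφ := integrable_continuous hB hφ
  have iG := integrable_comp hB hT' hTb hG
  have iI := integrable_inner hB hT' hTb
  have e : ∫ x, (φ x + G (T' x) - ⟪x, T' x⟫) ∂uniformOn K
      = (∫ x, φ x ∂uniformOn K) + (∫ x, G (T' x) ∂uniformOn K)
        - ∫ x, ⟪x, T' x⟫ ∂uniformOn K := by
    rw [integral_sub (iφ.fun_add iG) iI, integral_add iφ iG]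
  have h0 : 0 ≤ ∫ x, (φ x + G (T' x) - ⟪x, T' x⟫) ∂uniformOn K := by
    refine integral_nonneg_of_ae ?_
    filter_upwards [hTb, hB.ae_mem] with x hx hxK
    have := hdual x hxK _ hx
    simp only [Pi.zero_apply]; linarith
  exact ⟨by linarith, fun hle hq => hgap T' hT' hTb q hq (by linarith)⟩

lemma Approx.close (hB : Body K R) {μ : Measure (Spc d)} {δ δ' : ℝ} {T T' : Spc d → Spc d}
    (hA : Approx K R μ δ T) (hA' : Approx K R μ δ' T') (hδ : 0 < δ) (hδ' : 0 < δ') :
    ∫ x, ‖T' x - T x‖ ∂uniformOn K ≤ gapC K R * Real.sqrt (4 * R * (δ + δ')) ∧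
    |(∫ x, ⟪x, T' x⟫ ∂uniformOn K) - ∫ x, ⟪x, T x⟫ ∂uniformOn K| ≤ 2 * R * (δ + δ') := by
  have hR : 0 < R := lt_of_lt_of_le one_pos hB.one_le
  have h1 := hA.near hB (q := 4 * R * (δ + δ')) hA'.1 (Eventually.of_forall hA'.2.1) hA'.2.2.1
  have h2 := hA'.near hB (q := 4 * R * (δ + δ')) hA.1 (Eventually.of_forall hA.2.1) hA.2.2.1
  refine ⟨h1.2 (by linarith [h2.1]) (by positivity), ?_⟩
  rw [abs_le]
  constructor <;> linarith [h1.1, h2.1]

lemma integral_sq_le (hB : Body K R) {F : Spc d → Spc d} (hF : Measurable F)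
    (hFb : ∀ᵐ x ∂uniformOn K, ‖F x‖ ≤ 2 * R) :
    ∫ x, ‖F x‖ ^ 2 ∂uniformOn K ≤ 2 * R * ∫ x, ‖F x‖ ∂uniformOn K := by
  have := hB.isProb
  have i1 : Integrable (fun x => ‖F x‖) (uniformOn K) :=
    Integrable.of_bound hF.norm.aestronglyMeasurable (2 * R)
      (hFb.mono fun x hx => by rwa [norm_norm])
  rw [← integral_const_mul]
  refine integral_mono_ae (Integrable.of_bound (hF.norm.pow_const 2).aestronglyMeasurable
    ((2 * R) ^ 2) (hFb.mono fun x hx => by
      rw [norm_pow, norm_norm]; exact pow_le_pow_left₀ (norm_nonneg _) hx 2))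
    (i1.const_mul _) (hFb.mono fun x hx => ?_)
  show ‖F x‖ ^ 2 ≤ 2 * R * ‖F x‖
  rw [pow_two]
  exact mul_le_mul_of_nonneg_right hx (norm_nonneg _)

/-- The cells of a family with prescribed masses give an approximation. -/
lemma approx_of_cells {I : Type*} [Fintype I] [Nonempty I] (hB : Body K R) (z : I → Spc d)
    (g : I → ℝ) (hzi : Function.Injective z) (hzR : ∀ i, ‖z i‖ ≤ R) {m : I → ℝ}
    (hmass : ∀ i, (uniformOn K).real (cell z g i) = m i) {μ : Measure (Spc d)} {δ : ℝ}
    (hlaw : ∀ (G : Spc d → ℝ) (L : ℝ), (∀ y y', |G y - G y'| ≤ L * ‖y - y'‖) →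
      |(∑ i, m i * G (z i)) - ∫ y, G y ∂μ| ≤ L * δ) :
    Approx K R μ δ (gradMap z g) := by
  have := hB.isProb
  have hR := hB.nonneg
  have hint : ∀ G : Spc d → ℝ, ∫ x, G (gradMap z g x) ∂uniformOn K = ∑ i, m i * G (z i) := by
    intro G
    have h := integral_sel z g hzi hB.ac (fun i _ => G (z i)) fun i => integrable_const _
    simp only [setIntegral_const, hmass, smul_eq_mul] at h
    exact h
  refine ⟨measurable_gradMap z g, norm_gradMap_le z g hzR, fun G L hG => by
    rw [hint]; exact hlaw G L hG, phi z g, conj z g R, continuous_phi z g,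
    continuous_conj z g hR, abs_conj_sub_le z g hR, ?_, ?_, ?_⟩
  · intro x hx y _
    have := le_conj z g (show ‖x‖ ≤ 2 * R by linarith [hB.norm_le hx]) y
    linarith
  · rw [hint]
    have hv := dual_eq_value z g hzi hB.ac hB.ae_norm_le hmass hzR
    have hi : ∀ i, Integrable (fun x => ⟪x, z i⟫) (uniformOn K) := fun i =>
      integrable_continuous hB (by fun_prop)
    have he : ∫ x, ⟪x, gradMap z g x⟫ ∂uniformOn K = value z g (uniformOn K) :=
      integral_sel z g hzi hB.ac (fun i x => ⟪x, z i⟫) hi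
    rw [he, ← hv, dual]
    refine add_le_add le_rfl (Finset.sum_le_sum fun i _ => ?_)
    refine mul_le_mul_of_nonneg_left (conj_apply_le z g hR i) ?_
    rw [← hmass i]; exact measureReal_nonneg
  · intro T' hT' hTb q hq hle
    exact integral_norm_sub_le hB z g hzR hT' hTb (fun p y hp _ => le_conj z g hp y)
      (((integrable_continuous hB (continuous_phi z g)).add
        (integrable_comp hB hT' hTb (continuous_conj z g hR))).sub
        (integrable_inner hB hT' hTb)) hq hle

/-- Simultaneous approximation of the two marginals of a coupling. -/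
theorem exists_approx_pair (hd : 0 < d) (hB : Body K R) {c₀ : Spc d} {r : ℝ} (hr : 0 < r)
    (hball : Metric.closedBall c₀ r ⊆ K) {Y : Set (Spc d)} (hY : IsCompact Y)
    (hYR : ∀ y ∈ Y, ‖y‖ + 1 ≤ R) (π : Measure (Spc d × Spc d)) [IsProbabilityMeasure π]
    (hπ : ∀ᵐ p ∂π, p.1 ∈ Y ∧ p.2 ∈ Y) {η : ℝ} (hη : 0 < η) (hη1 : η ≤ 1) :
    ∃ T S : Spc d → Spc d, Approx K R (π.map Prod.fst) (2 * η) T ∧
      Approx K R (π.map Prod.snd) (2 * η) S ∧
      ∫ x, ‖S x - T x‖ ^ 2 ∂uniformOn K ≤ interpC K R r *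
        (linA R * ((∫ p, ‖p.2 - p.1‖ ^ 2 ∂π) + 20 * R * η) + η) ^ (1 / 3 : ℝ) := by
  classical
  have hR := hB.nonneg
  -- a simple map moving points less than `η`
  have hne : (Y ×ˢ Y).Nonempty := by
    obtain ⟨p, hp⟩ := hπ.exists; exact ⟨p, hp⟩
  obtain ⟨p₀, hp₀⟩ := hne
  obtain ⟨t, htY, htfin, htcov⟩ := (hY.prod hY).finite_cover_balls hη
  set l := htfin.toFinset.toList
  set e : ℕ → Spc d × Spc d := fun k => if h : k < l.length then l[k] else p₀
  have heY : ∀ k, e k ∈ Y ×ˢ Y := fun k => by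
    simp only [e]
    split_ifs with hk
    · exact htY (htfin.mem_toFinset.1 (Finset.mem_toList.1 (List.getElem_mem hk)))
    · exact hp₀
  set f : SimpleFunc (Spc d × Spc d) (Spc d × Spc d) := SimpleFunc.nearestPt e l.length
  have hfY : ∀ p, f p ∈ Y ×ˢ Y := fun p => by
    simp only [f, SimpleFunc.nearestPt, SimpleFunc.map_apply]; exact heY _
  have hfd : ∀ᵐ p ∂π, ‖f p - p‖ ≤ η := by
    filter_upwards [hπ] with p hp
    obtain ⟨c, hc, hpc⟩ := Set.mem_iUnion₂.1 (htcov (show p ∈ Y ×ˢ Y from hp))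
    obtain ⟨k, hk, hkc⟩ := List.getElem_of_mem (show c ∈ l by simpa [l] using hc)
    have h1 := SimpleFunc.edist_nearestPt_le e p hk.le
    rw [show e k = c by simp only [e, dif_pos hk, hkc], edist_dist,
      edist_dist, ENNReal.ofReal_le_ofReal_iff dist_nonneg, dist_eq_norm] at h1
    rw [Metric.mem_ball, dist_comm] at hpc
    exact h1.trans hpc.le
  -- the discrete data
  set fib : Spc d × Spc d → Set (Spc d × Spc d) := fun j => f ⁻¹' {j}
  set Js := f.range.filter fun j => 0 < π.real (fib j) with hJs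
  have hsum : ∀ F : Spc d × Spc d → ℝ, ∑ j : Js, π.real (fib j) * F j = ∫ p, F (f p) ∂π := by
    intro F
    have e1 : ∀ p, F (f p) = ∑ j ∈ f.range, (fib j).indicator (fun _ => F j) p := by
      intro p
      rw [Finset.sum_eq_single (f p)]
      · simp [fib]
      · intro j _ hj; simp [fib, Ne.symm hj]
      · intro h; exact absurd (SimpleFunc.mem_range_self f p) h
    simp_rw [e1]
    rw [integral_finsetSum _ fun j _ =>
      (integrable_const _).indicator (f.measurableSet_fiber j)]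
    simp only [fib, integral_indicator_const _ (f.measurableSet_fiber _), smul_eq_mul]
    rw [Finset.sum_coe_sort Js fun j => π.real (f ⁻¹' {j}) * F j, hJs]
    refine Finset.sum_filter_of_ne fun j _ hne => ?_
    exact lt_of_le_of_ne measureReal_nonneg fun h => hne (by rw [← h, zero_mul])
  have hm1 : ∑ j : Js, π.real (fib j) = 1 := by simpa using hsum fun _ => 1
  have hm : ∀ j : Js, 0 < π.real (fib j) := fun j => (Finset.mem_filter.1 j.2).2
  have : Nonempty Js := by
    by_contra hempty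
    rw [not_nonempty_iff] at hempty
    simp at hm1
  have hJY : ∀ j : Js, j.1.1 ∈ Y ∧ j.1.2 ∈ Y := fun j => by
    obtain ⟨p, hp⟩ := SimpleFunc.mem_range.1 (Finset.mem_filter.1 j.2).1
    rw [← hp]; exact hfY p
  obtain ⟨n, z₀, z₁, g₀, g₁, hi0, hi1, hb0, hb1, hc0, hc1, hg0, hg1, hmain⟩ :=
    discrete_stability (J := Js) hd hB hr hball (fun j => π.real (fib j)) hm hm1
      (fun j => j.1.1) (fun j => j.1.2) hη hη
      (fun j => by linarith [hYR _ (hJY j).1]) (fun j => by linarith [hYR _ (hJY j).2])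
  have law : ∀ (z : Js × (Fin d → Fin (n + 1)) → Spc d) (P : Spc d × Spc d → Spc d),
      Measurable P → (∀ p q, ‖P p - P q‖ ≤ ‖p - q‖) → (∀ i, ‖z i - P i.1.1‖ ≤ η) →
      (∀ᵐ p ∂π, P p ∈ Y) →
      ∀ (G : Spc d → ℝ) (L : ℝ), (∀ y y', |G y - G y'| ≤ L * ‖y - y'‖) →
        |(∑ i, π.real (fib i.1.1) / ((n : ℝ) + 1) ^ d * G (z i)) - ∫ y, G y ∂(π.map P)|
          ≤ L * (2 * η) := by
    intro z P hP hP1 hz hPY G L hG
    have hL : 0 ≤ L := by
      have h := hG (EuclideanSpace.single ⟨0, hd⟩ 1) 0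
      simp at h; exact (abs_nonneg _).trans h
    have hGc : Continuous G := (LipschitzWith.of_dist_le_mul (K := ⟨L, hL⟩) fun y y' => by
      rw [Real.dist_eq, dist_eq_norm]; exact hG y y').continuous
    rw [integral_map hP.aemeasurable hGc.aestronglyMeasurable]
    have i1 : Integrable (fun p => G (P (f p))) π := by
      have := (f.map fun p => G (P p)).integrable_of_isFiniteMeasure (μ := π)
      exact this
    obtain ⟨C, hC⟩ := hY.exists_bound_of_continuousOn hGc.continuousOn
    have i2 : Integrable (fun p => G (P p)) π :=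
      Integrable.of_bound (hGc.measurable.comp hP).aestronglyMeasurable C
        (hPY.mono fun p hp => hC _ hp)
    have h1 : |∫ p, G (P (f p)) ∂π - ∫ p, G (P p) ∂π| ≤ L * η := by
      rw [← integral_sub i1 i2, ← Real.norm_eq_abs]
      refine (norm_integral_le_of_norm_le_const (C := L * η) ?_).trans (le_of_eq (by simp))
      filter_upwards [hfd] with p hp
      exact (hG _ _).trans (mul_le_mul_of_nonneg_left ((hP1 _ _).trans hp) hL)
    have h2 : |(∑ i : Js × (Fin d → Fin (n + 1)),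
          π.real (fib i.1.1) / ((n : ℝ) + 1) ^ d * G (z i))
        - ∑ j : Js, π.real (fib j) * G (P j)| ≤ L * η := by
      have e2 : ∑ j : Js, π.real (fib j) * G (P j) = ∑ i : Js × (Fin d → Fin (n + 1)),
          π.real (fib i.1.1) / ((n : ℝ) + 1) ^ d * G (P i.1.1) := by
        rw [Fintype.sum_prod_type]
        refine Finset.sum_congr rfl fun j _ => ?_
        simp; field_simp
      rw [e2, ← Finset.sum_sub_distrib]
      refine (Finset.abs_sum_le_sum_abs _ _).trans ?_
      calc _ ≤ ∑ i : Js × (Fin d → Fin (n + 1)),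
            π.real (fib i.1.1) / ((n : ℝ) + 1) ^ d * (L * η) := by
            refine Finset.sum_le_sum fun i _ => ?_
            rw [← mul_sub, abs_mul, abs_of_nonneg (by positivity)]
            exact mul_le_mul_of_nonneg_left
              ((hG _ _).trans (mul_le_mul_of_nonneg_left (hz i) hL)) (by positivity)
        _ = L * η := by
            rw [← Finset.sum_mul, Fintype.sum_prod_type]
            simp only [Finset.sum_const, Finset.card_univ, Fintype.card_fun, Fintype.card_fin,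
              nsmul_eq_mul, Nat.cast_pow, Nat.cast_add, Nat.cast_one]
            have : ∀ j : Js, ((n : ℝ) + 1) ^ d * (π.real (fib j) / ((n : ℝ) + 1) ^ d)
                = π.real (fib j) := fun j => by field_simp
            simp only [this, hm1, one_mul]
    rw [hsum fun p => G (P p)] at h2
    rw [abs_le] at h1 h2 ⊢
    constructor <;> linarith
  refine ⟨gradMap z₀ g₀, gradMap z₁ g₁,
    approx_of_cells hB z₀ g₀ hi0 hb0 hg0 (law z₀ Prod.fst measurable_fst
      (fun p q => norm_fst_le (p - q)) hc0 (hπ.mono fun p hp => hp.1)),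
    approx_of_cells hB z₁ g₁ hi1 hb1 hg1 (law z₁ Prod.snd measurable_snd
      (fun p q => norm_snd_le (p - q)) hc1 (hπ.mono fun p hp => hp.2)), ?_⟩
  refine hmain.trans (mul_le_mul_of_nonneg_left (Real.rpow_le_rpow ?_ ?_ (by norm_num)) ?_)
  · have : 0 ≤ ∑ j : Js, π.real (fib j) * ‖j.1.2 - j.1.1‖ ^ 2 :=
      Finset.sum_nonneg fun j _ => mul_nonneg (hm j).le (sq_nonneg _)
    have : 0 ≤ linA R := by rw [linA]; positivity
    positivity
  · refine add_le_add (mul_le_mul_of_nonneg_left ?_ (by rw [linA]; positivity)) le_rfl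
    rw [hsum fun p => ‖p.2 - p.1‖ ^ 2]
    have ib : ∀ᵐ p ∂π, ‖‖p.2 - p.1‖ ^ 2‖ ≤ (2 * R) ^ 2 := hπ.mono fun p hp => by
      rw [norm_pow, norm_norm]
      refine pow_le_pow_left₀ (norm_nonneg _) ((norm_sub_le _ _).trans ?_) 2
      linarith [hYR _ hp.1, hYR _ hp.2]
    have i1 : Integrable (fun p => ‖p.2 - p.1‖ ^ 2) π :=
      Integrable.of_bound (by fun_prop : Measurable fun p : Spc d × Spc d =>
        ‖p.2 - p.1‖ ^ 2).aestronglyMeasurable _ ib
    calc ∫ p, ‖(f p).2 - (f p).1‖ ^ 2 ∂π ≤ ∫ p, (‖p.2 - p.1‖ ^ 2 + 20 * R * η) ∂π := by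
          refine integral_mono_ae (show Integrable (fun p => ‖(f p).2 - (f p).1‖ ^ 2) π by
            have := (f.map fun p : Spc d × Spc d => ‖p.2 - p.1‖ ^ 2).integrable_of_isFiniteMeasure
              (μ := π)
            exact this)
            (i1.add (integrable_const _)) ?_
          filter_upwards [hfd, hπ] with p hp hpY
          have a1 := (norm_fst_le (f p - p)).trans hp
          have a2 := (norm_snd_le (f p - p)).trans hp
          rw [Prod.fst_sub] at a1
          rw [Prod.snd_sub] at a2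
          have a3 : ‖(f p).2 - (f p).1‖ ≤ ‖p.2 - p.1‖ + 2 * η := by
            have e : (f p).2 - (f p).1 = (p.2 - p.1) + (((f p).2 - p.2) - ((f p).1 - p.1)) := by
              abel
            rw [e]
            refine (norm_add_le _ _).trans (add_le_add le_rfl ((norm_sub_le _ _).trans ?_))
            linarith
          have a4 : ‖p.2 - p.1‖ ≤ 2 * R :=
            (norm_sub_le _ _).trans (by linarith [hYR _ hpY.1, hYR _ hpY.2])
          have a5 := pow_le_pow_left₀ (norm_nonneg _) a3 2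
          nlinarith [hB.one_le]
      _ = _ := by rw [integral_add i1 (integrable_const _)]; simp
  · have := sdC_nonneg hB
    rw [interpC]; positivity

/-- Bundled data for a source body, a target set and an enlarged radius. -/
structure Data (K Y : Set (Spc d)) (R : ℝ) (c₀ : Spc d) (r : ℝ) : Prop where
  dim : 0 < d
  body : Body K R
  radius : 0 < r
  ball : Metric.closedBall c₀ r ⊆ K
  target : IsCompact Y
  target_le : ∀ y ∈ Y, ‖y‖ + 1 ≤ R

lemma exists_data (hd : 0 < d) {K Y : Set (Spc d)} (hK : IsCompact K) (hKc : Convex ℝ K)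
    (hKi : (interior K).Nonempty) (hY : IsCompact Y) : ∃ R c₀ r, Data K Y R c₀ r := by
  obtain ⟨C, hC⟩ := hK.isBounded.subset_closedBall 0
  obtain ⟨C', hC'⟩ := hY.isBounded.subset_closedBall 0
  obtain ⟨c₀, hc₀⟩ := hKi
  obtain ⟨r, hr, hball⟩ := Metric.nhds_basis_closedBall.mem_iff.1 (mem_interior_iff_mem_nhds.1 hc₀)
  refine ⟨max (max C (C' + 1)) 1, c₀, r, hd, ⟨hK, hKc, ⟨c₀, hc₀⟩, hC.trans
    (Metric.closedBall_subset_closedBall (le_max_of_le_left (le_max_left _ _))),
    le_max_right _ _⟩, hr, hball, hY, fun y hy => ?_⟩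
  have := hC' hy
  rw [Metric.mem_closedBall, dist_zero_right] at this
  linarith [le_max_left (max C (C' + 1)) 1, le_max_right C (C' + 1)]

variable {Y : Set (Spc d)} {c₀ : Spc d} {r : ℝ}

lemma ae_mem_of_map (hD : Data K Y R c₀ r) {μ : Measure (Spc d)} (hμY : μ Yᶜ = 0)
    {T : Spc d → Spc d} (hT : Measurable T) (hmap : (uniformOn K).map T = μ) :
    ∀ᵐ x ∂uniformOn K, T x ∈ Y := by
  refine (ae_map_iff hT.aemeasurable hD.target.measurableSet).1 ?_
  rw [hmap]
  exact mem_ae_iff.2 hμY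

lemma norm_le_of_mem (hD : Data K Y R c₀ r) {y : Spc d} (hy : y ∈ Y) : ‖y‖ ≤ R := by
  linarith [hD.target_le y hy]

lemma lintegral_edist_sq (hD : Data K Y R c₀ r) {T : Spc d → Spc d} (hT : Measurable T)
    (hTb : ∀ᵐ x ∂uniformOn K, ‖T x‖ ≤ R) :
    ∫⁻ x, edist x (T x) ^ 2 ∂uniformOn K = ENNReal.ofReal ((∫ x, ‖x‖ ^ 2 ∂uniformOn K)
      - 2 * (∫ x, ⟪x, T x⟫ ∂uniformOn K) + ∫ x, ‖T x‖ ^ 2 ∂uniformOn K) := by
  have i1 := integrable_continuous hD.body (show Continuous fun x : Spc d => ‖x‖ ^ 2 by fun_prop)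
  have i2 := (integrable_inner hD.body hT hTb).const_mul 2
  have i3 := integrable_comp hD.body hT hTb (show Continuous fun x : Spc d => ‖x‖ ^ 2 by fun_prop)
  rw [← integral_const_mul, ← integral_sub i1 i2, ← integral_add (i1.sub' i2) i3,
    ofReal_integral_eq_lintegral_ofReal ((i1.sub' i2).fun_add i3) (Eventually.of_forall fun x => by
      simp only [Pi.zero_apply, ← norm_sub_sq_real]; positivity)]
  refine lintegral_congr fun x => ?_
  rw [edist_dist, dist_eq_norm, ← ENNReal.ofReal_pow (norm_nonneg _), norm_sub_sq_real]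

lemma optimal_iff (hD : Data K Y R c₀ r) {μ : Measure (Spc d)} (hμY : μ Yᶜ = 0)
    {T S : Spc d → Spc d} (hT : Measurable T) (hTm : (uniformOn K).map T = μ) (hS : Measurable S)
    (hSm : (uniformOn K).map S = μ) :
    ∫⁻ x, edist x (T x) ^ 2 ∂uniformOn K ≤ ∫⁻ x, edist x (S x) ^ 2 ∂uniformOn K ↔
      ∫ x, ⟪x, S x⟫ ∂uniformOn K ≤ ∫ x, ⟪x, T x⟫ ∂uniformOn K := by
  have := hD.body.isProb
  have hTb : ∀ᵐ x ∂uniformOn K, ‖T x‖ ≤ R :=
    (ae_mem_of_map hD hμY hT hTm).mono fun x hx => norm_le_of_mem hD hx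
  have hSb : ∀ᵐ x ∂uniformOn K, ‖S x‖ ≤ R :=
    (ae_mem_of_map hD hμY hS hSm).mono fun x hx => norm_le_of_mem hD hx
  rw [lintegral_edist_sq hD hT hTb, lintegral_edist_sq hD hS hSb]
  have hc : Continuous fun y : Spc d => ‖y‖ ^ 2 := by fun_prop
  have e : ∫ x, ‖T x‖ ^ 2 ∂uniformOn K = ∫ x, ‖S x‖ ^ 2 ∂uniformOn K := by
    rw [← integral_map hT.aemeasurable hc.aestronglyMeasurable,
      ← integral_map hS.aemeasurable hc.aestronglyMeasurable, hTm, hSm]
  rw [ENNReal.ofReal_le_ofReal_iff, e]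
  · constructor <;> intro h <;> linarith
  · have i1 := integrable_continuous hD.body hc
    have i2 := (integrable_inner hD.body hS hSb).const_mul 2
    have i3 := integrable_comp hD.body hS hSb hc
    rw [← integral_const_mul, ← integral_sub i1 i2, ← integral_add (i1.sub' i2) i3]
    exact integral_nonneg fun x => by
      simp only [Pi.zero_apply, ← norm_sub_sq_real]; positivity

lemma law_of_map (hD : Data K Y R c₀ r) {μ : Measure (Spc d)} {T : Spc d → Spc d}
    (hT : Measurable T) (hmap : (uniformOn K).map T = μ) :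
    ∀ (G : Spc d → ℝ) (L : ℝ), (∀ y y', |G y - G y'| ≤ L * ‖y - y'‖) →
      |∫ x, G (T x) ∂uniformOn K - ∫ y, G y ∂μ| ≤ L * 0 := by
  intro G L hG
  have hL : 0 ≤ L := by
    have h := hG (EuclideanSpace.single ⟨0, hD.dim⟩ 1) 0
    simp at h; exact (abs_nonneg _).trans h
  have hGc : Continuous G := (LipschitzWith.of_dist_le_mul (K := ⟨L, hL⟩) fun y y' => by
    rw [Real.dist_eq, dist_eq_norm]; exact hG y y').continuous
  rw [← integral_map hT.aemeasurable hGc.aestronglyMeasurable, hmap]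
  simp

lemma exists_approx_seq (hD : Data K Y R c₀ r) {μ : Measure (Spc d)} [IsProbabilityMeasure μ]
    (hμY : μ Yᶜ = 0) {η : ℝ} (hη : 0 < η) (hη1 : η ≤ 1) :
    ∃ T, Approx K R μ (2 * η) T := by
  have hm : Measurable fun y : Spc d => (y, y) := measurable_id.prodMk measurable_id
  have := Measure.isProbabilityMeasure_map (μ := μ) hm.aemeasurable
  obtain ⟨T, S, hT, -, -⟩ := exists_approx_pair hD.dim hD.body hD.radius hD.ball hD.target
    hD.target_le (μ.map fun y => (y, y))
    ((ae_map_iff hm.aemeasurable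
      ((hD.target.measurableSet.preimage measurable_fst).inter
        (hD.target.measurableSet.preimage measurable_snd))).2 (by
      filter_upwards [show ∀ᵐ y ∂μ, y ∈ Y from mem_ae_iff.2 hμY] with y hy using ⟨hy, hy⟩)) hη hη1
  refine ⟨T, ?_⟩
  rwa [Measure.map_map measurable_fst hm, show (Prod.fst ∘ fun y : Spc d => (y, y)) = id from rfl,
    Measure.map_id] at hT

/-- Existence of optimal maps, as limits of semi-discrete maps. -/
theorem exists_optimal (hD : Data K Y R c₀ r) {μ : Measure (Spc d)} [IsProbabilityMeasure μ]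
    (hμY : μ Yᶜ = 0) : ∃ F, IsOptimalMap (uniformOn K) μ F ∧
      ∀ (η : ℝ) (T : Spc d → Spc d), 0 < η → Approx K R μ (2 * η) T →
        ∫ x, ⟪x, T x⟫ ∂uniformOn K ≤ (∫ x, ⟪x, F x⟫ ∂uniformOn K) + 4 * R * η := by
  have := hD.body.isProb
  have hR : 0 < R := lt_of_lt_of_le one_pos hD.body.one_le
  set ρ := uniformOn K
  set η : ℕ → ℝ := fun n => (1 / 4) ^ n
  have hη0 : ∀ n, 0 < η n := fun n => by positivity
  have hη1 : ∀ n, η n ≤ 1 := fun n => pow_le_one₀ (by norm_num) (by norm_num)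
  choose T hT using fun n => exists_approx_seq hD hμY (hη0 n) (hη1 n)
  set C := gapC K R * Real.sqrt (16 * R)
  have hstep : ∀ n, ∫ x, ‖T (n + 1) x - T n x‖ ∂ρ ≤ C * (1 / 2) ^ n := by
    intro n
    refine ((hT n).close hD.body (hT (n + 1)) (by linarith [hη0 n]) (by linarith [hη0 (n + 1)])).1.trans ?_
    show _ ≤ gapC K R * Real.sqrt (16 * R) * (1 / 2) ^ n
    rw [mul_assoc (gapC K R)]
    refine mul_le_mul_of_nonneg_left ?_ (gapC_nonneg hD.body)
    rw [← Real.sqrt_sq (show (0 : ℝ) ≤ (1 / 2) ^ n by positivity), ← Real.sqrt_mul (by positivity)]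
    refine Real.sqrt_le_sqrt ?_
    have : η (n + 1) ≤ η n := by
      simp only [η, pow_succ]; nlinarith [hη0 n]
    have e : ((1 / 2 : ℝ) ^ n) ^ 2 = η n := by
      simp only [η]; rw [← pow_mul, mul_comm n 2, pow_mul]; norm_num
    rw [e]
    nlinarith
  -- almost everywhere convergence
  have hae : ∀ᵐ x ∂ρ, ∃ y, Tendsto (fun n => T n x) atTop (𝓝 y) := by
    have hfin : ∫⁻ x, ∑' n, ‖T (n + 1) x - T n x‖ₑ ∂ρ ≠ ⊤ := by
      rw [lintegral_tsum fun n =>
        (show Measurable fun x => ‖T (n + 1) x - T n x‖ₑ from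
          ((hT (n + 1)).1.sub (hT n).1).enorm).aemeasurable]
      refine ne_top_of_le_ne_top (b := ∑' n, ENNReal.ofReal (C * (1 / 2) ^ n)) ?_
        (ENNReal.tsum_le_tsum fun n => ?_)
      · rw [← ENNReal.ofReal_tsum_of_nonneg (fun n => by
            have := gapC_nonneg hD.body; simp only [C]; positivity)
          ((summable_geometric_two).mul_left C)]
        exact ENNReal.ofReal_ne_top
      · have i : Integrable (fun x => T (n + 1) x - T n x) ρ :=
          hD.body.integrable ((hT (n + 1)).1.sub (hT n).1).aestronglyMeasurable (C := R + R)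
            fun x _ => (norm_sub_le _ _).trans (add_le_add ((hT (n + 1)).2.1 x) ((hT n).2.1 x))
        rw [← ofReal_integral_norm_eq_lintegral_enorm i]
        exact ENNReal.ofReal_le_ofReal (hstep n)
    filter_upwards [ae_lt_top (Measurable.ennreal_tsum fun n =>
      ((hT (n + 1)).1.sub (hT n).1).enorm) hfin] with x hx
    refine cauchySeq_tendsto_of_complete (cauchySeq_of_summable_dist ?_)
    have := ENNReal.summable_toReal hx.ne
    simpa [dist_eq_norm, norm_sub_rev] using this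
  obtain ⟨F, hF, hlim⟩ := exists_stronglyMeasurable_limit_of_tendsto_ae
    (fun n => (hT n).1.aestronglyMeasurable) hae
  have hFm := hF.measurable
  have hlim' : ∀ G : Spc d → ℝ, Continuous G →
      Tendsto (fun n => ∫ x, G (T n x) ∂ρ) atTop (𝓝 (∫ x, G (F x) ∂ρ)) := by
    intro G hG
    obtain ⟨B, hB'⟩ := (isCompact_closedBall (0 : Spc d) R).exists_bound_of_continuousOn
      hG.continuousOn
    exact tendsto_integral_of_dominated_convergence (fun _ => B)
      (fun n => (hG.measurable.comp (hT n).1).aestronglyMeasurable) (integrable_const _)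
      (fun n => Eventually.of_forall fun x => hB' _ (by simpa using (hT n).2.1 x))
      (hlim.mono fun x hx => (hG.tendsto _).comp hx)
  have hη : Tendsto (fun n => 2 * η n) atTop (𝓝 0) := by
    rw [← mul_zero (2 : ℝ)]
    exact (tendsto_pow_atTop_nhds_zero_of_lt_one (r := (1 / 4 : ℝ)) (by norm_num)
      (by norm_num)).const_mul 2
  have hmap : ρ.map F = μ := by
    have hP := Measure.isProbabilityMeasure_map (μ := ρ) hFm.aemeasurable
    let P₁ : ProbabilityMeasure (Spc d) := ⟨ρ.map F, hP⟩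
    let P₂ : ProbabilityMeasure (Spc d) := ⟨μ, inferInstance⟩
    suffices h : P₁ = P₂ from congrArg ProbabilityMeasure.toMeasure h
    refine tendsto_nhds_unique (tendsto_const_nhds (x := P₁) (f := (atTop : Filter ℕ)))
      (tendsto_iff_forall_lipschitz_integral_tendsto.2 fun G _ hGl => ?_)
    obtain ⟨L, hL⟩ := hGl
    have h1 : Tendsto (fun n => ∫ x, G (T n x) ∂ρ) atTop (𝓝 (∫ y, G y ∂μ)) := by
      rw [tendsto_iff_dist_tendsto_zero]
      refine squeeze_zero (fun n => dist_nonneg) (fun n => ?_)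
        (by simpa using hη.const_mul (L : ℝ))
      rw [Real.dist_eq]
      exact (hT n).2.2.1 G L fun y y' => by
        have := hL.dist_le_mul y y'
        rwa [Real.dist_eq, dist_eq_norm] at this
    have e := tendsto_nhds_unique (hlim' G hL.continuous) h1
    simp only [P₁, P₂, ProbabilityMeasure.coe_mk]
    rw [integral_map hFm.aemeasurable hL.continuous.aestronglyMeasurable, e]
    exact tendsto_const_nhds
  have hI : Tendsto (fun n => ∫ x, ⟪x, T n x⟫ ∂ρ) atTop (𝓝 (∫ x, ⟪x, F x⟫ ∂ρ)) := by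
    refine tendsto_integral_of_dominated_convergence (fun _ => R * R)
      (fun n => (Measurable.inner measurable_id (hT n).1).aestronglyMeasurable) (integrable_const _)
      (fun n => ?_) (hlim.mono fun x hx => (Continuous.tendsto (by fun_prop) _).comp hx)
    filter_upwards [hD.body.ae_norm_le] with x hx
    exact (abs_real_inner_le_norm _ _).trans
      (mul_le_mul hx ((hT n).2.1 x) (norm_nonneg _) hR.le)
  have hI2 : Tendsto (fun n => (∫ x, ⟪x, T n x⟫ ∂ρ) + 2 * R * (2 * η n)) atTop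
      (𝓝 (∫ x, ⟪x, F x⟫ ∂ρ)) := by simpa using hI.add (hη.const_mul (2 * R))
  refine ⟨F, ⟨hFm, hmap, fun S hS hSm => (optimal_iff hD hμY hFm hmap hS hSm).2 ?_⟩,
    fun e' T' he' hT' => ?_⟩
  swap
  · refine le_trans ?_ (le_of_eq (add_comm _ _))
    rw [← sub_le_iff_le_add']
    refine ge_of_tendsto hI2 (Eventually.of_forall fun n => ?_)
    have := (abs_le.1 (hT'.close hD.body (hT n) (by linarith) (by linarith [hη0 n])).2).1
    linarith
  refine ge_of_tendsto hI2 (Eventually.of_forall fun n => ?_)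
  exact le_trans ((hT n).near hD.body (q := 1) hS
    ((ae_mem_of_map hD hμY hS hSm).mono fun x hx => norm_le_of_mem hD hx)
    (law_of_map hD hS hSm)).1 (le_of_eq (by ring))

/-- An optimal map is within `√η` of any approximation. -/
theorem optimal_close (hD : Data K Y R c₀ r) {μ : Measure (Spc d)} [IsProbabilityMeasure μ]
    (hμY : μ Yᶜ = 0) {T' T : Spc d → Spc d} (hT' : IsOptimalMap (uniformOn K) μ T') {η : ℝ}
    (hη : 0 < η) (hA : Approx K R μ (2 * η) T) :
    ∫ x, ‖T' x - T x‖ ∂uniformOn K ≤ gapC K R * Real.sqrt (16 * R * η) := by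
  have := hD.body.isProb
  have hR : 0 < R := lt_of_lt_of_le one_pos hD.body.one_le
  obtain ⟨hT'm, hmap, hopt⟩ := hT'
  obtain ⟨F, hF, hFbest⟩ := exists_optimal hD hμY
  refine (hA.near hD.body (δ' := 0) hT'm
    ((ae_mem_of_map hD hμY hT'm hmap).mono fun x hx => norm_le_of_mem hD hx)
    (law_of_map hD hT'm hmap)).2 ?_ (by positivity)
  have h1 := hFbest η T hη hA
  have h2 := (optimal_iff hD hμY hT'm hmap hF.1 hF.2.1).1 (hopt F hF.1 hF.2.1)
  have := mul_nonneg hR.le hη.le
  linarith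

end Vale.Agent.P074
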